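import Vale.Agent.P057GA.Jnt

/-!
Integer forms in position coordinates on the fibres of a centred system.
-/

open Matrix Finset
open Vale.Agent.P267.H775 Vale.Agent.P057G Vale.Agent.P057MA

namespace Vale.Agent.P057GA

noncomputable section

variable {V ι ι1 ι2 ι3 : Type} [DecidableEq V] [DecidableEq ι] [Fintype ι] [DecidableEq ι1]
  [Fintype ι1] [DecidableEq ι2] [Fintype ι2] [DecidableEq ι3] [Fintype ι3]

/-- maps that carry forms to forms -/
structure FM (S1 : MS V ι1) (q1 : Finset ι1) (S2 : MS V ι2) (q2 : Finset ι2) (A : Finset V)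
    (m : (ι1 → ℝ) → ι2 → ℝ) : Prop where
  on : ∀ a ∈ q2, On q1 fun z => m z a
  lin : ∀ v ∈ A, ∀ a ∈ q2, a ∈ S2.st v → Lin (S1.st v) fun z => m z a
  out : ∀ v ∈ A, ∀ a ∈ q2, a ∉ S2.st v → ∀ x y, m (mix (S1.st v) x y) a = m y a

theorem FM.fm {S1 : MS V ι1} {q1 : Finset ι1} {S2 : MS V ι2} {q2 : Finset ι2} {A : Finset V}
    {m : (ι1 → ℝ) → ι2 → ℝ} (h : FM S1 q1 S2 q2 A m) {f : (ι2 → ℝ) → ℝ} (hf : Fm S2 q2 A f) :
    Fm S1 q1 A fun z => f (m z) :=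
  ⟨fun z z' hz => hf.on _ _ fun a ha => h.on a ha z z' hz,
    fun v hv => lin_comp hf.on (hf.lin v hv) (h.lin v hv) (h.out v hv)⟩

omit [DecidableEq ι3] in
theorem FM.comp {S1 : MS V ι1} {q1 : Finset ι1} {S2 : MS V ι2} {q2 : Finset ι2} {S3 : MS V ι3}
    {q3 : Finset ι3} {A : Finset V} {m : (ι1 → ℝ) → ι2 → ℝ} {m' : (ι2 → ℝ) → ι3 → ℝ}
    (h : FM S1 q1 S2 q2 A m) (h' : FM S2 q2 S3 q3 A m') : FM S1 q1 S3 q3 A fun z => m' (m z) := by
  refine ⟨fun a ha z z' hz => h'.on a ha _ _ fun k hk => h.on k hk z z' hz, fun v hv a ha h1 =>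
    lin_comp (h'.on a ha) (h'.lin v hv a ha h1) (h.lin v hv) (h.out v hv),
    fun v hv a ha h1 x y => ?_⟩
  rw [← h'.out v hv a ha h1 (m (mix (S1.st v) x y)) (m y)]
  refine h'.on a ha _ _ fun k hk => ?_
  by_cases h2 : k ∈ S2.st v
  · rw [mix_pos _ _ h2]
  · rw [mix_neg _ _ h2, h.out v hv k hk h2]

omit [DecidableEq ι2] in
theorem fm_proj {S1 : MS V ι1} {q1 : Finset ι1} {S2 : MS V ι2} {q2 : Finset ι2} (A : Finset V)
    (e : ι2 → ι1) (h1 : ∀ a ∈ q2, e a ∈ q1) (h2 : ∀ a ∈ q2, S1.fc (e a) = S2.fc a) :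
    FM S1 q1 S2 q2 A fun z => z ∘ e :=
  ⟨fun a ha => On.coord (h1 a ha),
    fun _ _ a ha h => lin_coord (S1.mem_st.2 (h2 a ha ▸ S2.mem_st.1 h)),
    fun _ _ a ha h _ _ => mix_neg _ _ fun h3 => h (S2.mem_st.2 (h2 a ha ▸ S1.mem_st.1 h3))⟩

/-- the point with frozen part `y` and positions `u` on the faces that meet `A` -/
def lft (S : MS V ι) (A : Finset V) (y u : ι → ℝ) : ι → ℝ :=
  lift S (mix (S.sts A) u (pos S y))

variable {S : MS V ι} {q : Finset ι} {A : Finset V} {b : V}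

theorem cls_out (hq : Cls S q) (A : Finset V) : Cls S (q \ S.sts A) := by
  refine ⟨fun i j h1 h2 hi => mem_sdiff.2 ⟨hq.blk i j h1 h2 (mem_sdiff.1 hi).1, fun h => ?_⟩,
    fun i hi j hj => mem_sdiff.2 ⟨hq.dep i (mem_sdiff.1 hi).1 j hj, fun h => ?_⟩⟩
  · exact (mem_sdiff.1 hi).2 (MS.mem_sts.2 (h1 ▸ MS.mem_sts.1 h))
  · obtain ⟨v, hv, h2⟩ := MS.mem_sts.1 h
    exact (mem_sdiff.1 hi).2 (MS.mem_sts.2 ⟨v, hv, hj.1 h2⟩)

theorem on_pos (h : S.Ok) (hq : Cls S q) {i : ι} (hi : i ∈ q) : On q fun z => pos S z i :=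
  (On.coord hi).pos h hq

theorem lft_congr (h : S.Ok) (hq : Cls S q) {y y' u u' : ι → ℝ}
    (hy : ∀ j ∈ q \ S.sts A, y j = y' j) (hu : ∀ j ∈ q ∩ S.sts A, u j = u' j) {i : ι}
    (hi : i ∈ q) : lft S A y u i = lft S A y' u' i := by
  refine on_lift h hq hi _ _ fun j hj => ?_
  by_cases h1 : j ∈ S.sts A
  · rw [mix_pos _ _ h1, mix_pos _ _ h1, hu j (mem_inter.2 ⟨hj, h1⟩)]
  · rw [mix_neg _ _ h1, mix_neg _ _ h1]
    exact on_pos h (cls_out hq A) (mem_sdiff.2 ⟨hj, h1⟩) _ _ hy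

theorem lft_pos (h : S.Ok) (z : ι → ℝ) : lft S A z (pos S z) = z := by
  rw [lft, mix_self, lift_pos h]

theorem lft_out (h : S.Ok) (y u : ι → ℝ) {i : ι} (hi : i ∉ S.sts A) : lft S A y u i = y i := by
  rw [← lft_pos (A := A) h y, lft_pos h y]
  refine (lft_congr h (cls_out (cls_univ S) A) (fun _ _ => rfl) (fun j hj => ?_)
    (mem_sdiff.2 ⟨mem_univ _, hi⟩)).trans (congrFun (lft_pos h y) i)
  exact absurd (mem_inter.1 hj).2 (mem_sdiff.1 (mem_inter.1 hj).1).2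

theorem pos_lft (h : S.Ok) (y u : ι → ℝ) {i : ι} (hi : i ∈ S.sts A) :
    pos S (lft S A y u) i = u i := by rw [lft, pos_lift h, mix_pos _ _ hi]

theorem ln2_lft (h : S.Ok) (y u : ι → ℝ) {r : Finset ι} (hr : r ⊆ S.sts A) :
    ln2 S r (lft S A y u) = qq S.G (msk r u) := by
  rw [ln2_eq, msk_congr fun i hi => pos_lft h y u (hr hi)]

theorem fm_lft (h : S.Ok) (hc : S.Cen) (hq : Cls S q) (y : ι → ℝ) :
    FM S (q ∩ S.sts A) S q A (lft S A y) := by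
  refine ⟨fun a ha u u' hu => lft_congr h hq (fun _ _ => rfl) hu ha, fun v hv a _ ha u => ?_,
    fun v hv a _ ha x u => ?_⟩
  · simp only [lft, mix_mix_sub (MS.st_subset_sts hv)]
    exact lin_itr h hc v _ a ha _
  · simp only [lft, mix_mix_sub (MS.st_subset_sts hv)]
    exact itr_indep h _ ha _ _

theorem lft_mix (h : S.Ok) (x y c w : ι → ℝ) :
    lft S A (mix (S.st b) x y) (mix (S.st b) c w) = lift S (mix (S.st b)
      (mix (S.sts A) c (pos S (mix (S.st b) x y))) (mix (S.sts A) w (pos S y))) := by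
  rw [lft]
  congr 1
  funext j
  by_cases h1 : j ∈ S.st b
  · simp only [mix, h1, if_true]
  · simp only [mix, h1, if_false]
    split_ifs
    · rfl
    · exact pos_indep h h1 x y

theorem lft_indep (h : S.Ok) (x y c w : ι → ℝ) {j : ι} (hj : j ∉ S.st b) :
    lft S A (mix (S.st b) x y) (mix (S.st b) c w) j = lft S A y w j := by
  rw [lft_mix h]
  exact itr_indep h _ hj _ _

omit [Fintype ι] in
theorem lin_sum {r : Finset ι} {f : (ι → ℝ) → ℝ} (hf : Lin r f) {J : Type} [Fintype J]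
    (n : J → ℝ) (x : J → ι → ℝ) (y : ι → ℝ) :
    f (mix r (∑ σ, n σ • x σ) y) = ∑ σ, n σ * f (mix r (x σ) y) := by
  have := map_sum ((hf y).mk' _) (fun σ => n σ • x σ) univ
  simpa only [map_smul, IsLinearMap.mk'_apply, smul_eq_mul] using this

theorem lft_sum (h : S.Ok) (hc : S.Cen) {J : Type} [Fintype J] (n : J → ℝ) (x c : J → ι → ℝ)
    (y w : ι → ℝ) {j : ι} (hj : j ∈ S.st b) :
    lft S A (mix (S.st b) (∑ σ, n σ • x σ) y) (mix (S.st b) (∑ σ, n σ • c σ) w) j =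
      ∑ σ, n σ * lft S A (mix (S.st b) (x σ) y) (mix (S.st b) (c σ) w) j := by
  simp only [lft_mix h]
  rw [← lin_sum (lin_lift h hc (lin_coord hj))]
  congr 1
  funext k
  by_cases h1 : k ∈ S.st b
  · rw [mix_pos _ _ h1, mix_pos _ _ h1]
    by_cases h2 : k ∈ S.sts A
    · simp [mix_pos _ _ h2]
    · rw [mix_neg _ _ h2, lin_sum (lin_pos h hc (lin_coord h1))]
      simp [mix_neg _ _ h2]
  · rw [mix_neg _ _ h1, mix_neg _ _ h1]

variable {J J' : Type} [Fintype J] [DecidableEq J] [Fintype J'] [DecidableEq J']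

/-- the view of one copy -/
def vw (S : MS V ι) (b : V) (σ : J) (Z : ι × Option J → ℝ) : ι → ℝ :=
  mix (S.st b) (fun j => Z (j, some σ)) fun j => Z (j, none)

theorem fm_vw (r : Finset ι) (σ : J) : FM (jS S J) (jq S r b J) S r A (vw S b σ) := by
  have e : vw S b σ = fun Z : ι × Option J → ℝ =>
      Z ∘ fun j => (j, if j ∈ S.st b then some σ else none) := by
    funext Z j
    simp only [vw, mix, Function.comp]
    split_ifs <;> rfl
  rw [e]
  refine fm_proj A _ (fun a ha => mem_jq.2 ⟨ha, ?_⟩) fun _ _ => rfl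
  by_cases h : a ∈ S.st b <;> simp [h]

/-- the joint point over the frozen points `mix (S.st b) (x σ) y` with positions `U` -/
def LF (S : MS V ι) (A : Finset V) (b : V) (y : ι → ℝ) (x : J → ι → ℝ) (U : ι × Option J → ℝ)
    (a : ι × Option J) : ℝ :=
  match a.2 with
  | none => lft S A y (fun j => U (j, none)) a.1
  | some σ => lft S A (mix (S.st b) (x σ) y) (vw S b σ U) a.1

omit [Fintype J] [DecidableEq J] in
theorem vw_LF (h : S.Ok) (y : ι → ℝ) (x : J → ι → ℝ) (U : ι × Option J → ℝ) (σ : J) :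
    vw S b σ (LF S A b y x U) = lft S A (mix (S.st b) (x σ) y) (vw S b σ U) := by
  funext j
  by_cases h1 : j ∈ S.st b
  · exact mix_pos _ _ h1
  · exact (mix_neg _ _ h1).trans (lft_indep h _ _ _ _ h1).symm

theorem fm_LF (h : S.Ok) (hc : S.Cen) (hq : Cls S q) (y : ι → ℝ) (x : J → ι → ℝ) :
    FM (jS S J) (jq S (q ∩ S.sts A) b J) (jS S J) (jq S (q ∩ S.sts A) b J) A (LF S A b y x) := by
  have h1 := fun σ => (fm_vw (S := S) (A := A) (b := b) (q ∩ S.sts A) σ).comp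
    (fm_lft h hc hq (mix (S.st b) (x σ) y))
  have h2 := (fm_proj (S1 := jS S J) (q1 := jq S (q ∩ S.sts A) b J) (S2 := S)
    (q2 := (q \ S.st b) ∩ S.sts A) A (fun j => (j, none)) (fun a ha => mem_jq.2
      ⟨mem_inter.2 ⟨(mem_sdiff.1 (mem_inter.1 ha).1).1, (mem_inter.1 ha).2⟩,
        iff_of_true rfl (mem_sdiff.1 (mem_inter.1 ha).1).2⟩) fun _ _ => rfl).comp
    (fm_lft h hc (hq.sdiff_st b) y)
  have m1 : ∀ {a : ι × Option J}, a ∈ jq S (q ∩ S.sts A) b J → a.1 ∈ q :=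
    fun ha => (mem_inter.1 (mem_jq.1 ha).1).1
  have m2 : ∀ {j : ι}, (j, none) ∈ jq S (q ∩ S.sts A) b J → j ∈ q \ S.st b :=
    fun ha => mem_sdiff.2 ⟨m1 ha, (mem_jq.1 ha).2.1 rfl⟩
  refine ⟨?_, ?_, ?_⟩
  · rintro ⟨j, _ | σ⟩ ha
    exacts [h2.on j (m2 ha), (h1 σ).on j (m1 ha)]
  · rintro v hv ⟨j, _ | σ⟩ ha h3
    exacts [h2.lin v hv j (m2 ha) (mem_jst.1 h3), (h1 σ).lin v hv j (m1 ha) (mem_jst.1 h3)]
  · rintro v hv ⟨j, _ | σ⟩ ha h3
    exacts [h2.out v hv j (m2 ha) fun h4 => h3 (mem_jst.2 h4),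
      (h1 σ).out v hv j (m1 ha) fun h4 => h3 (mem_jst.2 h4)]

omit [DecidableEq J] [Fintype J'] [DecidableEq J'] in
theorem vw_nm (n : J' → J → ℤ) (U : ι × Option J → ℝ) (σ' : J') :
    vw S b σ' (nm n U) = mix (S.st b) (∑ σ, (n σ' σ : ℝ) • fun j => U (j, some σ))
      fun j => U (j, none) := by
  unfold vw
  congr 1
  funext j
  simp [nm]

omit [DecidableEq J] in
theorem nm_LF (h : S.Ok) (hc : S.Cen) (n : J' → J → ℤ) (y : ι → ℝ) (x : J → ι → ℝ)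
    (U : ι × Option J → ℝ) {r : Finset ι} {a : ι × Option J'} (ha : a ∈ jq S r b J') :
    nm n (LF S A b y x U) a = LF S A b y (fun σ' => ∑ σ, (n σ' σ : ℝ) • x σ) (nm n U) a := by
  obtain ⟨j, _ | σ'⟩ := a
  · rfl
  · have hj : j ∈ S.st b := by
      by_contra h1
      exact absurd ((mem_jq.1 ha).2.2 h1) (by simp)
    simp only [LF]
    rw [vw_nm, lft_sum h hc _ _ _ _ _ hj]
    rfl

/-- a matrix acting on every copy -/
def wh (M : Matrix ι ι ℝ) (U : ι × Option J → ℝ) (a : ι × Option J) : ℝ :=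
  (M *ᵥ fun j => U (j, a.2)) a.1

omit [DecidableEq ι] [DecidableEq J] [Fintype J'] [DecidableEq J'] in
theorem wh_nm (M : Matrix ι ι ℝ) (n : J' → J → ℤ) (U : ι × Option J → ℝ) :
    wh M (nm n U) = nm n (wh M U) := by
  funext ⟨j, o⟩
  cases o with
  | none => rfl
  | some σ' =>
    simp only [wh, nm, mulVec, dotProduct, mul_sum]
    rw [sum_comm]
    exact sum_congr rfl fun _ _ => sum_congr rfl fun _ _ => by ring

omit [DecidableEq ι] [Fintype J] [DecidableEq J] in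
theorem wh_wh (M R : Matrix ι ι ℝ) (U : ι × Option J → ℝ) : wh M (wh R U) = wh (M * R) U := by
  funext a
  simp only [wh, ← mulVec_mulVec]

omit [Fintype J] [DecidableEq J] in
theorem wh_one (U : ι × Option J → ℝ) : wh 1 U = U := by
  funext a
  simp only [wh, one_mulVec]

/-- a union of blocks -/
def Bk (S : MS V ι) (r : Finset ι) : Prop :=
  ∀ i j, S.fc i = S.fc j → S.lv i = S.lv j → i ∈ r → j ∈ r

theorem bk_sts (hq : Cls S q) (A : Finset V) : Bk S (q ∩ S.sts A) := fun i j h1 h2 hi =>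
  mem_inter.2 ⟨hq.blk i j h1 h2 (mem_inter.1 hi).1,
    MS.mem_sts.2 (h1 ▸ MS.mem_sts.1 (mem_inter.1 hi).2)⟩

theorem Bk.inter {r : Finset ι} (h : Bk S r) (b : V) : Bk S (r ∩ S.st b) := fun i j h1 h2 hi =>
  mem_inter.2 ⟨h i j h1 h2 (mem_inter.1 hi).1, S.mem_st.2 (h1 ▸ S.mem_st.1 (mem_inter.1 hi).2)⟩

theorem Bk.sdiff {r : Finset ι} (h : Bk S r) (b : V) : Bk S (r \ S.st b) := fun i j h1 h2 hi =>
  mem_sdiff.2 ⟨h i j h1 h2 (mem_sdiff.1 hi).1,
    fun h3 => (mem_sdiff.1 hi).2 (S.mem_st.2 (h1 ▸ S.mem_st.1 h3))⟩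

theorem fm_mat {r : Finset ι} (hr : Bk S r) {M : Matrix ι ι ℝ}
    (hM : ∀ i j, M i j ≠ 0 → S.fc i = S.fc j ∧ S.lv i = S.lv j) :
    FM S r S r A fun u => M *ᵥ u := by
  have key : ∀ (i : ι) (u u' : ι → ℝ), (∀ j, S.fc i = S.fc j → S.lv i = S.lv j → u j = u' j) →
      (M *ᵥ u) i = (M *ᵥ u') i := fun i u u' hu => sum_congr rfl fun j _ => by
    by_cases h : M i j = 0
    · simp only [h, zero_mul]
    · rw [hu j (hM i j h).1 (hM i j h).2]
  refine ⟨fun a ha u u' hu => key a u u' fun j h1 h2 => hu j (hr a j h1 h2 ha),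
    fun v _ a _ h1 y => ?_, fun v _ a _ h1 x y => key a _ _ fun j h2 _ =>
      mix_neg _ _ fun h3 => h1 (S.mem_st.2 (h2 ▸ S.mem_st.1 h3))⟩
  have e : ∀ x, (M *ᵥ mix (S.st v) x y) a = (M *ᵥ x) a := fun x => key a _ _ fun j h2 _ =>
    mix_pos _ _ (S.mem_st.2 (h2 ▸ S.mem_st.1 h1))
  simp only [e]
  exact ⟨fun x x' => by rw [mulVec_add, Pi.add_apply], fun c x => by rw [mulVec_smul, Pi.smul_apply]⟩

theorem fm_wh {r : Finset ι} (hr : Bk S r) {M : Matrix ι ι ℝ}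
    (hM : ∀ i j, M i j ≠ 0 → S.fc i = S.fc j ∧ S.lv i = S.lv j) :
    FM (jS S J) (jq S r b J) (jS S J) (jq S r b J) A (wh M) := by
  have h1 : ∀ a ∈ jq S r b J, ∃ s, a.1 ∈ s ∧
      FM (jS S J) (jq S r b J) S s A fun U => M *ᵥ (U ∘ fun j => (j, a.2)) := by
    intro a ha
    obtain ⟨a1, a2⟩ := mem_jq.1 ha
    by_cases hb : a.1 ∈ S.st b
    · refine ⟨r ∩ S.st b, mem_inter.2 ⟨a1, hb⟩, (fm_proj (S1 := jS S J) A (fun j => (j, a.2))
        (fun j hj => mem_jq.2 ⟨(mem_inter.1 hj).1,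
          iff_of_false (fun h => a2.1 h hb) fun h => h (mem_inter.1 hj).2⟩)
        fun _ _ => rfl).comp (fm_mat (hr.inter b) hM)⟩
    · refine ⟨r \ S.st b, mem_sdiff.2 ⟨a1, hb⟩, (fm_proj (S1 := jS S J) A (fun j => (j, a.2))
        (fun j hj => mem_jq.2 ⟨(mem_sdiff.1 hj).1, iff_of_true (a2.2 hb) (mem_sdiff.1 hj).2⟩)
        fun _ _ => rfl).comp (fm_mat (hr.sdiff b) hM)⟩
  refine ⟨fun a ha => ?_, fun v hv a ha h2 => ?_, fun v hv a ha h2 => ?_⟩
  · obtain ⟨s, h3, h4⟩ := h1 a ha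
    exact h4.on _ h3
  · obtain ⟨s, h3, h4⟩ := h1 a ha
    exact h4.lin v hv _ h3 (mem_jst.1 h2)
  · obtain ⟨s, h3, h4⟩ := h1 a ha
    exact h4.out v hv _ h3 fun h5 => h2 (mem_jst.2 h5)

theorem cf_nm {r : Finset ι} (hr : r ⊆ S.sts A) (n : J' → J → ℤ) {F : (ι × Option J' → ℝ) → ℝ}
    (hF : Fm (jS S J') (jq S r b J') A F) :
    cf S r A b (fun U => F (nm n U)) = sub n (cf S r A b F) := by
  rw [← cf_ev (sub n _)]
  congr 1
  funext U
  rw [ev_sub, ev_cf hr hF]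

/-- a form written in whitened position coordinates -/
def ioR (S : MS V ι) (q : Finset ι) (A : Finset V) (b : V) (M : Matrix ι ι ℝ) (y : ι → ℝ)
    (x : J → ι → ℝ) (I : JF (Slt S (q ∩ S.sts A) A b) J ℝ) : JF (Slt S (q ∩ S.sts A) A b) J ℝ :=
  cf S _ A b fun U => ev I (LF S A b y x (wh M U))

theorem ioR_sub (h : S.Ok) (hc : S.Cen) (hq : Cls S q) {M : Matrix ι ι ℝ}
    (hM : ∀ i j, M i j ≠ 0 → S.fc i = S.fc j ∧ S.lv i = S.lv j) (y : ι → ℝ) (x : J → ι → ℝ)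
    (n : J' → J → ℤ) (I : JF (Slt S (q ∩ S.sts A) A b) J' ℝ) :
    ioR S q A b M y x (sub n I) =
      sub n (ioR S q A b M y (fun σ' => ∑ σ, (n σ' σ : ℝ) • x σ) I) := by
  unfold ioR
  rw [← cf_nm inter_subset_right n
    (((fm_wh (bk_sts hq A) hM).comp (fm_LF h hc hq y _)).fm (fm_ev I))]
  congr 1
  funext U
  rw [ev_sub, wh_nm]
  exact (fm_ev I).on _ _ fun a ha => nm_LF h hc n y x _ ha

/-- the real vector of a fibre point -/
def xr (P : Finset ι) (x : P → ℤ) : ι → ℝ := put P (toR x) 0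

omit [Fintype ι] [DecidableEq J] in
theorem xr_sum (P : Finset ι) (n : J → ℤ) (x : J → P → ℤ) :
    xr P (∑ σ, n σ • x σ) = ∑ σ, (n σ : ℝ) • xr P (x σ) := by
  funext j
  by_cases h : j ∈ P
  · simp [xr, put_pos _ _ h, toR]
  · simp [xr, put_neg _ _ h]

/-- the embedding of integer forms on the fibres in the direction `b` -/
def emb (h : S.Ok) (hc : S.Cen) (hq : Cls S q) (A : Finset V) (b : V) {M : Matrix ι ι ℝ}
    (hM : ∀ i j, M i j ≠ 0 → S.fc i = S.fc j ∧ S.lv i = S.lv j) (y : ι → ℝ) (P : Finset ι) :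
    Emb (Slt S (q ∩ S.sts A) A b) (P → ℤ) where
  io g x := AddMonoidHom.mk' (fun I => ioR S q A b M y (fun σ => xr P (x σ)) (rc I)) fun I I' => by
    funext μ φ
    have : rc (I + I') = rc I + rc I' := by funext μ φ; simp [rc]
    simp only [this, ioR, cf, ev_add, Pi.add_apply]
  nat g g' n x I := by
    simp only [AddMonoidHom.mk'_apply, xr_sum]
    rw [rc_sub, ioR_sub h hc hq hM]

end

end Vale.Agent.P057GA
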