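import Mathlib.Algebra.BigOperators.Ring.Finset
import Mathlib.Algebra.BigOperators.Pi
import Mathlib.Algebra.BigOperators.Fin
import Mathlib.Algebra.Order.BigOperators.Ring.Finset
import Mathlib.Data.Fintype.Pi
import Mathlib.Data.Fintype.BigOperators
import Mathlib.Data.Real.Basic
import Mathlib.Data.Fin.VecNotation
import Mathlib.Tactic.Ring
import Mathlib.Tactic.Linarith
import Mathlib.Tactic.FinCases
import Mathlib.Tactic.GCongr
import Mathlib.Tactic.Positivity

/-! Joint forms over a family of generators: substitution, evaluation, letters. -/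

set_option linter.all false

open Finset

namespace Vale.Agent.P057GA

noncomputable section

/-- forms on the joint system over the generators J -/
abbrev JF {Mon : Type} (Sl : Mon → Type) (J R : Type) := (μ : Mon) → (Sl μ → J) → R

section one

variable {P : Type} [Fintype P] [DecidableEq P] {R : Type} [CommRing R]
  {J J' J'' : Type} [Fintype J] [DecidableEq J] [Fintype J'] [DecidableEq J']
  [Fintype J''] [DecidableEq J'']

/-- substitution for one monomial -/
def sub1 (n : J' → J → ℤ) (F : (P → J') → R) (φ : P → J) : R :=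
  ∑ φ' : P → J', (∏ s, (n (φ' s) (φ s) : R)) * F φ'

/-- evaluation on one vector for each slot -/
def ev1 (F : (P → J) → R) (f : P → J → ℤ) : R :=
  ∑ φ : P → J, (∏ s, (f s (φ s) : R)) * F φ

theorem ev1_sub1 (n : J' → J → ℤ) (F : (P → J') → R) (f : P → J → ℤ) :
    ev1 (sub1 n F) f = ev1 F fun s j' => ∑ j, n j' j * f s j := by
  unfold ev1 sub1
  simp only [mul_sum]
  rw [sum_comm]
  refine sum_congr rfl fun φ' _ => ?_
  simp only [← mul_assoc]
  rw [← sum_mul]
  congr 1
  push_cast
  rw [Finset.prod_univ_sum]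
  simp only [Fintype.piFinset_univ]
  refine sum_congr rfl fun φ _ => ?_
  rw [← prod_mul_distrib]
  exact prod_congr rfl fun s _ => mul_comm _ _

theorem ev1_zero (F : (P → J) → R) (f : P → J → ℤ) (s : P) (h : ∀ j, f s j = 0) :
    ev1 F f = 0 := by
  unfold ev1
  refine sum_eq_zero fun φ _ => ?_
  rw [prod_eq_zero (mem_univ s) (by rw [h]; simp), zero_mul]

theorem ev1_basis (F : (P → J) → R) (φ : P → J) :
    ev1 F (fun s j => if j = φ s then 1 else 0) = F φ := by
  unfold ev1
  rw [sum_eq_single φ]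
  · simp
  · intro ψ _ hψ
    obtain ⟨s, hs⟩ := Function.ne_iff.1 hψ
    rw [prod_eq_zero (mem_univ s) (by simp [hs]), zero_mul]
  · simp

theorem ev1_add (F G : (P → J) → R) (f : P → J → ℤ) :
    ev1 (fun φ => F φ + G φ) f = ev1 F f + ev1 G f := by
  simp only [ev1, mul_add, sum_add_distrib]

theorem ev1_sub (F G : (P → J) → R) (f : P → J → ℤ) :
    ev1 (fun φ => F φ - G φ) f = ev1 F f - ev1 G f := by
  simp only [ev1, mul_sub, sum_sub_distrib]

theorem ev1_upd (F : (P → J) → R) (f : P → J → ℤ) (s : P) (v : J → ℤ) :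
    ev1 F (Function.update f s v) =
      ∑ j, (v j : R) * ev1 F (Function.update f s fun j' => if j' = j then 1 else 0) := by
  unfold ev1
  simp only [mul_sum]
  rw [sum_comm]
  refine sum_congr rfl fun φ _ => ?_
  simp only [← mul_assoc]
  rw [← sum_mul]
  congr 1
  have h : ∀ w : J → ℤ, ∏ s', ((Function.update f s w s' (φ s') : ℤ) : R) =
      (w (φ s) : R) * ∏ s' ∈ univ.erase s, (f s' (φ s') : R) := by
    intro w
    rw [← mul_prod_erase univ _ (mem_univ s), Function.update_self]
    congr 1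
    exact prod_congr rfl fun s' hs' => by rw [Function.update_of_ne (ne_of_mem_erase hs')]
  simp only [h]
  rw [sum_eq_single (φ s)]
  · simp
  · intro j _ hj
    simp [hj.symm]
  · simp

theorem ev1_pt (n : J → ℤ) (c : R) (f : P → J → ℤ) :
    ev1 (fun φ : P → J => (∏ s, (n (φ s) : R)) * c) f = (∏ s, ((∑ j, n j * f s j : ℤ) : R)) * c := by
  unfold ev1
  simp only [← mul_assoc]
  rw [← sum_mul]
  congr 1
  push_cast
  rw [Finset.prod_univ_sum]
  simp only [Fintype.piFinset_univ]
  refine sum_congr rfl fun φ _ => ?_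
  rw [← prod_mul_distrib]
  exact prod_congr rfl fun s _ => mul_comm _ _

theorem sub1_eq_ev1 (n : J' → J → ℤ) (F : (P → J') → R) (φ : P → J) :
    sub1 n F φ = ev1 F fun s j' => n j' (φ s) := rfl

theorem sub1_sub1 (m : J' → J → ℤ) (n : J'' → J' → ℤ) (F : (P → J'') → R) :
    sub1 m (sub1 n F) = sub1 (fun j'' j => ∑ j', n j'' j' * m j' j) F := by
  funext φ
  rw [sub1_eq_ev1, ev1_sub1]
  rfl

theorem sub1_id (F : (P → J) → R) : sub1 (fun j' j => if j' = j then 1 else 0) F = F := by
  funext φ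
  rw [sub1_eq_ev1, ev1_basis]

theorem sub1_pt (m : J' → J → ℤ) (n : J' → ℤ) (c : R) :
    sub1 m (fun φ : P → J' => (∏ s, (n (φ s) : R)) * c) =
      fun φ => (∏ s, ((∑ j', n j' * m j' (φ s) : ℤ) : R)) * c := by
  funext φ
  rw [sub1_eq_ev1, ev1_pt]

theorem abs_ev1_le (F : (P → J) → ℝ) (f : P → J → ℤ) (M B : ℝ) (d : ℕ) (hM : ∀ φ, |F φ| ≤ M)
    (hB : 1 ≤ B) (hf : ∀ s, ∑ j, |(f s j : ℝ)| ≤ B) (hd : Fintype.card P ≤ d) (hM0 : 0 ≤ M) :
    |ev1 F f| ≤ B ^ d * M := by
  unfold ev1
  calc |∑ φ : P → J, (∏ s, (f s (φ s) : ℝ)) * F φ|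
      ≤ ∑ φ : P → J, (∏ s, |(f s (φ s) : ℝ)|) * M := by
        refine (abs_sum_le_sum_abs _ _).trans (sum_le_sum fun φ _ => ?_)
        rw [abs_mul, abs_prod]
        exact mul_le_mul_of_nonneg_left (hM φ) (prod_nonneg fun _ _ => abs_nonneg _)
    _ = (∏ s, ∑ j, |(f s j : ℝ)|) * M := by
        rw [← sum_mul, Finset.prod_univ_sum]
        simp only [Fintype.piFinset_univ]
    _ ≤ B ^ d * M := by
        refine mul_le_mul_of_nonneg_right ?_ hM0
        calc ∏ s, ∑ j, |(f s j : ℝ)| ≤ ∏ _s : P, B :=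
              prod_le_prod (fun s _ => sum_nonneg fun _ _ => abs_nonneg _) fun s _ => hf s
          _ = B ^ Fintype.card P := by rw [prod_const, card_univ]
          _ ≤ B ^ d := pow_le_pow_right₀ hB hd

end one

/-! ### the three letters -/

section letters

variable {P : Type} [Fintype P] [DecidableEq P]

/-- the word with the letter a on Q and the letter 2 elsewhere -/
def wd (a : Fin 3) (Q : Finset P) : P → Fin 3 := fun s => if s ∈ Q then a else 2

theorem mixed (c : (P → Fin 3) → ℤ) (a b : Fin 3)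
    (h1 : ∀ φ s s', φ s = a → φ s' = b → c φ = 0)
    (h2 : ∀ φ s s', s ≠ s' → φ s = 2 → φ s' = 2 →
      c φ = c (Function.update φ s a) + c (Function.update φ s b))
    (h3 : ∀ s s', s ≠ s' → c (wd a {s}) = c (wd a {s'})) (s0 : P) (Q : Finset P) :
    Q.Nonempty → Q ≠ univ → c (wd a Q) = c (wd a {s0}) := by
  induction Q using Finset.induction_on with
  | empty => intro h; exact absurd h (by simp)
  | insert s Q hs ih =>
    intro _ hne
    obtain rfl | hQ := Q.eq_empty_or_nonempty
    · by_cases h : s = s0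
      · subst h; simp
      · simpa using h3 s s0 h
    obtain ⟨s', hs'⟩ : ∃ s', s' ∉ insert s Q := by
      by_contra h
      push Not at h
      exact hne (eq_univ_of_forall h)
    have hQu : Q ≠ univ := fun h => hs (h ▸ mem_univ s)
    rw [← ih hQ hQu]
    have e := h2 (wd a Q) s s' (fun h => hs' (h ▸ mem_insert_self s Q)) (by simp [wd, hs])
      (by simp only [wd]; rw [if_neg fun h => hs' (mem_insert_of_mem h)])
    obtain ⟨q, hq⟩ := hQ
    have hqs : q ≠ s := fun h => hs (h ▸ hq)
    have e2 : c (Function.update (wd a Q) s b) = 0 :=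
      h1 _ q s (by rw [Function.update_of_ne hqs]; simp [wd, hq]) (by simp)
    have e3 : Function.update (wd a Q) s a = wd a (insert s Q) := by
      funext t
      by_cases ht : t = s
      · subst ht; simp [wd]
      · rw [Function.update_of_ne ht]; simp [wd, ht]
    rw [e, e2, e3, add_zero]

theorem upd_wd (a : Fin 3) (s : P) : Function.update (wd 0 (∅ : Finset P)) s a = wd a {s} := by
  funext t
  by_cases ht : t = s
  · subst ht; simp [wd]
  · rw [Function.update_of_ne ht]; simp [wd, ht]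

/-- the shape of a form with three splittings -/
theorem shape (c : (P → Fin 3) → ℤ) (s0 : P)
    (h1 : ∀ φ s s', φ s = 0 → φ s' = 1 → c φ = 0)
    (h2 : ∀ φ s s', s ≠ s' → φ s = 2 → φ s' = 2 →
      c φ = c (Function.update φ s 0) + c (Function.update φ s 1))
    (h3 : ∀ s s', s ≠ s' → c (wd 0 ∅) = c (wd 0 {s}) + c (wd 1 {s'})) :
    ∃ k1 k2 k3 k4 : ℤ, ((∀ s, s = s0) → k1 = 0) ∧ ∀ φ, c φ =
      (if ∀ s, φ s = 0 then k1 else 0) - (if ∀ s, φ s = 1 then k2 else 0) -
        (if ∀ s, φ s ≠ 1 then k3 else 0) + (if ∀ s, φ s ≠ 0 then k4 else 0) := by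
  by_cases hP : ∀ s, s = s0
  · refine ⟨0, c (fun _ => 2) - c (fun _ => 0) - c (fun _ => 1), -c (fun _ => 0),
      c (fun _ => 2) - c (fun _ => 0), fun _ => rfl, fun φ => ?_⟩
    have e : φ = fun _ => φ s0 := funext fun s => by rw [hP s]
    have : Nonempty P := ⟨s0⟩
    rw [e]
    generalize φ s0 = a
    fin_cases a <;> simp <;> ring
  push Not at hP
  obtain ⟨s1, hs1⟩ := hP
  have e0 : ∀ s s' : P, s ≠ s' → c (wd 0 ∅) = c (wd 0 {s}) + c (wd 1 {s}) := by
    intro s s' h
    rw [h2 (wd 0 ∅) s s' h (by simp [wd]) (by simp [wd]), upd_wd, upd_wd]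
  have a0 : ∀ s s' : P, s ≠ s' → c (wd 0 {s}) = c (wd 0 {s'}) := by
    intro s s' h
    have := h3 s s' h
    have := e0 s' s h.symm
    linarith
  have a1 : ∀ s s' : P, s ≠ s' → c (wd 1 {s}) = c (wd 1 {s'}) := by
    intro s s' h
    have := h3 s s' h
    have := e0 s s' h
    linarith
  have m0 := mixed c 0 1 h1 h2 a0 s0
  have m1 := mixed c 1 0 (fun φ s s' h h' => h1 φ s' s h' h)
    (fun φ s s' h h' h'' => by rw [h2 φ s s' h h' h'', add_comm]) a1 s0
  refine ⟨c (wd 0 univ) - c (wd 0 {s0}), c (wd 1 {s0}) - c (wd 1 univ), -c (wd 0 {s0}),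
    c (wd 1 {s0}), fun h => absurd (h s1) hs1, fun φ => ?_⟩
  by_cases hX : ∃ s, φ s = 0 <;> by_cases hY : ∃ s, φ s = 1
  · obtain ⟨s, hs⟩ := hX
    obtain ⟨s', hs'⟩ := hY
    rw [h1 φ s s' hs hs', if_neg fun h => by simp [h s'] at hs', if_neg fun h => by simp [h s] at hs,
      if_neg fun h => h s' hs', if_neg fun h => h s hs]
    simp
  · push Not at hY
    obtain ⟨s, hs⟩ := hX
    have e : φ = wd 0 (univ.filter fun t => φ t = 0) := by
      funext t
      have := hY t
      simp only [wd, mem_filter, mem_univ, true_and]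
      generalize φ t = a at this ⊢
      fin_cases a <;> simp_all
    rw [if_neg fun h : ∀ t, φ t = 1 => hY s (h s), if_pos hY, if_neg fun h : ∀ t, φ t ≠ 0 => h s hs]
    by_cases hA : ∀ t, φ t = 0
    · rw [if_pos hA, e, filter_true_of_mem fun t _ => hA t]
      ring
    · rw [if_neg hA, e, m0 _ ⟨s, by simp [hs]⟩ fun h => hA fun t => by
        have := h ▸ mem_univ t
        exact (mem_filter.1 this).2]
      ring
  · push Not at hX
    obtain ⟨s, hs⟩ := hY
    have e : φ = wd 1 (univ.filter fun t => φ t = 1) := by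
      funext t
      have := hX t
      simp only [wd, mem_filter, mem_univ, true_and]
      generalize φ t = a at this ⊢
      fin_cases a <;> simp_all
    rw [if_neg fun h : ∀ t, φ t = 0 => hX s (h s), if_pos hX, if_neg fun h : ∀ t, φ t ≠ 1 => h s hs]
    by_cases hA : ∀ t, φ t = 1
    · rw [if_pos hA, e, filter_true_of_mem fun t _ => hA t]
      ring
    · rw [if_neg hA, e, m1 _ ⟨s, by simp [hs]⟩ fun h => hA fun t => by
        have := h ▸ mem_univ t
        exact (mem_filter.1 this).2]
      ring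
  · push Not at hX hY
    have e : φ = wd 0 ∅ := by
      funext t
      have h := hX t
      have h' := hY t
      simp only [wd, notMem_empty, if_false]
      generalize φ t = a at h h' ⊢
      fin_cases a <;> simp_all
    rw [if_neg fun h : ∀ t, φ t = 0 => hX s0 (h s0), if_neg fun h : ∀ t, φ t = 1 => hY s0 (h s0),
      if_pos hY, if_pos hX, e, e0 s0 s1 hs1.symm]
    ring

end letters

end

end Vale.Agent.P057GA
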