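import Vale.Agent.P057GA.Emb

/-! Gauge fixing: from a dense relation modulo the joint integer forms to a relation in the
fixed torus of forms of degree zero. -/

set_option linter.all false

open Finset

namespace Vale.Agent.P057GA

noncomputable section

variable {Mon : Type} {Sl : Mon → Type} [∀ μ, Fintype (Sl μ)] [∀ μ, DecidableEq (Sl μ)]
  {Λ : Type} [AddCommGroup Λ]

open Classical in
/-- the label read off from a form -/
def lab (A : JF Sl (Fin 3) ℤ) (v w : Fin 3 → ℤ) (μ : Mon) : ℤ :=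
  if h : Nonempty (Sl μ) then -ev1 (A μ) (two (Classical.choice h) v w) else 0

open Classical in
/-- the label of the first point -/
def lab1 (A : JF Sl (Fin 3) ℤ) (v w : Fin 3 → ℤ) (μ : Mon) : ℤ :=
  if h : Nonempty (Sl μ) then
    (if ∀ s, s = Classical.choice h then 0 else ev1 (A μ) (two (Classical.choice h) v w)) else 0

open Classical in
/-- the part of degree zero -/
def deg0 (I : JF Sl (Fin 3) ℤ) (μ : Mon) : ℤ := if Nonempty (Sl μ) then 0 else I μ fun _ => 0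

theorem gauge_form {I A B C : JF Sl (Fin 3) ℤ} (hA : Spl (bv 1) (bv 0) I A)
    (hB : Spl (bv 2) f0 I B) (hC : Spl f2 f1 I C) :
    lab1 B f0 (bv 0) = lab1 A (bv 0) f1 ∧
    I = pt n1 (lab1 A (bv 0) f1) + pt n4 (lab C f1 (bv 2)) - pt n2 (lab B f0 (bv 1)) -
      pt n3 (lab A (bv 0) (bv 2)) + pt 0 (deg0 I) := by
  obtain ⟨A', a1, a2⟩ := hA
  obtain ⟨B', b1, b2⟩ := hB
  obtain ⟨C', c1, c2⟩ := hC
  have key := fun μ (s0 : Sl μ) => gauge1 (I μ) (A μ) (A' μ) (B μ) (B' μ) (C μ) (C' μ) s0 (a1 μ)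
    (b1 μ) (c1 μ) (a2 μ).1 (a2 μ).2 (b2 μ).1 (b2 μ).2 (c2 μ).1 (c2 μ).2
  refine ⟨funext fun μ => ?_, funext fun μ => funext fun φ => ?_⟩
  · by_cases h : Nonempty (Sl μ)
    · simp only [lab1, dif_pos h]
      convert (key μ (Classical.choice h)).1
    · simp only [lab1, dif_neg h]
  · by_cases h : Nonempty (Sl μ)
    · simp only [Pi.add_apply, Pi.sub_apply, pt, lab1, lab, deg0, dif_pos h, if_pos h, mul_zero,
        add_zero, Int.cast_id]
      convert (key μ (Classical.choice h)).2 φ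
    · have : IsEmpty (Sl μ) := not_nonempty_iff.1 h
      simp only [Pi.add_apply, Pi.sub_apply, pt, lab1, lab, deg0, dif_neg h, if_neg h, mul_zero,
        add_zero, sub_zero, zero_add, univ_eq_empty, prod_empty, one_mul]
      exact congrArg _ (Subsingleton.elim _ _)

namespace Emb

variable (e : Emb Sl Λ) {ψ1 ψ2 ψ3 ψ4 : Λ → Mon → ℝ} {M : ℝ}

theorem sum3 (a b c : ℤ) (x y z : Λ) :
    ∑ j, ![a, b, c] j • ![x, y, z] j = a • x + b • y + c • z := by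
  rw [Fin.sum_univ_three]
  rfl

theorem rel_pts {x y t : Λ} {I : JF Sl (Fin 3) ℤ} {k1 k2 k3 k4 k0 : Mon → ℤ}
    (h : e.Rel ψ1 ψ2 ψ3 ψ4 M x y t I)
    (hI : I = pt n1 k1 + pt n4 k4 - pt n2 k2 - pt n3 k3 + pt 0 k0) (μ : Mon) (φ : Sl μ → Fin 3) :
    |(∏ s, (n1 (φ s) : ℝ)) * (ψ1 x μ - e.io1 x k1 μ) +
      (∏ s, (n4 (φ s) : ℝ)) * (ψ4 (y + t) μ - e.io1 (y + t) k4 μ) -
      (∏ s, (n2 (φ s) : ℝ)) * (ψ2 y μ - e.io1 y k2 μ) -
      (∏ s, (n3 (φ s) : ℝ)) * (ψ3 (x + t) μ - e.io1 (x + t) k3 μ) -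
      (∏ _s : Sl μ, (0 : ℝ)) * e.io1 0 k0 μ| ≤ M := by
  have h' := h μ φ
  rw [hI, map_add, map_sub, map_sub, map_add, io_pt, io_pt, io_pt, io_pt, io_pt] at h'
  have e1 : ∑ j, n1 j • ![x, y, t] j = x := by rw [n1, sum3]; module
  have e2 : ∑ j, n2 j • ![x, y, t] j = y := by rw [n2, sum3]; module
  have e3 : ∑ j, n3 j • ![x, y, t] j = x + t := by rw [n3, sum3]; module
  have e4 : ∑ j, n4 j • ![x, y, t] j = y + t := by rw [n4, sum3]; module
  have e0 : ∑ j, (0 : Fin 3 → ℤ) j • ![x, y, t] j = 0 := by simp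
  rw [e1, e2, e3, e4, e0] at h'
  simp only [Pi.add_apply, Pi.sub_apply, pt, Pi.zero_apply, Int.cast_zero] at h'
  convert h' using 2
  ring

theorem rel_out {x y t : Λ} {I : JF Sl (Fin 3) ℤ} {k1 k2 k3 k4 k0 : Mon → ℤ}
    (h : e.Rel ψ1 ψ2 ψ3 ψ4 M x y t I)
    (hI : I = pt n1 k1 + pt n4 k4 - pt n2 k2 - pt n3 k3 + pt 0 k0) (μ : Mon) :
    (Nonempty (Sl μ) → |ψ2 y μ - e.io1 y k2 μ -
      (if Fintype.card (Sl μ) = 1 then ψ1 x μ - e.io1 x k1 μ else 0)| ≤ 3 * M) ∧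
    (IsEmpty (Sl μ) → |ψ4 (y + t) μ - e.io1 (y + t) k4 μ - (ψ2 y μ - e.io1 y k2 μ) -
      (ψ3 (x + t) μ - e.io1 (x + t) k3 μ - (ψ1 x μ - e.io1 x k1 μ)) - e.io1 0 k0 μ| ≤ M) := by
  have key := e.rel_pts h hI μ
  generalize ψ1 x μ - e.io1 x k1 μ = a1 at *
  generalize ψ2 y μ - e.io1 y k2 μ = a2 at *
  generalize ψ3 (x + t) μ - e.io1 (x + t) k3 μ = a3 at *
  generalize ψ4 (y + t) μ - e.io1 (y + t) k4 μ = a4 at *
  constructor
  · rintro ⟨s0⟩
    have hc : Fintype.card (Sl μ) ≠ 0 := Fintype.card_pos_iff.2 ⟨s0⟩ |>.ne'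
    have q0 := key fun _ => 0
    have q1 := key fun _ => 1
    have q2 := key fun _ => 2
    simp only [n1, n2, n3, n4, Matrix.cons_val_zero, Matrix.cons_val_one, Matrix.cons_val_two,
      Matrix.head_cons, Matrix.tail_cons, Int.cast_one, Int.cast_zero, prod_const, card_univ,
      one_pow, zero_pow hc, one_mul, zero_mul, add_zero, sub_zero, zero_add, zero_sub] at q0 q1 q2
    rw [abs_le] at q0 q1 q2 ⊢
    split_ifs with h1
    · constructor <;> linarith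
    · obtain ⟨s1, hs1⟩ : ∃ s1, s1 ≠ s0 := by
        by_contra hh
        push Not at hh
        exact h1 (Fintype.card_eq_one_iff.2 ⟨s0, hh⟩)
      have q3 := key fun s => if s = s0 then 1 else 2
      rw [prod_eq_zero (mem_univ s0) (by simp [n1]),
        prod_eq_zero (f := fun s => ((n2 (if s = s0 then 1 else 2) : ℤ) : ℝ)) (mem_univ s1)
          (by simp [n2, hs1]),
        prod_eq_zero (f := fun s => ((n3 (if s = s0 then 1 else 2) : ℤ) : ℝ)) (mem_univ s0)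
          (by simp [n3]),
        prod_eq_one (f := fun s => ((n4 (if s = s0 then 1 else 2) : ℤ) : ℝ))
          (fun s _ => by split_ifs <;> simp [n4]), prod_eq_zero (mem_univ s0) rfl] at q3
      simp only [one_mul, zero_mul, sub_zero, zero_add] at q3
      rw [abs_le] at q3
      constructor <;> linarith
  · intro hE
    have q := key fun _ => 0
    simp only [univ_eq_empty, prod_empty, one_mul] at q
    convert q using 2
    ring

end Emb

theorem trB (Px Py Pt : Pw Λ) (η : ℝ) (y0 : Λ) (h0 : y0 ∈ Py.D)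
    (hxy : ∀ y ∈ Py.D, ∀ y' ∈ Py.D, Px.Inv (y - y') η)
    (hty : ∀ y ∈ Py.D, ∀ y' ∈ Py.D, Pt.Inv (y - y') η) (S : Λ → Λ → Λ → Prop) :
    Pr3 Px Py Pt S ≤ Pr3 Py Pt Px (fun y t x => S (x + (y - y0)) y (t + (y0 - y))) + 2 * η ∧
    Pr3 Py Pt Px (fun y t x => S (x + (y - y0)) y (t + (y0 - y))) ≤ Pr3 Px Py Pt S + 2 * η := by
  unfold Pr3
  rw [← Pw.rot Py Pt Px fun y t x => ind (S x y t)]
  constructor
  · refine Py.mono_add fun y hy => ?_
    have h1 := (hty y0 h0 y hy).ge (fun t => Px.E fun x => ind (S x y t))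
      (fun t => Px.nonneg fun _ => ind_nonneg _) fun t => Px.le_one fun _ => ind_le_one _
    have h2 := Pt.mono_add fun t _ => (hxy y hy y0 h0).ge (fun x => ind (S x y (t + (y0 - y))))
      (fun _ => ind_nonneg _) fun _ => ind_le_one _
    linarith
  · refine Py.mono_add fun y hy => ?_
    have h1 := (hty y0 h0 y hy).le (fun t => Px.E fun x => ind (S x y t))
      (fun t => Px.nonneg fun _ => ind_nonneg _) fun t => Px.le_one fun _ => ind_le_one _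
    have h2 := Pt.mono_add fun t _ => (hxy y hy y0 h0).le (fun x => ind (S x y (t + (y0 - y))))
      (fun _ => ind_nonneg _) fun _ => ind_le_one _
    linarith

theorem trC (Px Py Pt : Pw Λ) (η : ℝ) (x0 y0 : Λ) (hx0 : x0 ∈ Px.D) (h0 : y0 ∈ Py.D)
    (hty : ∀ y ∈ Py.D, ∀ y' ∈ Py.D, Pt.Inv (y - y') η)
    (htx : ∀ x ∈ Px.D, ∀ x' ∈ Px.D, Pt.Inv (x - x') η) (F : Λ → Λ → Λ → ℝ)
    (F0 : ∀ x y t, 0 ≤ F x y t) (F1 : ∀ x y t, F x y t ≤ 1) :
    (Px.E fun x => Py.E fun y => Pt.E fun t => F x y t) ≤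
      (Px.E fun x => Py.E fun y => Pt.E fun t => F x y (t + (x0 - x) + (y0 - y))) + 2 * η ∧
    (Px.E fun x => Py.E fun y => Pt.E fun t => F x y (t + (x0 - x) + (y0 - y))) ≤
      (Px.E fun x => Py.E fun y => Pt.E fun t => F x y t) + 2 * η := by
  constructor
  · refine Px.mono_add fun x hx => Py.mono_add fun y hy => ?_
    have h1 := (hty y0 h0 y hy).ge (F x y) (F0 x y) (F1 x y)
    have h2 := (htx x0 hx0 x hx).ge (fun t => F x y (t + (y0 - y))) (fun _ => F0 ..) fun _ => F1 ..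
    linarith
  · refine Px.mono_add fun x hx => Py.mono_add fun y hy => ?_
    have h1 := (hty y0 h0 y hy).le (F x y) (F0 x y) (F1 x y)
    have h2 := (htx x0 hx0 x hx).le (fun t => F x y (t + (y0 - y))) (fun _ => F0 ..) fun _ => F1 ..
    linarith

theorem num (δ η : ℝ) (h0 : 0 ≤ δ) (h1 : δ ≤ 1) (hη0 : 0 ≤ η) (hη : 2 ^ 24 * η ≤ δ ^ 64) :
    δ ^ 4 / 2 ≤ δ ^ 4 - η - 2 * η ∧ δ ^ 16 / 32 ≤ (δ ^ 4 / 2) ^ 4 - 4 * η - 2 * η - 2 * η ∧
      δ ^ 64 / 2 ^ 21 ≤ (δ ^ 16 / 32) ^ 4 - 3 * η - 2 * η := by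
  have a : δ ^ 64 ≤ δ ^ 16 := pow_le_pow_of_le_one h0 h1 (by norm_num)
  have b : δ ^ 16 ≤ δ ^ 4 := pow_le_pow_of_le_one h0 h1 (by norm_num)
  refine ⟨by linarith, ?_, ?_⟩
  · have : (δ ^ 4 / 2) ^ 4 = δ ^ 16 / 16 := by ring
    linarith
  · have : (δ ^ 16 / 32) ^ 4 = δ ^ 64 / 2 ^ 20 := by ring
    linarith

theorem gauge (e : Emb Sl Λ) (Px Py Pt : Pw Λ) (ψ1 ψ2 ψ3 ψ4 : Λ → Mon → ℝ)
    (S : Λ → Λ → Λ → Prop) (K M δ η : ℝ) (d : ℕ) (hd : ∀ μ, Fintype.card (Sl μ) ≤ d)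
    (hM : 0 ≤ M) (hK : 4 * 3 ^ d * M ≤ K) (hδ : 0 ≤ δ) (hη0 : 0 ≤ η) (hη : 2 ^ 24 * η ≤ δ ^ 64)
    (hxy : ∀ y ∈ Py.D, ∀ y' ∈ Py.D, Px.Inv (y - y') η)
    (hty : ∀ y ∈ Py.D, ∀ y' ∈ Py.D, Pt.Inv (y - y') η)
    (htx : ∀ x ∈ Px.D, ∀ x' ∈ Px.D, Pt.Inv (x - x') η)
    (r1 : (Px.E fun x => Py.E fun y => Pt.E fun t => Px.E fun x' => Py.E fun y' =>
      ind (¬e.Rig K ![x, x', y, y', t])) ≤ η)
    (r2 : (Py.E fun y => Pt.E fun t => Px.E fun x => Py.E fun y' => Pt.E fun t' =>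
      ind (¬e.Rig K ![x, y, y', t, t'])) ≤ η)
    (hS : ∀ x y t, S x y t → ∃ I, e.Rel ψ1 ψ2 ψ3 ψ4 M x y t I) (hP : δ ≤ Pr3 Px Py Pt S) :
    ∃ x0 ∈ Px.D, ∃ (Θ : Mon → ℝ) (k : Λ → Mon → ℤ) (f g ζ : Λ → Mon → ℝ),
      (∀ μ, Fintype.card (Sl μ) ≠ 1 → Θ μ = 0) ∧ (∀ y μ, Nonempty (Sl μ) → f y μ = 0) ∧
      δ ^ 128 / 2 ^ 42 ≤ Py.E fun y => Pt.E fun t => ind (S x0 y t ∧
        (∀ μ, |ψ2 y μ - e.io1 y (k y) μ - Θ μ - f y μ| ≤ 3 * M) ∧
        ∃ I0 : Mon → ℤ, (∀ μ, Nonempty (Sl μ) → I0 μ = 0) ∧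
          ∀ μ, IsEmpty (Sl μ) → |ζ (y + t) μ - f y μ - g t μ - e.io1 0 I0 μ| ≤ M) := by
  classical
  have hδ1 : δ ≤ 1 := hP.trans
    (Px.le_one fun _ => Py.le_one fun _ => Pt.le_one fun _ => ind_le_one _)
  obtain ⟨nu1, nu2, nu3⟩ := num δ η hδ hδ1 hη0 hη
  obtain ⟨x0, hx0, -⟩ := Px.exists_ge fun _ => 0
  obtain ⟨y0, hy0, -⟩ := Py.exists_ge fun _ => 0
  choose! I hI using hS
  -- first splitting
  obtain ⟨p, p', hp⟩ := cyc Px Py Pt S (fun x y t x' y' => ¬e.Rig K ![x, x', y, y', t]) δ η hδ hP r1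
  let A : Λ → Λ → JF Sl (Fin 3) ℤ := fun x t => sub kA2 (I x (p' t) t) - sub kA3 (I (p t) (p' t) t)
  let S1 : Λ → Λ → Λ → Prop := fun x y t => S x y t ∧ Spl (bv 1) (bv 0) (I x y t) (A x t)
  have h1 : δ ^ 4 - η ≤ Pr3 Px Py Pt S1 := hp.trans (Pr3.mono _ _ _ fun x y t h =>
    ⟨h.1.1.1.1, e.splA (not_not.1 h.2) (hI _ _ _ h.1.1.1.1) (hI _ _ _ h.1.1.1.2)
      (hI _ _ _ h.1.1.2) (hI _ _ _ h.1.2) hd hM hK⟩)
  -- second splitting
  obtain ⟨q, q', hq⟩ := cyc Py Pt Px (fun y t x => S1 (x + (y - y0)) y (t + (y0 - y)))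
    (fun y t x y' t' => ¬e.Rig K ![x + (y - y0), y, y', t + (y0 - y), t' + (y0 - y)])
    (δ ^ 4 / 2) (4 * η) (by positivity)
    (by have := (trB Px Py Pt η y0 hy0 hxy hty S1).1; linarith)
    (by
      refine le_trans (Py.mono_add (η := 3 * η) fun y hy => ?_) (by linarith)
      have i0 : ∀ x y' t t', 0 ≤ ind (¬e.Rig K ![x, y, y', t, t']) := fun _ _ _ _ => ind_nonneg _
      have i1 : ∀ x y' t t', ind (¬e.Rig K ![x, y, y', t, t']) ≤ 1 := fun _ _ _ _ => ind_le_one _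
      have a1 := (hty y0 hy0 y hy).le (fun t => Px.E fun x => Py.E fun y' => Pt.E fun t' =>
        ind (¬e.Rig K ![x, y, y', t, t']))
        (fun t => Px.nonneg fun _ => Py.nonneg fun _ => Pt.nonneg fun _ => i0 ..)
        fun t => Px.le_one fun _ => Py.le_one fun _ => Pt.le_one fun _ => i1 ..
      have a2 := Pt.mono_add fun t _ => (hxy y hy y0 hy0).le (fun x => Py.E fun y' =>
        Pt.E fun t' => ind (¬e.Rig K ![x, y, y', t + (y0 - y), t']))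
        (fun _ => Py.nonneg fun _ => Pt.nonneg fun _ => i0 ..)
        fun _ => Py.le_one fun _ => Pt.le_one fun _ => i1 ..
      have a3 := Pt.mono_add fun t _ => Px.mono_add fun x _ => Py.mono_add fun y' _ =>
        (hty y0 hy0 y hy).le (fun t' => ind (¬e.Rig K ![x + (y - y0), y, y', t + (y0 - y), t']))
          (fun _ => i0 ..) fun _ => i1 ..
      linarith)
  let B : Λ → Λ → JF Sl (Fin 3) ℤ := fun x y =>
    sub kB2 (I x y (q' (x - (y - y0)) + (y0 - y))) -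
      sub kB3 (I (x - (y - y0) + (q (x - (y - y0)) - y0)) (q (x - (y - y0)))
        (q' (x - (y - y0)) + (y0 - q (x - (y - y0)))))
  let S2 : Λ → Λ → Λ → Prop := fun x y t => S1 x y t ∧ Spl (bv 2) f0 (I x y t) (B x y)
  have h2 : (δ ^ 4 / 2) ^ 4 - 4 * η - 2 * η ≤ Pr3 Px Py Pt S2 := by
    have a := (trB Px Py Pt η y0 hy0 hxy hty S2).2
    have b := hq.trans (Pr3.mono _ _ _ (S' := fun y t x => S2 (x + (y - y0)) y (t + (y0 - y)))
      fun y t x h => ⟨h.1.1.1.1, by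
        simp only [B, add_sub_cancel_right]
        refine e.splB (I1 := I (x + (q x - y0)) (q x) (t + (y0 - q x))) (not_not.1 h.2)
          (hI _ _ _ h.1.1.1.1.1) ?_ (hI _ _ _ h.1.1.2.1) ?_ hd hM hK
        · convert hI _ _ _ h.1.1.1.2.1 using 1 <;> abel
        · convert hI _ _ _ h.1.2.1 using 1 <;> abel⟩)
    linarith
  -- third splitting
  obtain ⟨r, r', hr⟩ := cyc Px Py Pt (fun x y t => S2 x y (t + (x0 - x) + (y0 - y)))
    (fun x y t x' y' => ¬e.Rig K ![x, x', y, y', t + (x0 - x) + (y0 - y)])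
    (δ ^ 16 / 32) (3 * η) (by positivity)
    (by
      have := (trC Px Py Pt η x0 y0 hx0 hy0 hty htx (fun x y t => ind (S2 x y t))
        (fun _ _ _ => ind_nonneg _) fun _ _ _ => ind_le_one _).1
      unfold Pr3 at h2 ⊢
      linarith)
    (by
      have := (trC Px Py Pt η x0 y0 hx0 hy0 hty htx (fun x y t => Px.E fun x' => Py.E fun y' =>
        ind (¬e.Rig K ![x, x', y, y', t]))
        (fun _ _ _ => Px.nonneg fun _ => Py.nonneg fun _ => ind_nonneg _)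
        fun _ _ _ => Px.le_one fun _ => Py.le_one fun _ => ind_le_one _).2
      linarith)
  let C : Λ → Λ → JF Sl (Fin 3) ℤ := fun x s =>
    sub kC2 (I x (r' (s + x - x0 - y0)) (s + x - x0 - y0 + (x0 - x) + (y0 - r' (s + x - x0 - y0)))) -
      sub kC3 (I (r (s + x - x0 - y0)) (r' (s + x - x0 - y0))
        (s + x - x0 - y0 + (x0 - r (s + x - x0 - y0)) + (y0 - r' (s + x - x0 - y0))))
  let S3 : Λ → Λ → Λ → Prop := fun x y t => S2 x y t ∧ Spl f2 f1 (I x y t) (C x (y + t))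
  have h3 : δ ^ 64 / 2 ^ 21 ≤ Pr3 Px Py Pt S3 := by
    have a := (trC Px Py Pt η x0 y0 hx0 hy0 hty htx (fun x y t => ind (S3 x y t))
      (fun _ _ _ => ind_nonneg _) fun _ _ _ => ind_le_one _).2
    have b := hr.trans (Pr3.mono _ _ _ (S' := fun x y t => S3 x y (t + (x0 - x) + (y0 - y)))
      fun x y t h => ⟨h.1.1.1.1, by
        have ee : y + (t + (x0 - x) + (y0 - y)) + x - x0 - y0 = t := by abel
        simp only [C, ee]
        refine e.splC (I1 := I (r t) y (t + (x0 - r t) + (y0 - y))) (not_not.1 h.2)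
          (hI _ _ _ h.1.1.1.1.1.1) ?_ ?_ ?_ hd hM hK
        · convert hI _ _ _ h.1.1.1.2.1.1 using 1; abel
        · convert hI _ _ _ h.1.1.2.1.1 using 1; abel
        · convert hI _ _ _ h.1.2.1.1 using 1; abel⟩)
    unfold Pr3 at b ⊢
    linarith
  obtain ⟨x, hx, t0, hf⟩ := func Px Py Pt S3 _ (div_nonneg (pow_nonneg hδ 64) (by norm_num)) h3
  let k1 := lab1 (A x t0) (bv 0) f1
  refine ⟨x, hx, fun μ => if Fintype.card (Sl μ) = 1 then ψ1 x μ - e.io1 x k1 μ else 0,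
    fun y => lab (B x y) f0 (bv 1),
    fun y μ => if Nonempty (Sl μ) then 0 else ψ2 y μ - e.io1 y (lab (B x y) f0 (bv 1)) μ,
    fun t μ => ψ3 (x + t) μ - e.io1 (x + t) (lab (A x t) (bv 0) (bv 2)) μ - (ψ1 x μ - e.io1 x k1 μ),
    fun s μ => ψ4 s μ - e.io1 s (lab (C x s) f1 (bv 2)) μ, fun μ h => if_neg h,
    fun y μ h => if_pos h, ?_⟩
  refine le_trans (le_of_eq (by ring)) (hf.trans (Py.mono fun y _ => Pt.mono fun t _ =>
    ind_mono fun h => ?_))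
  obtain ⟨g1, g2⟩ := gauge_form h.1.1.1.2 h.1.1.2 h.1.2
  obtain ⟨g3, -⟩ := gauge_form h.2.1.1.2 h.2.1.2 h.2.2
  rw [← g1, g3] at g2
  have key := e.rel_out (hI _ _ _ h.1.1.1.1) g2
  refine ⟨h.1.1.1.1, fun μ => ?_, deg0 (I x y t), fun μ hμ => if_pos hμ, fun μ hμ => ?_⟩
  · by_cases hμ : Nonempty (Sl μ)
    · simp only [if_pos hμ, sub_zero]
      exact (key μ).1 hμ
    · have : Fintype.card (Sl μ) ≠ 1 := by
        rw [Fintype.card_eq_zero_iff.2 (not_nonempty_iff.1 hμ)]; norm_num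
      simp only [if_neg hμ, if_neg this, sub_zero, sub_self, abs_zero]
      linarith
  · simp only [if_neg (not_nonempty_iff.2 hμ)]
    exact (key μ).2 hμ

end

end Vale.Agent.P057GA
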