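import Vale.Agent.P057GA.Pi
import Vale.Agent.P057GA.Gauge
import Vale.Agent.P057PI.Wit

/-! The gauge theorem for four generators, at a share of the anchors. -/

set_option linter.all false

open Finset

namespace Vale.Agent.P057GA

open Vale.Agent.P057PI

noncomputable section

variable {Mon : Type} {Sl : Mon → Type} [∀ μ, Fintype (Sl μ)] [∀ μ, DecidableEq (Sl μ)]
  {Λ : Type} [AddCommGroup Λ]

/-- a combination of eight points -/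
def cmb (a0 a1 a2 a3 a4 a5 a6 a7 : ℤ) (z : Fin 8 → Λ) : Λ :=
  a0 • z 0 + a1 • z 1 + a2 • z 2 + a3 • z 3 + a4 • z 4 + a5 • z 5 + a6 • z 6 + a7 • z 7

theorem sum8 (n : Fin 8 → ℤ) (z : Fin 8 → Λ) :
    cmb (n 0) (n 1) (n 2) (n 3) (n 4) (n 5) (n 6) (n 7) z = ∑ j, n j • z j :=
  (Fin.sum_univ_eight fun j => n j • z j).symm

theorem tup5 {a b c d e : Λ} {f : Fin 5 → Λ} (h0 : a = f 0) (h1 : b = f 1) (h2 : c = f 2)
    (h3 : d = f 3) (h4 : e = f 4) : ![a, b, c, d, e] = f := by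
  subst h0 h1 h2 h3 h4
  funext i
  fin_cases i <;> rfl

def N1 : Fin 5 → Fin 8 → ℤ :=
  ![![1, 0, 0, 0, 1, 0, 0, 0], ![1, 0, 0, 1, 0, 0, 0, 0], ![-1, 1, 0, 0, 0, 0, 0, 0],
    ![1, 0, 0, 0, 0, 0, -1, 0], ![1, 0, 0, 0, 0, 0, 0, -1]]
def R1 : Fin 8 → Fin 5 → ℤ :=
  ![0, ![0, 0, 1, 0, 0], 0, ![0, 1, 0, 0, 0], ![1, 0, 0, 0, 0], 0, ![0, 0, 0, -1, 0],
    ![0, 0, 0, 0, -1]]
def N2 : Fin 5 → Fin 8 → ℤ :=
  ![![1, 0, 0, -1, 1, 0, 0, 0], ![1, 0, 0, -1, 0, 1, 0, 0], ![1, 0, 0, 0, 0, 0, 1, 0],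
    ![1, 0, 0, 0, 0, 0, 0, 1], ![-1, 1, 0, 1, 0, 0, 0, 0]]
def R2 : Fin 8 → Fin 5 → ℤ :=
  ![0, ![0, 0, 0, 0, 1], 0, 0, ![1, 0, 0, 0, 0], ![0, 1, 0, 0, 0], ![0, 0, 1, 0, 0],
    ![0, 0, 0, 1, 0]]
def N3 : Fin 5 → Fin 8 → ℤ :=
  ![![1, 0, 0, -1, 1, 0, 0, 0], ![1, 0, 0, 0, 0, 0, 1, 0], ![1, 0, 0, 0, 0, 0, 0, 1],
    ![-1, 1, 0, 1, 0, 0, 0, 0], ![-1, 0, 1, 1, 0, 0, 0, 0]]
def R3 : Fin 8 → Fin 5 → ℤ :=
  ![0, ![0, 0, 0, 1, 0], ![0, 0, 0, 0, 1], 0, ![1, 0, 0, 0, 0], 0, ![0, 1, 0, 0, 0],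
    ![0, 0, 1, 0, 0]]

namespace Emb

variable (e : Emb Sl Λ) {K K' : ℝ} {d : ℕ} {z : Fin 8 → Λ}

theorem rig1 (hR : e.Rig K z) (hd : ∀ μ, Fintype.card (Sl μ) ≤ d) (h0 : 0 ≤ K')
    (hK : 5 ^ d * K' ≤ K) :
    e.Rig K' ![z 0 + z 4, z 0 + z 3, z 1 - z 0, z 0 - z 6, z 0 - z 7] := by
  have := e.rig_pull hR N1 R1 (by decide) (by norm_num)
    (fun j => by exact_mod_cast (by revert j; decide : ∑ a, |N1 a j| ≤ 5)) hd h0 hK
  rw [tup5 (f := fun a => ∑ j, N1 a j • z j)]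
  · exact this
  · exact Eq.trans (b := cmb 1 0 0 0 1 0 0 0 z) (by unfold cmb; module) (sum8 (N1 0) z)
  · exact Eq.trans (b := cmb 1 0 0 1 0 0 0 0 z) (by unfold cmb; module) (sum8 (N1 1) z)
  · exact Eq.trans (b := cmb (-1) 1 0 0 0 0 0 0 z) (by unfold cmb; module) (sum8 (N1 2) z)
  · exact Eq.trans (b := cmb 1 0 0 0 0 0 (-1) 0 z) (by unfold cmb; module) (sum8 (N1 3) z)
  · exact Eq.trans (b := cmb 1 0 0 0 0 0 0 (-1) z) (by unfold cmb; module) (sum8 (N1 4) z)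

theorem rig2 (hR : e.Rig K z) (hd : ∀ μ, Fintype.card (Sl μ) ≤ d) (h0 : 0 ≤ K')
    (hK : 5 ^ d * K' ≤ K) :
    e.Rig K' ![z 4 + (z 0 - z 3), z 5 + (z 0 - z 3), z 6 + z 0, z 7 + z 0,
      z 1 + (z 3 - z 0)] := by
  have := e.rig_pull hR N2 R2 (by decide) (by norm_num)
    (fun j => by exact_mod_cast (by revert j; decide : ∑ a, |N2 a j| ≤ 5)) hd h0 hK
  rw [tup5 (f := fun a => ∑ j, N2 a j • z j)]
  · exact this
  · exact Eq.trans (b := cmb 1 0 0 (-1) 1 0 0 0 z) (by unfold cmb; module) (sum8 (N2 0) z)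
  · exact Eq.trans (b := cmb 1 0 0 (-1) 0 1 0 0 z) (by unfold cmb; module) (sum8 (N2 1) z)
  · exact Eq.trans (b := cmb 1 0 0 0 0 0 1 0 z) (by unfold cmb; module) (sum8 (N2 2) z)
  · exact Eq.trans (b := cmb 1 0 0 0 0 0 0 1 z) (by unfold cmb; module) (sum8 (N2 3) z)
  · exact Eq.trans (b := cmb (-1) 1 0 1 0 0 0 0 z) (by unfold cmb; module) (sum8 (N2 4) z)

theorem rig3 (hR : e.Rig K z) (hd : ∀ μ, Fintype.card (Sl μ) ≤ d) (h0 : 0 ≤ K')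
    (hK : 5 ^ d * K' ≤ K) :
    e.Rig K' ![z 4 + (z 0 - z 3), z 6 + z 0, z 7 + z 0, z 1 + (z 3 - z 0),
      z 2 + (z 3 - z 0)] := by
  have := e.rig_pull hR N3 R3 (by decide) (by norm_num)
    (fun j => by exact_mod_cast (by revert j; decide : ∑ a, |N3 a j| ≤ 5)) hd h0 hK
  rw [tup5 (f := fun a => ∑ j, N3 a j • z j)]
  · exact this
  · exact Eq.trans (b := cmb 1 0 0 (-1) 1 0 0 0 z) (by unfold cmb; module) (sum8 (N3 0) z)
  · exact Eq.trans (b := cmb 1 0 0 0 0 0 1 0 z) (by unfold cmb; module) (sum8 (N3 1) z)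
  · exact Eq.trans (b := cmb 1 0 0 0 0 0 0 1 z) (by unfold cmb; module) (sum8 (N3 2) z)
  · exact Eq.trans (b := cmb (-1) 1 0 1 0 0 0 0 z) (by unfold cmb; module) (sum8 (N3 3) z)
  · exact Eq.trans (b := cmb (-1) 0 1 1 0 0 0 0 z) (by unfold cmb; module) (sum8 (N3 4) z)

/-- the relation of four points over four generators -/
def Q4 (ψ1 ψ2 ψ3 ψ4 : Λ → Mon → ℝ) (M : ℝ) (t t' h h' : Λ) : Prop :=
  ∃ I, Bd M (L4 Sl (ψ1 (t + h)) (ψ2 (t + h')) (ψ3 (t' + h)) (ψ4 (t' + h')) -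
    e.io 4 ![t, t', h, h'] I)

theorem wit_pt {ψ1 ψ2 ψ3 ψ4 : Λ → Mon → ℝ} {M : ℝ} {t t' h h' a a' : Λ}
    (hR : e.Rig K ![t + h', t + h, t' - t, t - a, t - a'])
    (h1 : e.Q4 ψ1 ψ2 ψ3 ψ4 M (t - a) (t' - a) (h + a) (h' + a))
    (h2 : e.Q4 ψ1 ψ2 ψ3 ψ4 M (t - a') (t' - a') (h + a') (h' + a'))
    (hd : ∀ μ, Fintype.card (Sl μ) ≤ d) (hM : 0 ≤ M) (hK : 2 * (4 ^ d * M) ≤ K) :
    ∃ J, e.Rel ψ2 ψ1 ψ4 ψ3 (4 ^ d * M) (t + h') (t + h) (t' - t) J := by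
  obtain ⟨I1, h1⟩ := h1
  obtain ⟨I2, h2⟩ := h2
  have a1 : ∀ x y b : Λ, x - b + (y + b) = x + y := fun x y b => by abel
  have a2 : ∀ b : Λ, t' - b = t - b + (t' - t) := fun b => by abel
  have a3 : ∀ y b : Λ, y + b = t + y - (t - b) := fun y b => by abel
  simp only [a1] at h1 h2
  rw [a2 a, a3 h a, a3 h' a] at h1
  rw [a2 a', a3 h a', a3 h' a'] at h2
  obtain ⟨J, hJ⟩ := wit4 e hR h1 h2 hd hM hK
  refine ⟨J, ?_⟩
  unfold Rel
  rwa [show t + h + (t' - t) = t' + h by abel, show t + h' + (t' - t) = t' + h' by abel]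

end Emb

theorem bad_of {α : Type} (P : Fin 8 → Pw α) {g : ℕ} {j : Fin g → Fin 8}
    (hj : Function.Injective j) {p : (Fin g → α) → Prop} {q : (Fin 8 → α) → Prop}
    (h : ∀ z, q z → p (z ∘ j)) {P' : Fin g → Pw α} (hP : P ∘ j = P') :
    ((Pw.pi P').E fun x => ind (¬p x)) ≤ (Pw.pi P).E fun z => ind (¬q z) := by
  rw [← hP, ← Pw.pi_comp P hj]
  exact Pw.mono _ fun z _ => ind_mono fun hp hq => hp (h z hq)

theorem shift4 (P1 P2 : Pw Λ) {a b : Λ} {η : ℝ} (h1 : P1.Inv a η) (h2 : P2.Inv b η)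
    (F : Λ → Λ → Λ → Λ → ℝ) (F0 : ∀ t t' h h', 0 ≤ F t t' h h') (F1 : ∀ t t' h h', F t t' h h' ≤ 1) :
    (P1.E fun t => P1.E fun t' => P2.E fun h => P2.E fun h' => F t t' h h') ≤
      (P1.E fun t => P1.E fun t' => P2.E fun h => P2.E fun h' =>
        F (t + a) (t' + a) (h + b) (h' + b)) + 4 * η := by
  have s3 : ∀ t t', (P2.E fun h => P2.E fun h' => F t t' h h') ≤
      (P2.E fun h => P2.E fun h' => F t t' (h + b) (h' + b)) + 2 * η := by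
    intro t t'
    have u1 := P2.mono_add fun h _ => h2.ge (fun h' => F t t' h h') (F0 t t' h) (F1 t t' h)
    have u2 := h2.ge (fun h => P2.E fun h' => F t t' h (h' + b))
      (fun h => P2.nonneg fun _ => F0 ..) fun h => P2.le_one fun _ => F1 ..
    linarith
  have s2 : ∀ t, (P1.E fun t' => P2.E fun h => P2.E fun h' => F t t' h h') ≤
      (P1.E fun t' => P2.E fun h => P2.E fun h' => F t (t' + a) (h + b) (h' + b)) + 3 * η := by
    intro t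
    have u1 := P1.mono_add fun t' _ => s3 t t'
    have u2 := h1.ge (fun t' => P2.E fun h => P2.E fun h' => F t t' (h + b) (h' + b))
      (fun _ => P2.nonneg fun _ => P2.nonneg fun _ => F0 ..)
      fun _ => P2.le_one fun _ => P2.le_one fun _ => F1 ..
    linarith
  have u1 := P1.mono_add fun t _ => s2 t
  have u2 := h1.ge (fun t => P1.E fun t' => P2.E fun h => P2.E fun h' =>
      F t (t' + a) (h + b) (h' + b))
    (fun _ => P1.nonneg fun _ => P2.nonneg fun _ => P2.nonneg fun _ => F0 ..)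
    fun _ => P1.le_one fun _ => P2.le_one fun _ => P2.le_one fun _ => F1 ..
  linarith

/-- two witnesses -/
theorem two4 (P1 P2 P3 : Pw Λ) {δ η : ℝ} (h1 : ∀ a ∈ P3.D, P1.Inv (-a) η)
    (h2 : ∀ a ∈ P3.D, P2.Inv a η) (Q S : Λ → Λ → Λ → Λ → Prop)
    (B : Λ → Λ → Λ → Λ → Λ → Λ → Prop) (h0 : 4 * η ≤ δ)
    (hQ : δ ≤ P1.E fun t => P1.E fun t' => P2.E fun h => P2.E fun h' => ind (Q t t' h h'))
    (hB : (P1.E fun t => P1.E fun t' => P2.E fun h => P2.E fun h' => P3.E fun a => P3.E fun a' =>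
      ind (¬B t t' h h' a a')) ≤ η)
    (hS : ∀ t t' h h' a a', Q (t - a) (t' - a) (h + a) (h' + a) →
      Q (t - a') (t' - a') (h + a') (h' + a') → B t t' h h' a a' → S t t' h h') :
    (δ - 4 * η) ^ 2 - η ≤
      P1.E fun t => P1.E fun t' => P2.E fun h => P2.E fun h' => ind (S t t' h h') := by
  have u1 : δ - 4 * η ≤ P1.E fun t => P1.E fun t' => P2.E fun h => P2.E fun h' => P3.E fun a =>
      ind (Q (t - a) (t' - a) (h + a) (h' + a)) := by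
    have u : δ - 4 * η ≤ P3.E fun a => P1.E fun t => P1.E fun t' => P2.E fun h => P2.E fun h' =>
        ind (Q (t - a) (t' - a) (h + a) (h' + a)) := by
      refine (P3.const _).ge.trans (P3.mono fun a ha => ?_)
      have := shift4 P1 P2 (h1 a ha) (h2 a ha) (fun t t' h h' => ind (Q t t' h h'))
        (fun _ _ _ _ => ind_nonneg _) fun _ _ _ _ => ind_le_one _
      simp only [← sub_eq_add_neg] at this
      linarith
    refine u.trans (le_of_eq ?_)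
    rw [Pw.comm]
    congr 1
    funext t
    rw [Pw.comm]
    congr 1
    funext t'
    exact (Pw.rot _ _ _ _).symm
  refine le_trans (sub_le_sub ((pow_le_pow_left₀ (by linarith) u1 2).trans
    ((P1.sq_le _).trans (P1.mono fun t _ => (P1.sq_le _).trans (P1.mono fun t' _ =>
      (P2.sq_le _).trans (P2.mono fun h _ => P2.sq_le _))))) hB) ?_
  simp only [← Pw.sub]
  refine P1.mono fun t _ => P1.mono fun t' _ => P2.mono fun h _ => P2.mono fun h' _ => ?_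
  rw [Pw.sq_eq]
  simp only [← Pw.sub, ← ind_and]
  refine (P3.mono fun a _ => (P3.mono fun a' _ => (ind_not _ _).trans (ind_mono fun hh =>
    hS t t' h h' a a' hh.1.1 hh.1.2 (not_not.1 hh.2))).trans (P3.const _).le).trans (P3.const _).le

/-- anchors -/
theorem anc4 (P1 P2 P3 : Pw Λ) {η : ℝ} (h1 : ∀ a ∈ P2.D, P1.Inv (-a) η)
    (h2 : ∀ a ∈ P3.D, P2.Inv a η) (S : Λ → Λ → Λ → Prop) :
    (P1.E fun t => P1.E fun t' => P2.E fun h => P2.E fun h' => ind (S (t + h') (t + h) (t' - t))) ≤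
      (P1.E fun o => P2.E fun o2 =>
        Pr3 (P2.shift (o - o2)) (P3.shift o) (P1.shift (o2 - o)) S) + 2 * η := by
  have u1 : ∀ t t', (P2.E fun h => P2.E fun h' => ind (S (t + h') (t + h) (t' - t))) ≤
      (P2.E fun h => P2.E fun h' => P3.E fun y => ind (S (t + h') (t + (h + y)) (t' - t))) + η := by
    intro t t'
    rw [Pw.rot]
    refine (P3.const _).ge.trans (P3.mono_add fun y hy => ?_)
    exact (h2 y hy).ge (fun h => P2.E fun h' => ind (S (t + h') (t + h) (t' - t)))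
      (fun _ => P2.nonneg fun _ => ind_nonneg _) fun _ => P2.le_one fun _ => ind_le_one _
  have u2 := P1.mono_add fun t _ => P1.mono_add fun t' _ => u1 t t'
  rw [Pw.rot P1 P1 P2 fun t t' h => P2.E fun h' => P3.E fun y =>
    ind (S (t + h') (t + (h + y)) (t' - t))] at u2
  have u3 := P2.mono_add fun h hh => (h1 h hh).ge (fun t => P1.E fun t' => P2.E fun h' =>
      P3.E fun y => ind (S (t + h') (t + (h + y)) (t' - t)))
    (fun _ => P1.nonneg fun _ => P2.nonneg fun _ => P3.nonneg fun _ => ind_nonneg _)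
    fun _ => P1.le_one fun _ => P2.le_one fun _ => P3.le_one fun _ => ind_le_one _
  have u4 : (P2.E fun h => P1.E fun t => P1.E fun t' => P2.E fun h' => P3.E fun y =>
      ind (S (t + -h + h') (t + -h + (h + y)) (t' - (t + -h)))) = P1.E fun o => P2.E fun o2 =>
        Pr3 (P2.shift (o - o2)) (P3.shift o) (P1.shift (o2 - o)) S := by
    rw [Pw.comm]
    congr 1
    funext o
    congr 1
    funext o2
    unfold Pr3
    simp only [Pw.shift_E]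
    conv_rhs => rw [Pw.rot]
    congr 1
    funext t'
    congr 1
    funext h'
    congr 1
    funext y
    congr 2 <;> abel
  linarith

theorem ind_good {p b1 b2 δ η : ℝ} (hp : p ≤ 1) (h1 : 0 ≤ b1) (h2 : 0 ≤ b2) (hδ : 0 ≤ δ)
    (hη : 0 < η) : p - δ - η⁻¹ * b1 - η⁻¹ * b2 ≤ ind (δ ≤ p ∧ b1 ≤ η ∧ b2 ≤ η) := by
  have c1 : 0 ≤ η⁻¹ * b1 := by positivity
  have c2 : 0 ≤ η⁻¹ * b2 := by positivity
  have c : ∀ b, η < b → 1 ≤ η⁻¹ * b := fun b hb => by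
    rw [le_inv_mul_iff₀ hη]
    linarith
  unfold ind
  split_ifs with h
  · linarith
  · by_cases a : δ ≤ p
    · by_cases b : b1 ≤ η
      · have := c b2 (lt_of_not_ge fun hb => h ⟨a, b, hb⟩)
        linarith
      · have := c b1 (lt_of_not_ge b)
        linarith
    · linarith [lt_of_not_ge a]

theorem num4 {δ η : ℝ} (h0 : 0 < δ) (h1 : δ ≤ 1) (hη0 : 0 ≤ η) (hη : 2 ^ 160 * η ≤ δ ^ 130) :
    4 * η ≤ δ ∧ η ≤ δ ^ 128 / 2 ^ 152 ∧ δ ^ 2 / 4 ≤ (δ - 4 * η) ^ 2 - η - 2 * η - δ ^ 2 / 4 -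
      (δ ^ 128 / 2 ^ 152)⁻¹ * η - (δ ^ 128 / 2 ^ 152)⁻¹ * η := by
  have a1 : δ ^ 130 ≤ δ ^ 128 := pow_le_pow_of_le_one h0.le h1 (by norm_num)
  have a2 : δ ^ 130 ≤ δ ^ 2 := pow_le_pow_of_le_one h0.le h1 (by norm_num)
  have a3 : δ ^ 2 ≤ δ := by nlinarith
  have a4 : (δ ^ 128 / 2 ^ 152)⁻¹ * η ≤ δ ^ 2 / 256 := by
    rw [inv_mul_le_iff₀ (by positivity)]
    have : δ ^ 128 / 2 ^ 152 * (δ ^ 2 / 256) = δ ^ 130 / 2 ^ 160 := by ring
    rw [this]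
    linarith
  have a5 : δ * η ≤ η := by nlinarith
  refine ⟨by linarith, by linarith, ?_⟩
  nlinarith [sq_nonneg η]

/-- the output of the gauge theorem at the points `o + y` and `t` -/
def Emb.Out (e : Emb Sl Λ) (ψ : Λ → Mon → ℝ) (M : ℝ) (o : Λ) (Θ : Mon → ℝ) (k : Λ → Mon → ℤ)
    (f g ζ : Λ → Mon → ℝ) (t y : Λ) : Prop :=
  (∀ μ, |ψ (o + y) μ - e.io1 (o + y) (k y) μ - Θ μ - f y μ| ≤ 3 * M) ∧
    ∃ I0 : Mon → ℤ, (∀ μ, Nonempty (Sl μ) → I0 μ = 0) ∧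
      ∀ μ, IsEmpty (Sl μ) → |ζ (t + y) μ - g t μ - f y μ - e.io1 0 I0 μ| ≤ M

/-- **the gauge theorem for four generators** -/
theorem gauge4 (e : Emb Sl Λ) (P1 P2 P3 : Pw Λ) (ψ1 ψ2 ψ3 ψ4 : Λ → Mon → ℝ) (U : Λ → Prop)
    (K M δ η : ℝ) (d : ℕ) (hd : ∀ μ, Fintype.card (Sl μ) ≤ d) (hM : 0 ≤ M)
    (hK : 4 * 60 ^ d * M ≤ K) (hδ : 0 < δ) (hη0 : 0 ≤ η) (hη : 2 ^ 160 * η ≤ δ ^ 130)
    (z2 : 0 ∈ P2.D) (z3 : 0 ∈ P3.D) (h12 : ∀ a ∈ P2.D, ∀ a' ∈ P2.D, P1.Inv (a - a') η)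
    (h13 : ∀ a ∈ P3.D, ∀ a' ∈ P3.D, P1.Inv (a - a') η)
    (h23 : ∀ a ∈ P3.D, ∀ a' ∈ P3.D, P2.Inv (a - a') η)
    (hR : ((Pw.pi ![P1, P1, P1, P2, P2, P2, P3, P3]).E fun z => ind (¬e.Rig K z)) ≤ η)
    (hP : δ ≤ P1.E fun t => P1.E fun t' => P2.E fun h => P2.E fun h' =>
      ind (U (t + h) ∧ e.Q4 ψ1 ψ2 ψ3 ψ4 M t t' h h')) :
    δ ^ 2 / 4 ≤ P1.E fun o => ind (∃ (Θ : Mon → ℝ) (k : Λ → Mon → ℤ) (f g ζ : Λ → Mon → ℝ),
      (∀ μ, Fintype.card (Sl μ) ≠ 1 → Θ μ = 0) ∧ (∀ y μ, Nonempty (Sl μ) → f y μ = 0) ∧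
      (δ ^ 2 / 4) ^ 128 / 2 ^ 42 ≤ P1.E fun t => P3.E fun y =>
        ind (U (o + y) ∧ e.Out ψ1 (4 ^ d * M) o Θ k f g ζ t y)) := by
  have h1 : δ ≤ 1 := hP.trans (P1.le_one fun _ => P1.le_one fun _ => P2.le_one fun _ =>
    P2.le_one fun _ => ind_le_one _)
  obtain ⟨n1, n2, n3⟩ := num4 hδ h1 hη0 hη
  have k0 : 0 ≤ 4 * 3 ^ d * (4 ^ d * M) := by positivity
  have k1 : 5 ^ d * (4 * 3 ^ d * (4 ^ d * M)) ≤ K := by
    rw [show (60 : ℝ) = 5 * 3 * 4 by norm_num, mul_pow, mul_pow] at hK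
    linarith
  have k2 : 2 * (4 ^ d * M) ≤ 4 * 3 ^ d * (4 ^ d * M) := by
    have : (1 : ℝ) ≤ 3 ^ d := one_le_pow₀ (by norm_num)
    exact mul_le_mul_of_nonneg_right (by linarith) (by positivity)
  set K' := 4 * 3 ^ d * (4 ^ d * M) with hK'
  let S : Λ → Λ → Λ → Prop := fun x y τ => U y ∧ ∃ J, e.Rel ψ2 ψ1 ψ4 ψ3 (4 ^ d * M) x y τ J
  have b1 := (bad_of ![P1, P1, P1, P2, P2, P2, P3, P3] (j := ![0, 1, 3, 4, 6, 7]) (by decide)
    (p := fun x => e.Rig K' ![x 0 + x 3, x 0 + x 2, x 1 - x 0, x 0 - x 4, x 0 - x 5])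
    (fun z hz => e.rig1 hz hd k0 k1) (P' := ![P1, P1, P2, P2, P3, P3])
    (by funext i; fin_cases i <;> rfl)).trans hR
  have b2 := (bad_of ![P1, P1, P1, P2, P2, P2, P3, P3] (j := ![0, 3, 4, 6, 1, 5, 7]) (by decide)
    (p := fun x => e.Rig K' ![x 2 + (x 0 - x 1), x 5 + (x 0 - x 1), x 3 + x 0, x 6 + x 0,
      x 4 + (x 1 - x 0)])
    (fun z hz => e.rig2 hz hd k0 k1) (P' := ![P1, P2, P2, P3, P1, P2, P3])
    (by funext i; fin_cases i <;> rfl)).trans hR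
  have b3 := (bad_of ![P1, P1, P1, P2, P2, P2, P3, P3] (j := ![0, 3, 6, 1, 4, 7, 2]) (by decide)
    (p := fun x => e.Rig K' ![x 4 + (x 0 - x 1), x 2 + x 0, x 5 + x 0, x 3 + (x 1 - x 0),
      x 6 + (x 1 - x 0)])
    (fun z hz => e.rig3 hz hd k0 k1) (P' := ![P1, P2, P3, P1, P2, P3, P1])
    (by funext i; fin_cases i <;> rfl)).trans hR
  simp only [Pw.pi_cons, Pw.pi_nil] at b1 b2 b3
  have w := two4 P1 P2 P3 (fun a ha => by simpa using h13 0 z3 a ha)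
    (fun a ha => by simpa using h23 a ha 0 z3)
    (fun t t' h h' => U (t + h) ∧ e.Q4 ψ1 ψ2 ψ3 ψ4 M t t' h h')
    (fun t t' h h' => S (t + h') (t + h) (t' - t))
    (fun t t' h h' a a' => e.Rig K' ![t + h', t + h, t' - t, t - a, t - a']) n1 hP b1
    fun t t' h h' a a' q1 q2 hB => ⟨by simpa using q1.1, e.wit_pt hB q1.2 q2.2 hd hM k2⟩
  have w2 := anc4 P1 P2 P3 (fun a ha => by simpa using h12 0 z2 a ha)
    (fun a ha => by simpa using h23 a ha 0 z3) S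
  let r1 : Λ → Λ → ℝ := fun o o2 => (P2.shift (o - o2)).E fun x => (P3.shift o).E fun y =>
    (P1.shift (o2 - o)).E fun t => (P2.shift (o - o2)).E fun x' => (P3.shift o).E fun y' =>
      ind (¬e.Rig K' ![x, x', y, y', t])
  let r2 : Λ → Λ → ℝ := fun o o2 => (P3.shift o).E fun y => (P1.shift (o2 - o)).E fun t =>
    (P2.shift (o - o2)).E fun x => (P3.shift o).E fun y' => (P1.shift (o2 - o)).E fun t' =>
      ind (¬e.Rig K' ![x, y, y', t, t'])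
  have c2 : (P1.E fun o => P2.E fun o2 => r1 o o2) ≤ η := by
    simp only [r1, Pw.shift_E]
    exact b2
  have c3 : (P1.E fun o => P2.E fun o2 => r2 o o2) ≤ η := by
    simp only [r2, Pw.shift_E]
    exact b3
  have p0 : 0 < δ ^ 128 / 2 ^ 152 := by positivity
  have g1 := P1.mono fun o _ => P2.mono fun o2 _ => ind_good
    (p := Pr3 (P2.shift (o - o2)) (P3.shift o) (P1.shift (o2 - o)) S) (b1 := r1 o o2)
    (b2 := r2 o o2) (δ := δ ^ 2 / 4)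
    (Pw.le_one _ fun _ => Pw.le_one _ fun _ => Pw.le_one _ fun _ => ind_le_one _)
    (Pw.nonneg _ fun _ => Pw.nonneg _ fun _ => Pw.nonneg _ fun _ => Pw.nonneg _ fun _ =>
      Pw.nonneg _ fun _ => ind_nonneg _)
    (Pw.nonneg _ fun _ => Pw.nonneg _ fun _ => Pw.nonneg _ fun _ => Pw.nonneg _ fun _ =>
      Pw.nonneg _ fun _ => ind_nonneg _) (by positivity) p0
  simp only [Pw.sub, Pw.mul_left, Pw.const] at g1
  have c2' := mul_le_mul_of_nonneg_left c2 (inv_nonneg.2 p0.le)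
  have c3' := mul_le_mul_of_nonneg_left c3 (inv_nonneg.2 p0.le)
  refine le_trans (by linarith) (g1.trans (P1.mono fun o _ => (P2.mono fun o2 _ =>
    ind_mono fun hg => ?_).trans (P2.const _).le))
  obtain ⟨x0, _, Θ, k, f, g, ζ, hΘ, hf, hs⟩ := gauge e (P2.shift (o - o2)) (P3.shift o)
    (P1.shift (o2 - o)) ψ2 ψ1 ψ4 ψ3 S K' (4 ^ d * M) (δ ^ 2 / 4) (δ ^ 128 / 2 ^ 152) d hd
    (by positivity) le_rfl (by positivity) p0.le (le_of_eq (by ring))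
    (Pw.inv_shift h23 n2 _ _) (Pw.inv_shift h13 n2 _ _) (Pw.inv_shift h12 n2 _ _) hg.2.1 hg.2.2
    (fun _ _ _ h => h.2) hg.1
  refine ⟨Θ, fun y => k (o + y), fun y => f (o + y), fun t => g (t + (o2 - o)),
    fun s => ζ (s + o2), hΘ, fun y => hf _, ?_⟩
  simp only [Pw.shift_E] at hs
  rw [Pw.comm] at hs
  refine hs.trans (P1.mono fun t _ => P3.mono fun y _ => ind_mono fun hh => ?_)
  rw [add_comm y o] at hh
  obtain ⟨I0, i1, i2⟩ := hh.2.2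
  refine ⟨hh.1.1, hh.2.1, I0, i1, fun μ hμ => ?_⟩
  have := i2 μ hμ
  rwa [show o + y + (t + (o2 - o)) = t + y + o2 by abel, sub_right_comm (ζ _ μ)] at this

end

end Vale.Agent.P057GA
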