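import Vale.Agent.P057GA.Sem
import Vale.Agent.P057GA.Four
import Vale.Agent.P057PI.Cop

/-!
Systems of copies against the joint index set; sums of embeddings.
-/

set_option linter.all false

open Matrix Finset
open Vale.Agent.P267.H775 Vale.Agent.P057G Vale.Agent.P057MA Vale.Agent.P057PI
open Vale.Agent.P057T1 (NF UF Bal gsc pr)

namespace Vale.Agent.P057GA

noncomputable section

section sg

variable {κ : Type} {Mo : κ → Type} {Sl : ∀ r, Mo r → Type} [∀ r μ, Fintype (Sl r μ)]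
  [∀ r μ, DecidableEq (Sl r μ)] {Λ : Type} [AddCommGroup Λ]

/-- the slots of a family -/
abbrev SlS (Sl : ∀ r, Mo r → Type) (μ : Σ r, Mo r) : Type := Sl μ.1 μ.2

/-- the sum of a family of embeddings -/
def Emb.sigma (e : ∀ r, Emb (Sl r) Λ) : Emb (SlS Sl) Λ where
  io g x := AddMonoidHom.mk' (fun I μ => (e μ.1).io g x (fun ν => I ⟨μ.1, ν⟩) μ.2) fun I I' => by
    funext μ
    exact congrFun (((e μ.1).io g x).map_add (fun ν => I ⟨μ.1, ν⟩) fun ν => I' ⟨μ.1, ν⟩) μ.2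
  nat g g' n x I := by
    funext μ
    exact congrFun ((e μ.1).nat g g' n x fun ν => I ⟨μ.1, ν⟩) μ.2

theorem Emb.rig_sigma {e : ∀ r, Emb (Sl r) Λ} {K : ℝ} {g : ℕ} {x : Fin g → Λ}
    (h : ∀ r, (e r).Rig K x) : (Emb.sigma e).Rig K x := fun I hI => by
  funext μ
  exact congrFun (h μ.1 (fun ν => I ⟨μ.1, ν⟩) fun ν => hI ⟨μ.1, ν⟩) μ.2

theorem Emb.q4_sigma {e : ∀ r, Emb (Sl r) Λ} {ψ : Fin 4 → ∀ r, Λ → Mo r → ℝ} {M : ℝ}
    {t t' h h' : Λ} (H : ∀ r, (e r).Q4 (ψ 0 r) (ψ 1 r) (ψ 2 r) (ψ 3 r) M t t' h h') :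
    (Emb.sigma e).Q4 (fun z μ => ψ 0 μ.1 z μ.2) (fun z μ => ψ 1 μ.1 z μ.2)
      (fun z μ => ψ 2 μ.1 z μ.2) (fun z μ => ψ 3 μ.1 z μ.2) M t t' h h' := by
  choose I hI using H
  exact ⟨fun μ => I μ.1 μ.2, fun μ => hI μ.1 μ.2⟩

theorem Emb.io1_sigma (e : ∀ r, Emb (Sl r) Λ) (a : Λ) (k : (Σ r, Mo r) → ℤ) (r : κ) (μ : Mo r) :
    (Emb.sigma e).io1 a k ⟨r, μ⟩ = (e r).io1 a (fun ν => k ⟨r, ν⟩) μ := rfl

end sg

theorem fm_ren {V1 V2 ι1 ι2 : Type} [DecidableEq V1] [DecidableEq V2] [DecidableEq ι1]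
    [DecidableEq ι2] [Fintype ι1] [Fintype ι2] {S1 : MS V1 ι1} {S2 : MS V2 ι2} {q1 : Finset ι1}
    {q2 : Finset ι2} {A1 : Finset V1} {A2 : Finset V2} (e : ι2 → ι1) (h1 : ∀ a ∈ q2, e a ∈ q1)
    (h2 : ∀ v ∈ A1, ∃ u ∈ A2, ∀ a ∈ q2, e a ∈ S1.st v ↔ a ∈ S2.st u) {f : (ι2 → ℝ) → ℝ}
    (hf : Fm S2 q2 A2 f) : Fm S1 q1 A1 fun z => f (z ∘ e) := by
  refine ⟨fun z z' h => hf.on _ _ fun a ha => h _ (h1 a ha), fun v hv y => ?_⟩
  obtain ⟨u, hu, h⟩ := h2 v hv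
  have e1 : ∀ x, f (mix (S1.st v) x y ∘ e) = f (mix (S2.st u) (x ∘ e) (y ∘ e)) := fun x =>
    hf.on _ _ fun a ha => by simp only [Function.comp, mix, h a ha]
  simp only [e1]
  exact ⟨fun x x' => (hf.lin u hu _).map_add _ _, fun c x => (hf.lin u hu _).map_smul c _⟩

theorem intV_ren {ι1 ι2 : Type} (e : ι2 → ι1) {f : (ι2 → ℝ) → ℝ} (hf : IntV f) :
    IntV fun z => f (z ∘ e) := fun z => hf (z ∘ e)

variable {V ι C : Type} [DecidableEq V] [Fintype V] [DecidableEq ι] [Fintype ι] [DecidableEq C]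
  [Fintype C] {S : MS V ι} {q : Finset ι} {A : Finset V} {b : V} {c0 : C}

/-- from the joint index set to the copies -/
def tb (S : MS V ι) (c0 : C) (b : V) (a : ι × Option C) : BI S.fc c0 :=
  cqC S c0 b (a.2.getD c0) a.1

/-- from the copies to the joint index set -/
def fb (S : MS V ι) (c0 : C) (b : V) (i : BI S.fc c0) : ι × Option C :=
  (i.1.1, if i.1.1 ∈ S.st b then some (i.1.2 b) else none)

theorem fb_cq {α : Type} (Z : ι × Option C → α) (c : C) (j : ι) :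
    Z (fb S c0 b (cqC S c0 b c j)) = mix (S.st b) (fun j => Z (j, some c)) (fun j => Z (j, none)) j := by
  by_cases h : j ∈ S.st b
  · rw [mix_pos _ _ h, fb, cqC_w h]
    exact congrArg Z (Prod.ext rfl (if_pos h))
  · rw [mix_neg _ _ h]
    exact congrArg Z (Prod.ext rfl (if_neg h))

theorem fb_vw (Z : ι × Option C → ℝ) (c : C) :
    (Z ∘ fb S c0 b) ∘ cqC S c0 b c = vw S b c Z := funext fun j => fb_cq Z c j

theorem vw_tb (Z : BI S.fc c0 → ℝ) (c : C) : vw S b c (Z ∘ tb S c0 b) = Z ∘ cqC S c0 b c := by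
  funext j
  by_cases h : j ∈ S.st b
  · exact mix_pos _ _ h
  · exact (mix_neg _ _ h).trans (congrArg Z (cqC_out h _ _))

theorem vw_pos (Z : ι × Option C → ℝ) (c : C) {j : ι} (h : j ∈ S.st b) :
    vw S b c Z j = Z (j, some c) := mix_pos _ _ h

theorem vw_neg (Z : ι × Option C → ℝ) (c : C) {j : ι} (h : j ∉ S.st b) :
    vw S b c Z j = Z (j, none) := mix_neg _ _ h

theorem vw_get {r : Finset ι} (c0 : C) (Z : ι × Option C → ℝ) {a : ι × Option C}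
    (ha : a ∈ jq S r b C) : Z a = vw S b (a.2.getD c0) Z a.1 := by
  obtain ⟨j, _ | σ⟩ := a
  · exact (vw_neg Z _ ((mem_jq.1 ha).2.1 rfl)).symm
  · exact (vw_pos Z _ (by simpa using (mem_jq.1 ha).2)).symm

theorem qC_inter (q : Finset ι) (hb : b ∉ A) :
    qC S c0 q b ∩ (blow S c0).sts (aC c0 A) = qC S c0 (q ∩ S.sts A) b := by
  ext i
  simp only [mem_inter, mem_qC]
  constructor
  · rintro ⟨⟨c, j, hj, rfl⟩, h⟩
    exact ⟨c, j, ⟨hj, (cqC_sts hb c j).1 h⟩, rfl⟩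
  · rintro ⟨c, j, hj, rfl⟩
    exact ⟨⟨c, j, hj.1, rfl⟩, (cqC_sts hb c j).2 hj.2⟩

theorem cq_stA (hb : b ∉ A) {v : V} (hv : v ∈ A) (c : C) (j : ι) :
    cqC S c0 b c j ∈ (blow S c0).st (v, c0) ↔ j ∈ S.st v := by
  rw [MS.mem_st, mem_fc_blow, MS.mem_st]
  refine ⟨fun a => a.1, fun a => ⟨a, ?_⟩⟩
  have : v ≠ b := fun e => hb (e ▸ hv)
  rw [cp_snd _ a]
  simp only [chC, Function.update_of_ne this]

theorem fm_tb (hb : b ∉ A) {r : Finset ι} {G : Matrix (BI S.fc c0) (BI S.fc c0) ℝ}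
    {η : (ι × Option C → ℝ) → ℝ} (h : Fm (jS S C) (jq S r b C) A η) :
    Fm ((blow S c0).gram G) (qC S c0 r b) (aC c0 A) fun Z => η (Z ∘ tb S c0 b) := by
  refine fm_ren _ (fun a ha => cqC_mem (mem_jq.1 ha).1 _) (fun u hu => ?_) h
  obtain ⟨v, hv, rfl⟩ := mem_image.1 hu
  exact ⟨v, hv, fun a _ => (cq_stA hb hv _ _).trans mem_jst.symm⟩

theorem fm_fb (hb : b ∉ A) {r : Finset ι} {G : Matrix (BI S.fc c0) (BI S.fc c0) ℝ}
    {η : (BI S.fc c0 → ℝ) → ℝ} (h : Fm ((blow S c0).gram G) (qC S c0 r b) (aC c0 A) η) :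
    Fm (jS S C) (jq S r b C) A fun Z => η (Z ∘ fb S c0 b) := by
  refine fm_ren _ (fun i hi => ?_) (fun v hv => ⟨(v, c0), mem_image_of_mem _ hv, fun i hi => ?_⟩) h
  · obtain ⟨c, j, hj, rfl⟩ := mem_qC.1 hi
    refine mem_jq.2 ⟨hj, ?_⟩
    show (if j ∈ S.st b then _ else none) = none ↔ j ∉ S.st b
    split_ifs with h <;> simp [h]
  · obtain ⟨c, j, hj, rfl⟩ := mem_qC.1 hi
    exact mem_jst.trans (cq_stA hb hv c j).symm

theorem jn_vw (r : Finset ι) (U : ι × Option C → ℝ) (c0 : C) :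
    jn S r b U = qq S.G (msk (r \ S.st b) (vw S b c0 U)) +
      ∑ c, qq S.G (msk (r ∩ S.st b) (vw S b c U)) := by
  unfold jn
  congr 1
  · exact congrArg _ (msk_congr fun j hj => (vw_neg U _ (mem_sdiff.1 hj).2).symm)
  · exact sum_congr rfl fun c _ =>
      congrArg _ (msk_congr fun j hj => (vw_pos U _ (mem_inter.1 hj).2).symm)

/-- short forms on the copies against short forms on the joint fibre -/
theorem ju_of_uf (h : S.Ok) (hq : Cls S q) (hb : b ∉ A) {y : ι → ℝ} {x : C → ι → ℝ}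
    {Y : BI S.fc c0 → ℝ} (hY : ∀ c, ∀ j ∈ q \ S.sts A, Y (cqC S c0 b c j) = mix (S.st b) (x c) y j)
    {K : ℝ} (hU : UF (nar (blow S c0) 1) (qC S c0 q b) (aC c0 A) K Y) : JU S q A b y x K := by
  intro η h1 h2 h3 Z
  have e0 : qC S c0 q b ∩ (nar (blow S c0) 1).sts (aC c0 A) = qC S c0 (q ∩ S.sts A) b :=
    qC_inter q hb
  have key := hU (fun Z => η (Z ∘ tb S c0 b)) (e0 ▸ fm_tb hb h1) (intV_ren _ h2) fun Z hZ => by
    rw [e0] at hZ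
    obtain ⟨z1, z2⟩ := hZ
    have p1 : ∀ c, vw S b c (pos (blow S c0) Z ∘ tb S c0 b) = pos S (Z ∘ cqC S c0 b c) := by
      intro c
      rw [vw_tb]
      funext j
      exact congrArg (fun t => Z (cqC S c0 b c j) - t) (p_cp h _ Z j)
    have p2 := h3 (pos (blow S c0) Z ∘ tb S c0 b) (by
      rw [ln2_nar, ← P057T1.ln2_gsc (s := sg S c0 b fun _ => 1) (c := 1)
        fun i _ => by simp [sg]] at z2
      have := (cop_split h (sc_sg (c0 := c0) (q ∩ S.sts A) b (σ := fun _ => 1)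
        fun _ => le_rfl)).1 Z
      simp only [one_pow, one_mul] at this
      rw [jn_vw _ _ c0]
      simp only [p1, ← ln2_eq]
      exact this ▸ z2)
    refine le_trans (le_of_eq (congrArg _ (h1.on _ _ fun a ha => ?_))) p2
    rw [vw_get c0 (LF S A b y x _) ha, vw_LF h, p1]
    have p3 := lft_congr (A := A) h hq (y := Z ∘ cqC S c0 b (a.2.getD c0))
      (y' := mix (S.st b) (x (a.2.getD c0)) y) (fun j hj => ?_)
      (u := pos S (Z ∘ cqC S c0 b (a.2.getD c0))) (fun _ _ => rfl)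
      (mem_inter.1 (mem_jq.1 ha).1).1
    · rw [← p3, lft_pos h]
      rfl
    · rw [← hY _ j hj]
      refine z1 _ (mem_sdiff.2 ⟨cqC_mem (mem_sdiff.1 hj).1 _, fun hh => (mem_sdiff.1 hj).2 ?_⟩)
      rw [← qC_inter q hb] at hh
      exact (cqC_sts hb _ _).1 (mem_inter.1 hh).2
  refine Eq.trans (h1.on _ _ fun a ha => ?_) (key (Z ∘ fb S c0 b))
  rw [vw_get c0 Z ha, ← fb_vw (c0 := c0)]
  rfl

/-- near forms on the copies against near forms on the joint fibre -/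
theorem jn_of_nf (h : S.Ok) (hb : b ∉ A) {y : ι → ℝ} {x : C → ι → ℝ}
    {Y : BI S.fc c0 → ℝ} (hY : ∀ c, ∀ j ∈ q \ S.sts A, Y (cqC S c0 b c j) = mix (S.st b) (x c) y j)
    {s : BI S.fc c0 → ℝ} {σ : C → ℝ} (hs : Sc S c0 (q ∩ S.sts A) b s σ) {L : ℝ} (hL : 1 ≤ L)
    (hσ : ∀ c, σ c ^ 2 ≤ L) {Φ : (BI S.fc c0 → ℝ) → ℝ} {K : ℝ}
    (hN : NF (dup S c0 s) (qC S c0 q b) (aC c0 A) Φ K Y) :
    ∃ η, Fm (jS S C) (jq S (q ∩ S.sts A) b C) A η ∧ IntV η ∧ ∀ U, L * jn S (q ∩ S.sts A) b U ≤ 1 →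
      |Φ (LF S A b y x U ∘ fb S c0 b) - η (LF S A b y x U)| ≤ K := by
  obtain ⟨η, h1, h2, h3⟩ := hN
  have e0 : qC S c0 q b ∩ (dup S c0 s).sts (aC c0 A) = qC S c0 (q ∩ S.sts A) b := qC_inter q hb
  rw [e0] at h1 h3
  refine ⟨_, fm_fb hb h1, intV_ren _ h2, fun U hU =>
    h3 (LF S A b y x U ∘ fb S c0 b) ⟨fun i hi => ?_, ?_⟩⟩
  · obtain ⟨c, j, hj, rfl⟩ := mem_qC.1 (mem_sdiff.1 hi).1
    have hj' : j ∉ S.sts A := fun hh =>
      (mem_sdiff.1 hi).2 (cqC_mem (mem_inter.2 ⟨hj, hh⟩) _)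
    rw [hY c j (mem_sdiff.2 ⟨hj, hj'⟩)]
    refine (congrFun (fb_vw (c0 := c0) (LF S A b y x U) c) j).trans ?_
    rw [vw_LF h, lft_out h _ _ hj']
  · rw [(cop_split h hs).1]
    simp only [fb_vw, vw_LF h]
    rw [ln2_lft h _ _ (sdiff_subset.trans inter_subset_right)]
    simp only [ln2_lft h _ _ (inter_subset_left.trans inter_subset_right :
      q ∩ S.sts A ∩ S.st b ⊆ S.sts A)]
    refine le_trans ?_ hU
    rw [jn_vw _ _ c0, mul_add, mul_sum]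
    exact add_le_add (le_mul_of_one_le_left (qq_nonneg h.pd.posSemidef _) hL) (sum_le_sum
      fun c _ => mul_le_mul_of_nonneg_right (hσ c) (qq_nonneg h.pd.posSemidef _))

variable {c : ℝ} {R M : Matrix ι ι ℝ}

theorem bd_of_jn' (h : S.Ok) (hc : S.Cen) (hq : Cls S q) (w : Wh S c R M) (y : ι → ℝ)
    (P : Finset ι) (h0 : 0 < c) {L : ℝ} (hL : 0 ≤ L) (hA : L * A.card ≤ c ^ 2) {g : ℕ}
    {x : Fin g → P → ℤ} {f : (ι × Option (Fin g) → ℝ) → ℝ} {K : ℝ}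
    (hN : ∃ η, Fm (jS S (Fin g)) (jq S (q ∩ S.sts A) b (Fin g)) A η ∧ IntV η ∧
      ∀ U, L * jn S (q ∩ S.sts A) b U ≤ 1 → |f U - η (LF S A b y (fun σ => xr P (x σ)) U)| ≤ K) :
    ∃ I, Bd K (co S _ A b M f - (emb h hc hq A b w.bM y P).io g x I) := by
  obtain ⟨η, h1, h2, h3⟩ := hN
  obtain ⟨I, hI⟩ := IntV.exists_cf (S := S) (r := q ∩ S.sts A) (A := A) (b := b) h2
  refine ⟨I, fun μ φ => ?_⟩
  have := h3 (wh M (one (jm μ φ))) (by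
    refine le_of_mul_le_mul_left ?_ (pow_pos h0 2)
    rw [mul_left_comm, w.jn_wh (bk_sts hq A), mul_one]
    refine le_trans (mul_le_mul_of_nonneg_left ?_ hL) hA
    simp only [one, ite_pow, one_pow, ne_eq, OfNat.ofNat_ne_zero, not_false_eq_true, zero_pow,
      sum_ite_mem, sum_const, nsmul_eq_mul, mul_one, Nat.cast_le]
    exact (card_le_card inter_subset_right).trans (ec_jm μ φ).card_le)
  rw [emb_io h hc hq w, hI]
  simpa only [co, cf, Pi.sub_apply, ev_cf inter_subset_right h1] using this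

theorem pr_LF (h : S.Ok) (hc : S.Cen) (y : ι → ℝ) (x : Fin 4 → ι → ℝ) (U : ι × Option (Fin 4) → ℝ)
    (a d : Fin 4) (n : Fin 4 → ℤ) (hn : ∀ F : Fin 4 → ι → ℝ, ∑ σ, (n σ : ℝ) • F σ = F a + F d)
    (ψ : (ι → ℝ) → ℝ) : ψ (pr S b a d (LF S A b y x U ∘ fb S (0 : Fin 4) b)) =
      at1 S A b y (x a + x d) n ψ U := by
  unfold at1
  congr 1
  have e1 : vw S b (0 : Fin 1) (nm (fun _ => n) (LF S A b y x U)) =
      vw S b (0 : Fin 1) (LF S A b y (fun _ => ∑ σ, (n σ : ℝ) • x σ) (nm (fun _ => n) U)) := by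
    funext j
    by_cases hj : j ∈ S.st b
    · rw [vw, vw, mix_pos _ _ hj, mix_pos _ _ hj]
      exact nm_LF h hc _ y x U (r := univ) (mem_jq.2 ⟨mem_univ _, by simpa using hj⟩)
    · rw [vw, vw, mix_neg _ _ hj, mix_neg _ _ hj]
      exact nm_LF h hc _ y x U (r := univ) (mem_jq.2 ⟨mem_univ _, by simpa using hj⟩)
  rw [vw_LF h, vw_nm, hn, hn] at e1
  rw [← e1]
  funext j
  by_cases hj : j ∈ S.st b
  · rw [pr, mix_pos _ _ hj, mix_pos _ _ hj]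
    exact congrArg₂ (· + ·) ((fb_cq (c0 := 0) _ a j).trans (mix_pos _ _ hj))
      ((fb_cq (c0 := 0) _ d j).trans (mix_pos _ _ hj))
  · rw [pr, mix_neg _ _ hj, mix_neg _ _ hj]
    exact (fb_cq (c0 := 0) _ 0 j).trans (mix_neg _ _ hj)

theorem xr_add (P : Finset ι) (x x' : P → ℤ) : xr P (x + x') = xr P x + xr P x' := by
  funext j
  by_cases hj : j ∈ P <;> simp [xr, put, hj, toR]

theorem mix_xr {r : Finset ι} (x : ↥(r ∩ S.st b) → ℤ) (y : ι → ℤ) {j : ι} (hj : j ∈ r) :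
    toR (put (r ∩ S.st b) x y) j = mix (S.st b) (xr _ x) (toR y) j := by
  rw [toR_put]
  by_cases h : j ∈ S.st b
  · rw [mix_pos _ _ h, xr, put_pos _ _ (mem_inter.2 ⟨hj, h⟩), put_pos _ _ (mem_inter.2 ⟨hj, h⟩)]
  · rw [mix_neg _ _ h, put_neg _ _ fun a => h (mem_inter.1 a).2]

theorem asm_mix {r : Finset ι} (y : ι → ℤ) (x : C → ↥(r ∩ S.st b) → ℤ) (c : C) {j : ι}
    (hj : j ∈ r) : toR (asmC S c0 r b y x) (cqC S c0 b c j) =
      mix (S.st b) (xr _ (x c)) (toR y) j := by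
  rw [← mix_xr _ _ hj]
  exact congrArg Int.cast (asmC_cq b y x c hj)

theorem sum4 {E : Type} [AddCommGroup E] [Module ℝ E] (n : Fin 4 → ℤ) (F : Fin 4 → E) :
    ∑ σ, (n σ : ℝ) • F σ = (n 0 : ℝ) • F 0 + (n 1 : ℝ) • F 1 + (n 2 : ℝ) • F 2 + (n 3 : ℝ) • F 3 :=
  Fin.sum_univ_four _

/-- the relation on the system of four copies in coefficients -/
theorem q4_of_nf (h : S.Ok) (hc : S.Cen) (hq : Cls S q) (hb : b ∉ A) (w : Wh S c R M)
    {r : Finset ι} (hr : q \ S.sts A = r) (y : ι → ℤ) (x : Fin 4 → ↥(r ∩ S.st b) → ℤ)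
    {s : BI S.fc (0 : Fin 4) → ℝ} {σ : Fin 4 → ℝ} (hs : Sc S 0 (q ∩ S.sts A) b s σ) {L : ℝ}
    (hL : 1 ≤ L) (hσ : ∀ c, σ c ^ 2 ≤ L) (h0 : 0 < c) (hA : L * A.card ≤ c ^ 2)
    {ψ : Fin 4 → (ι → ℝ) → ℝ} (hψ : ∀ j, Fm S q A (ψ j)) {K : ℝ}
    (hN : NF (dup S 0 s) (qC S 0 q b) (aC 0 A) (fun Z => ψ 0 (pr S b 0 2 Z) - ψ 1 (pr S b 0 3 Z) -
      ψ 2 (pr S b 1 2 Z) + ψ 3 (pr S b 1 3 Z)) K (toR (asmC S 0 r b y x))) :
    (emb h hc hq A b w.bM (toR y) _).Q4 (fun z => c1 S q A b M (toR y) (xr _ z) (ψ 0))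
      (fun z => c1 S q A b M (toR y) (xr _ z) (ψ 1)) (fun z => c1 S q A b M (toR y) (xr _ z) (ψ 2))
      (fun z => c1 S q A b M (toR y) (xr _ z) (ψ 3)) K (x 0) (x 1) (x 2) (x 3) := by
  have := jn_of_nf h hb (y := toR y) (x := fun σ => xr _ (x σ))
    (fun c j hj => asm_mix y x c (hr ▸ hj)) hs hL hσ hN
  simp only [pr_LF h hc _ _ _ 0 2 ![1, 0, 1, 0] fun F => by simp [sum4],
    pr_LF h hc _ _ _ 0 3 ![1, 0, 0, 1] fun F => by simp [sum4],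
    pr_LF h hc _ _ _ 1 2 ![0, 1, 1, 0] fun F => by simp [sum4],
    pr_LF h hc _ _ _ 1 3 ![0, 1, 0, 1] fun F => by simp [sum4]] at this
  obtain ⟨I, hI⟩ := bd_of_jn' h hc hq w (toR y) _ h0 (by linarith) hA this
  refine ⟨I, ?_⟩
  rw [tup4 (f := x) rfl rfl rfl rfl, L4]
  simp only [xr_add, ← co_at1 h hc hq w _ _ _ (hψ _)]
  exact hI

/-- one form on the system of four copies in coefficients -/
theorem pt_of_nf (h : S.Ok) (hc : S.Cen) (hq : Cls S q) (hb : b ∉ A) (w : Wh S c R M)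
    {r : Finset ι} (hr : q \ S.sts A = r) (y : ι → ℤ) (x : Fin 4 → ↥(r ∩ S.st b) → ℤ)
    {s : BI S.fc (0 : Fin 4) → ℝ} {σ : Fin 4 → ℝ} (hs : Sc S 0 (q ∩ S.sts A) b s σ) {L : ℝ}
    (hL : 1 ≤ L) (hσ : ∀ c, σ c ^ 2 ≤ L) (h0 : 0 < c) (hA : L * A.card ≤ c ^ 2)
    {ψ : (ι → ℝ) → ℝ} (hψ : Fm S q A ψ) {K : ℝ}
    (hN : NF (dup S 0 s) (qC S 0 q b) (aC 0 A) (fun Z => ψ (pr S b 0 2 Z)) K
      (toR (asmC S 0 r b y x))) :
    ∃ I, Bd K (pt ![1, 0, 1, 0] (c1 S q A b M (toR y) (xr _ (x 0 + x 2)) ψ) -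
      (emb h hc hq A b w.bM (toR y) _).io 4 x I) := by
  have := jn_of_nf h hb (y := toR y) (x := fun σ => xr _ (x σ))
    (fun c j hj => asm_mix y x c (hr ▸ hj)) hs hL hσ hN
  simp only [pr_LF h hc _ _ _ 0 2 ![1, 0, 1, 0] fun F => by simp [sum4]] at this
  obtain ⟨I, hI⟩ := bd_of_jn' h hc hq w (toR y) _ h0 (by linarith) hA this
  refine ⟨I, ?_⟩
  rw [xr_add, ← co_at1 h hc hq w _ _ _ hψ]
  exact hI

/-- rigidity from the absence of short forms on the copies -/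
theorem rig_of_uf (h : S.Ok) (hc : S.Cen) (hq : Cls S q) (hb : b ∉ A) (w : Wh S c R M)
    {r : Finset ι} (hr : q \ S.sts A = r) (y : ι → ℤ) {g : ℕ} (x : Fin (g + 1) → ↥(r ∩ S.st b) → ℤ)
    (h1 : 1 ≤ c) {K K' : ℝ} (hK : 0 ≤ K)
    (hK' : ((q ∩ S.sts A).card * (g + 1 : ℕ) * c) ^ A.card * K ≤ K')
    (hU : UF (nar (blow S 0) 1) (qC S 0 q b) (aC 0 A) K' (toR (asmC S 0 r b y x))) :
    (emb h hc hq A b w.bM (toR y) _).Rig K x :=
  rig_of_ju h hc hq w _ _ h1 (by omega) hK hK'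
    (ju_of_uf h hq hb (fun c j hj => asm_mix y x c (hr ▸ hj)) hU)

/-- bounded coefficients over one point give a near form -/
theorem nf_of_bd (h : S.Ok) (hc : S.Cen) (hq : Cls S q) (w : Wh S c R M) (h1 : 1 ≤ c)
    (y : ι → ℝ) {P : Finset ι} (x : P → ℤ) {Y : ι → ℝ}
    (hY : ∀ j ∈ q \ S.sts A, Y j = mix (S.st b) (xr P x) y j) {ψ Φ : (ι → ℝ) → ℝ}
    (hψ : Fm S q A ψ) {D : Mn S (q ∩ S.sts A) A → ℝ}
    (hΦ : ∀ z, (∀ j ∈ q \ S.sts A, z j = Y j) → Φ z = ψ z - e1 D (R *ᵥ pos S z))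
    {k : Mn S (q ∩ S.sts A) A → ℤ} {K : ℝ} (hK : 0 ≤ K)
    (hD : ∀ μ, |c1 S q A b M y (xr P x) ψ μ - (emb h hc hq A b w.bM y P).io1 x k μ - D μ| ≤ K) :
    NF S q A Φ (((q ∩ S.sts A).card * c) ^ A.card * K) Y := by
  refine ⟨e1 fun μ => (k μ : ℝ), fm_e1 _, intV_e1 k, fun z hz => ?_⟩
  have z1 : ∀ j ∈ q \ S.sts A, z j = Y j := fun j hj =>
    hz.1 j (mem_sdiff.2 ⟨(mem_sdiff.1 hj).1, fun a => (mem_sdiff.1 hj).2 (mem_inter.1 a).2⟩)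
  have z2 : ∀ j ∈ q \ S.sts A, z j = mix (S.st b) (xr P x) y j := fun j hj =>
    (z1 j hj).trans (hY j hj)
  refine le_trans (le_of_eq ?_) (abs_e1_le w h1 hK hD (bk_sts hq A) (fun μ _ => μ.2.sub) hz.2)
  rw [hΦ z z1, ← e1_c1 h hc hq w y _ hψ z2, emb_io1 h hc hq w,
    ← e1_c1 h hc hq w y _ ((fm_e1 fun μ => (k μ : ℝ)).mono inter_subset_left subset_rfl) z2]
  simp only [e1, sub_mul, sum_sub_distrib]
  congr 1
  ring

end

end Vale.Agent.P057GA
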