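import Vale.Agent.P057GA.Trn
import Vale.Agent.P057PI.Share
import Vale.Agent.P057HU.Gau

/-! Local charts on one fibre. -/

set_option linter.all false

open Finset Matrix
open scoped Real

namespace Vale.Agent.P057GA

open Vale.Agent.P057G Vale.Agent.P057HU Vale.Agent.P267.H775 Vale.Agent.P057PI Vale.Agent.P057FT

noncomputable section

variable {Mon : Type} {Sl : Mon → Type} [∀ μ, Fintype (Sl μ)] [∀ μ, DecidableEq (Sl μ)]

/-- the monomials without slots -/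
abbrev M0 (Sl : Mon → Type) : Type := {μ : Mon // IsEmpty (Sl μ)}

open Classical in
/-- extension by zero -/
def ez {R : Type} [Zero R] (Sl : Mon → Type) (x : M0 Sl → R) (μ : Mon) : R :=
  if h : IsEmpty (Sl μ) then x ⟨μ, h⟩ else 0

theorem ez_pos {R : Type} [Zero R] (x : M0 Sl → R) (μ : M0 Sl) : ez Sl x μ = x μ := dif_pos μ.2

theorem ez_neg {R : Type} [Zero R] (x : M0 Sl → R) {μ : Mon} (h : Nonempty (Sl μ)) :
    ez Sl x μ = 0 := dif_neg (not_isEmpty_iff.2 h)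

/-- extension by zero as a linear map -/
def ezL (Sl : Mon → Type) : (M0 Sl → ℝ) →ₗ[ℝ] (Mon → ℝ) where
  toFun := ez Sl
  map_add' x y := by
    funext μ
    simp only [ez, Pi.add_apply]
    split_ifs <;> simp
  map_smul' c x := by
    funext μ
    simp only [ez, Pi.smul_apply]
    split_ifs <;> simp

theorem exists_tor {Λ : Type} [AddCommGroup Λ] [Fintype (M0 Sl)] (e : Emb Sl Λ) :
    ∃ T : (M0 Sl → ℝ) →ₗ[ℝ] (M0 Sl → ℝ), ∀ k μ, T (zc k) μ = e.io1 0 (ez Sl k) μ := by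
  classical
  let L : (M0 Sl → ℤ) →+ (M0 Sl → ℝ) := AddMonoidHom.mk' (fun k μ => e.io1 0 (ez Sl k) μ) (by
    intro k k'
    have : ez Sl (k + k') = ez Sl k + ez Sl k' := by
      funext μ
      simp only [ez, Pi.add_apply]
      split_ifs <;> simp
    funext μ
    rw [this, e.io1_add]
    rfl)
  refine ⟨Fintype.linearCombination ℝ fun ν => L (Pi.single ν 1), fun k μ => ?_⟩
  have : L k = ∑ ν, k ν • L (Pi.single ν 1) := by
    conv_lhs => rw [pi_eq_sum_univ' k]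
    simp only [map_sum, map_zsmul]
  show _ = L k μ
  rw [this, Fintype.linearCombination_apply]
  simp [zc]

variable {n : Type} [Fintype n] [DecidableEq n]

/-- a chart on the set `E` -/
def Emb.Loc (e : Emb Sl (n → ℤ)) (ψ : (n → ℤ) → Mon → ℝ) (R M : ℝ) (E : (n → ℤ) → Prop) : Prop :=
  ∃ (r : ℕ) (θ : Fin r → n → ℝ) (cen : Fin r → ℝ) (Θ c0 : Mon → ℝ)
    (F1 : (n → ℝ) →ₗ[ℝ] (Mon → ℝ)) (F2 : Fin r → Mon → ℝ), (r : ℝ) ≤ R ∧
    (∀ μ, Fintype.card (Sl μ) ≠ 1 → Θ μ = 0) ∧ (∀ μ, Nonempty (Sl μ) → c0 μ = 0) ∧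
    (∀ x μ, Nonempty (Sl μ) → F1 x μ = 0) ∧ (∀ i μ, Nonempty (Sl μ) → F2 i μ = 0) ∧
    ∀ z, E z → (∀ i, |θ i ⬝ᵥ toR z - cen i - round (θ i ⬝ᵥ toR z - cen i)| ≤ 1 / 100) ∧
      ∃ k, ∀ μ, |ψ z μ - e.io1 z k μ - (Θ μ + c0 μ + F1 (toR z) μ) -
        ∑ i, (round (θ i ⬝ᵥ toR z - cen i) : ℝ) * F2 i μ| ≤ M

theorem Emb.loc_false (e : Emb Sl (n → ℤ)) (ψ : (n → ℤ) → Mon → ℝ) {R : ℝ} (M : ℝ) (hR : 0 ≤ R) :
    e.Loc ψ R M fun _ => False :=
  ⟨0, 0, 0, 0, 0, 0, 0, by simpa using hR, fun _ _ => rfl, fun _ _ => rfl, fun _ _ _ => rfl,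
    fun _ _ _ => rfl, fun _ h => h.elim⟩

/-- a chart piece of the torus part gives a chart -/
theorem Emb.loc_of [Fintype (M0 Sl)] (e : Emb Sl (n → ℤ)) {T : (M0 Sl → ℝ) →ₗ[ℝ] (M0 Sl → ℝ)}
    (hT : ∀ k μ, T (zc k) μ = e.io1 0 (ez Sl k) μ) {ψ f : (n → ℤ) → Mon → ℝ}
    {f' : (n → ℤ) → M0 Sl → ℝ} (hf' : ∀ s μ, T (f' s) μ = f s μ)
    (hf : ∀ y μ, Nonempty (Sl μ) → f y μ = 0) {Θ : Mon → ℝ}
    (hΘ : ∀ μ, Fintype.card (Sl μ) ≠ 1 → Θ μ = 0) {k : (n → ℤ) → Mon → ℤ} {o x : n → ℤ}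
    {P : (n → ℤ) → Prop} {G : Matrix n n ℝ} {R τ ε B M : ℝ} (hτ : τ ≤ 1 / 100) (hε : 0 ≤ ε)
    (hP : ∀ s, P s → ∀ μ, |ψ (o + s) μ - e.io1 (o + s) (k s) μ - Θ μ - f s μ| ≤ M)
    (h : Pc T f' P G R τ ε B x) : ∃ (E : Finset (n → ℤ)) (r : ℕ), (r : ℝ) ≤ R ∧
      th G 0 * τ ^ r ≤ B * ∑ s ∈ E, gs G (toR s - toR x) ∧ (∀ s ∈ E, P s) ∧
      e.Loc ψ R (M + ε) fun z => z - o ∈ E := by
  classical
  obtain ⟨E, r, θ, cen, m, F1, F2, c, h1, h2, h3⟩ := h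
  refine ⟨E, r, h1, h2, fun s hs => (h3 s hs).1, r, θ, fun i => θ i ⬝ᵥ toR o + cen i, Θ,
    ez Sl (T (c - F1 (toR o))), ezL Sl ∘ₗ T ∘ₗ F1, fun i => ez Sl (T (F2 (Pi.single i 1))), h1,
    hΘ, fun μ hμ => ez_neg _ hμ, fun x μ hμ => ez_neg _ hμ, fun i μ hμ => ez_neg _ hμ,
    fun z hz => ?_⟩
  obtain ⟨s, rfl⟩ : ∃ s, z = o + s := ⟨z - o, by abel⟩
  rw [add_sub_cancel_left] at hz
  obtain ⟨p1, p2, k', p3⟩ := h3 s hz
  have e1 : toR (o + s) = toR o + toR s := by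
    funext i
    simp [toR]
  have e2 : ∀ i, θ i ⬝ᵥ toR (o + s) - (θ i ⬝ᵥ toR o + cen i) = θ i ⬝ᵥ toR s - cen i := fun i => by
    rw [e1, dotProduct_add]
    ring
  have e3 : ∀ i, round (θ i ⬝ᵥ toR s - cen i) = m s i := fun i => by
    have := abs_le.1 (p2 i)
    rw [round_eq, Int.floor_eq_iff]
    constructor <;> linarith
  simp only [e2, e3]
  refine ⟨fun i => (p2 i).trans hτ, k s + ez Sl k', fun μ => ?_⟩
  have q1 := hP s p1 μ
  rw [e.io1_add, Pi.add_apply, io1_deg0 e _ fun μ hμ => ez_neg k' hμ]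
  by_cases hμ : Nonempty (Sl μ)
  · rw [hf s μ hμ] at q1
    have z1 : (ezL Sl ∘ₗ T ∘ₗ F1) (toR (o + s)) μ = 0 := ez_neg _ hμ
    simp only [if_pos hμ, ez_neg _ hμ, z1, mul_zero, sum_const_zero, add_zero, sub_zero] at q1 ⊢
    linarith
  · obtain ⟨ν, rfl⟩ : ∃ ν : M0 Sl, ν.1 = μ := ⟨⟨μ, not_nonempty_iff.1 hμ⟩, rfl⟩
    have q2 := (norm_le_pi_norm _ ν).trans p3
    have z1 : (ezL Sl ∘ₗ T ∘ₗ F1) (toR (o + s)) ν = T (F1 (toR (o + s))) ν := ez_pos _ ν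
    have z2 : T (F2 (toR (m s))) ν = ∑ i, (m s i : ℝ) * T (F2 (Pi.single i 1)) ν := by
      conv_lhs => rw [pi_eq_sum_univ' (toR (m s))]
      simp only [map_sum, map_smul, Finset.sum_apply, Pi.smul_apply, smul_eq_mul, toR]
    simp only [map_sub, Pi.sub_apply, Real.norm_eq_abs, hf', hT, z2] at q2
    rw [z1]
    simp only [if_neg hμ, ez_pos, e1, map_add, map_sub, Pi.add_apply, Pi.sub_apply]
    refine le_trans (le_of_eq ?_) ((abs_add_le _ _).trans (add_le_add q1 q2))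
    congr 1
    ring

theorem le_exp {a : ℝ} (b : ℝ) (h : a ≤ b + 1) : a ≤ Real.exp b := h.trans (Real.add_one_le_exp b)

theorem numF {X D Λ : ℝ} (hX : 1000 ≤ X) (hD : D ≤ Real.exp X) (hΛ : Real.exp (X ^ 3) ≤ Λ) :
    2 ^ 161 * Real.exp (-X ^ 2) ≤ (Real.exp (-X) / 2) ^ 130 ∧
    51 * (D + 32 / Real.exp (-X ^ 2)) ≤ Real.exp (-X ^ 2) ^ 2 * Λ ∧
    18 ≤ Real.exp (X ^ 2) * ((Real.exp (-X) ^ 2 / 16) ^ 128 / 2 ^ 44) ∧
    2 * D + 2 ≤ Λ ^ 2 ∧ Real.exp (-(X ^ 2) ^ 2) ≤ 1 / 100 := by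
  have a2 : (2 : ℝ) ≤ Real.exp 1 := le_exp 1 (by norm_num)
  have x2 : 1000 * X ≤ X ^ 2 := by nlinarith
  have x3 : 1000 * X ^ 2 ≤ X ^ 3 := by nlinarith
  have x4 : X ^ 2 ≤ (X ^ 2) ^ 2 := by nlinarith
  have p2 : ∀ m : ℕ, (2 : ℝ) ^ m ≤ Real.exp m := fun m => by
    rw [← Real.exp_one_pow]
    exact pow_le_pow_left₀ (by norm_num) a2 m
  refine ⟨?_, ?_, ?_, ?_, ?_⟩
  · have b1 : Real.exp (-X - 1) ≤ Real.exp (-X) / 2 := by
      rw [Real.exp_sub]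
      exact div_le_div_of_nonneg_left (by positivity) (by norm_num) a2
    refine le_trans ?_ (pow_le_pow_left₀ (by positivity) b1 130)
    refine (mul_le_mul_of_nonneg_right (p2 161) (by positivity)).trans ?_
    rw [← Real.exp_add, ← Real.exp_nat_mul, Real.exp_le_exp]
    push_cast
    linarith
  · refine le_trans ?_ (mul_le_mul_of_nonneg_left hΛ (by positivity))
    have b1 : D ≤ Real.exp (X ^ 2) := hD.trans (Real.exp_le_exp.2 (by linarith))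
    have b2 : (1683 : ℝ) ≤ Real.exp (X ^ 2) := le_exp _ (by linarith)
    rw [Real.exp_neg, div_inv_eq_mul, ← Real.exp_neg, ← Real.exp_nat_mul, ← Real.exp_add]
    refine le_trans (b := Real.exp (X ^ 2) * Real.exp (X ^ 2)) (by nlinarith) ?_
    rw [← Real.exp_add, Real.exp_le_exp]
    push_cast
    nlinarith
  · have b1 : Real.exp (-2 * X - 4) ≤ Real.exp (-X) ^ 2 / 16 := by
      rw [Real.exp_sub, ← Real.exp_nat_mul]
      push_cast
      rw [show -2 * X = 2 * -X by ring]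
      exact div_le_div_of_nonneg_left (by positivity) (by norm_num)
        (by simpa [show (2 : ℝ) ^ 4 = 16 by norm_num] using p2 4)
    have b2 := pow_le_pow_left₀ (by positivity) b1 128
    refine le_trans ?_ (mul_le_mul_of_nonneg_left (div_le_div₀ (by positivity) b2
      (by positivity) (p2 44)) (by positivity))
    rw [← Real.exp_nat_mul, ← Real.exp_sub, ← Real.exp_add]
    refine le_exp _ ?_
    push_cast
    linarith
  · have b1 : D ≤ Λ := hD.trans ((Real.exp_le_exp.2 (by linarith)).trans hΛ)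
    have b2 : 4 ≤ Λ := (le_exp _ (by linarith)).trans hΛ
    nlinarith
  · rw [Real.exp_neg, inv_le_comm₀ (by positivity) (by norm_num)]
    exact le_exp _ (by linarith)

theorem numG {X : ℝ} {d : ℕ} (hX : 1000 ≤ X) (hd : (d : ℝ) ≤ X) :
    4 * 60 ^ d ≤ Real.exp (X ^ 5) ∧ (3 + Real.exp ((X ^ 2) ^ 2)) * 4 ^ d ≤ Real.exp (X ^ 5) ∧
    Real.exp (-X ^ 19) ≤ (Real.exp (-X) ^ 2 / 32 * Real.exp (-(2 * X ^ 2))) ^ 2 / 8 *
      Real.exp (-(2 * X ^ 18)) := by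
  have x1 : ∀ a b : ℕ, a < b → 1000 * X ^ a ≤ X ^ b := fun a b h => by
    refine le_trans ?_ (pow_le_pow_right₀ (by linarith) (Nat.succ_le_of_lt h))
    rw [pow_succ, mul_comm]
    exact mul_le_mul_of_nonneg_left hX (by positivity)
  have x2 := x1 1 2 (by norm_num)
  have x4 := x1 2 4 (by norm_num)
  have x5 := x1 4 5 (by norm_num)
  have x18 := x1 5 18 (by norm_num)
  have x19 := x1 18 19 (by norm_num)
  rw [pow_one] at x2
  have p : ∀ c : ℝ, 0 ≤ c → c ^ d ≤ Real.exp (c * X) := fun c hc => by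
    refine (pow_le_pow_left₀ hc (le_exp c (by linarith)) d).trans ?_
    rw [← Real.exp_nat_mul, Real.exp_le_exp, mul_comm]
    exact mul_le_mul_of_nonneg_left hd hc
  refine ⟨?_, ?_, ?_⟩
  · refine (mul_le_mul (le_exp 3 (by norm_num)) (p 60 (by norm_num)) (by positivity)
      (by positivity)).trans ?_
    rw [← Real.exp_add, Real.exp_le_exp]
    linarith
  · have b1 : 3 + Real.exp ((X ^ 2) ^ 2) ≤ Real.exp (3 + X ^ 4) := by
      rw [Real.exp_add, show (X ^ 2) ^ 2 = X ^ 4 by ring]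
      have := Real.one_le_exp (x := X ^ 4) (by positivity)
      nlinarith [Real.add_one_le_exp 3]
    refine (mul_le_mul b1 (p 4 (by norm_num)) (by positivity) (by positivity)).trans ?_
    rw [← Real.exp_add, Real.exp_le_exp]
    linarith
  · have b1 : Real.exp (-31) ≤ 1 / 32 := by
      rw [Real.exp_neg, inv_le_comm₀ (by positivity) (by norm_num)]
      exact le_exp _ (by norm_num)
    have b2 : Real.exp (-31) * Real.exp (-X) ^ 2 ≤ Real.exp (-X) ^ 2 / 32 := by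
      nlinarith [sq_nonneg (Real.exp (-X))]
    have b3 := pow_le_pow_left₀ (by positivity) (mul_le_mul_of_nonneg_right b2
      (Real.exp_pos (-(2 * X ^ 2))).le) 2
    have b4 : Real.exp (-31) * (Real.exp (-31) * Real.exp (-X) ^ 2 * Real.exp (-(2 * X ^ 2))) ^ 2 ≤
        (Real.exp (-X) ^ 2 / 32 * Real.exp (-(2 * X ^ 2))) ^ 2 / 8 := by
      refine (mul_le_mul b1 b3 (by positivity) (by norm_num)).trans ?_
      nlinarith [sq_nonneg (Real.exp (-X) ^ 2 / 32 * Real.exp (-(2 * X ^ 2)))]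
    refine le_trans ?_ (mul_le_mul_of_nonneg_right b4 (by positivity))
    simp only [← Real.exp_nat_mul, ← Real.exp_add, Real.exp_le_exp]
    push_cast
    linarith

theorem ind_eq (p : Prop) [Decidable p] : (if p then (1 : ℝ) else 0) = ind p := by
  unfold ind
  congr

theorem abs_ind (p : Prop) : |ind p| ≤ 1 := by
  rw [abs_of_nonneg (ind_nonneg _)]
  exact ind_le_one _

theorem exists_good {C : Type} [Fintype C] {G : C → Matrix n n ℝ} (hG : ∀ c, (G c).PosDef)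
    {p : (C → n → ℤ) → Prop} {η : ℝ} (hη : η < 1)
    (h : ∑' z : C → n → ℤ, (∏ c, gs (G c) (toR (z c))) * ind (¬p z) ≤ η * ∏ c, th (G c) 0) :
    ∃ z, p z := by
  by_contra hno
  push Not at hno
  simp only [ind, hno, not_false_eq_true, if_true, mul_one] at h
  rw [(wt_pi fun c => wt_gs0 (hG c)).2] at h
  simp only [tsum_gs0] at h
  nlinarith [prod_pos fun c (_ : c ∈ univ) => th_pos (hG c) 0]

theorem Emb.cz_out [Fintype (M0 Sl)] (e : Emb Sl (n → ℤ)) {T : (M0 Sl → ℝ) →ₗ[ℝ] (M0 Sl → ℝ)}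
    (hT : ∀ k μ, T (zc k) μ = e.io1 0 (ez Sl k) μ) {ψ f g ζ : (n → ℤ) → Mon → ℝ}
    {f' g' ζ' : (n → ℤ) → M0 Sl → ℝ} (hf' : ∀ s, T (f' s) = fun ν : M0 Sl => f s ν)
    (hg' : ∀ s, T (g' s) = fun ν : M0 Sl => g s ν) (hζ' : ∀ s, T (ζ' s) = fun ν : M0 Sl => ζ s ν)
    {M : ℝ} (hM : 0 ≤ M) {o t y : n → ℤ} {Θ : Mon → ℝ} {k : (n → ℤ) → Mon → ℤ}
    (h : e.Out ψ M o Θ k f g ζ t y) : Cz T M (g' t + f' y - ζ' (t + y)) := by
  obtain ⟨I0, i1, i2⟩ := h.2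
  refine ⟨-fun ν : M0 Sl => I0 ν, (pi_norm_le_iff_of_nonneg hM).2 fun ν => ?_⟩
  have e1 : ez Sl (fun ν : M0 Sl => I0 ν) = I0 := by
    funext μ
    by_cases hμ : Nonempty (Sl μ)
    · rw [ez_neg _ hμ, i1 μ hμ]
    · exact ez_pos (fun ν : M0 Sl => I0 ν) ⟨μ, not_nonempty_iff.1 hμ⟩
  simp only [map_neg, map_sub, map_add, hf', hg', hζ', Pi.sub_apply, Pi.add_apply,
    Pi.neg_apply, hT, e1, Real.norm_eq_abs]
  rw [← abs_neg]
  refine le_trans (le_of_eq ?_) (i2 ν ν.2)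
  congr 1
  ring

/-- a charted piece of the window with anchor `o` and centre `o + x` -/
def Emb.Gd (e : Emb Sl (n → ℤ)) (ψ : (n → ℤ) → Mon → ℝ) (U : (n → ℤ) → Prop) (G : Matrix n n ℝ)
    (R M β : ℝ) (o x : n → ℤ) : Prop :=
  ∃ E : Finset (n → ℤ), β * th G 0 ≤ ∑ s ∈ E, gs G (toR s - toR x) ∧
    (∀ s ∈ E, U (o + s)) ∧ e.Loc ψ R M fun z => z - o ∈ E

theorem Emb.gd_sum (e : Emb Sl (n → ℤ)) {ψ : (n → ℤ) → Mon → ℝ} {U : (n → ℤ) → Prop}
    {H G : Matrix n n ℝ} (hH : H.PosDef) (hG : G.PosDef) {R M β : ℝ} (hR : 0 ≤ R) (hβ : 0 ≤ β)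
    (An : (n → ℤ) → Prop) : ∃ P : (n → ℤ) → (n → ℤ) → Prop, (∀ o z, P o z → U z) ∧
      (∀ o, e.Loc ψ R M (P o)) ∧
      (∑' o, gs H (toR o) * ind (∃ o1 x, An o1 ∧ e.Gd ψ U G R M β o1 x ∧ o = o1 + x)) *
        (β * th G 0) ≤ ∑' o, gs H (toR o) * ∑' a, gs G (toR a) * ind (P o (o + a)) := by
  classical
  have ch : ∀ o : n → ℤ, ∃ P : (n → ℤ) → Prop, (∀ z, P z → U z) ∧ e.Loc ψ R M P ∧
      ((∃ o1 x, e.Gd ψ U G R M β o1 x ∧ o = o1 + x) →
        β * th G 0 ≤ ∑' a, gs G (toR a) * ind (P (o + a))) := by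
    intro o
    by_cases ho : ∃ o1 x, e.Gd ψ U G R M β o1 x ∧ o = o1 + x
    · obtain ⟨o1, x, ⟨E, e1, e2, e3⟩, rfl⟩ := ho
      refine ⟨fun z => z - o1 ∈ E, fun z hz => by simpa using e2 _ hz, e3, fun _ => e1.trans ?_⟩
      have sm := (wt_gs0 hG).summ (F := fun a => ind (o1 + x + a - o1 ∈ E)) fun _ => abs_ind _
      refine le_trans (le_of_eq ?_) (sm.sum_le_tsum (E.map (Equiv.subRight x).toEmbedding)
        fun _ _ => mul_nonneg (gs_pos _ _).le (ind_nonneg _))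
      rw [sum_map]
      refine sum_congr rfl fun s hs => ?_
      have e4 : o1 + x + (s - x) - o1 = s := by abel
      have e5 : toR (s - x) = toR s - toR x := by
        funext i
        simp [toR]
      simp only [Equiv.coe_toEmbedding, Equiv.subRight_apply, e4, e5, ind, if_pos hs, mul_one]
    · exact ⟨fun _ => False, fun _ h => h.elim, e.loc_false _ _ hR, fun h => absurd h ho⟩
  choose P p1 p2 p3 using ch
  refine ⟨P, p1, p2, ?_⟩
  rw [← tsum_mul_right]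
  refine Summable.tsum_le_tsum (fun o => ?_) (((wt_gs0 hH).summ fun _ => abs_ind _).mul_right _)
    ((wt_gs0 hH).summ fun o => (wt_gs0 hG).abs_le fun _ => abs_ind _)
  rw [mul_assoc]
  refine mul_le_mul_of_nonneg_left ?_ (gs_pos _ _).le
  by_cases hh : ∃ o1 x, An o1 ∧ e.Gd ψ U G R M β o1 x ∧ o = o1 + x
  · obtain ⟨o1, x, -, a2, a3⟩ := hh
    exact (mul_le_of_le_one_left (mul_nonneg hβ (th_pos hG 0).le) (ind_le_one _)).trans
      (p3 o ⟨o1, x, a2, a3⟩)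
  · rw [ind, if_neg hh, zero_mul]
    exact tsum_nonneg fun _ => mul_nonneg (gs_pos _ _).le (ind_nonneg _)

theorem Emb.gd_of [Fintype (M0 Sl)] (e : Emb Sl (n → ℤ)) {T : (M0 Sl → ℝ) →ₗ[ℝ] (M0 Sl → ℝ)}
    (hT : ∀ k μ, T (zc k) μ = e.io1 0 (ez Sl k) μ) {ψ f g ζ : (n → ℤ) → Mon → ℝ}
    {f' : (n → ℤ) → M0 Sl → ℝ} (hf' : ∀ s, T (f' s) = fun ν : M0 Sl => f s ν)
    (hf : ∀ y μ, Nonempty (Sl μ) → f y μ = 0) {Θ : Mon → ℝ}
    (hΘ : ∀ μ, Fintype.card (Sl μ) ≠ 1 → Θ μ = 0) {k : (n → ℤ) → Mon → ℤ} {o x : n → ℤ}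
    {U : (n → ℤ) → Prop} {G : Matrix n n ℝ} (hG : G.PosDef) {X ε M M' : ℝ}
    (hτ : Real.exp (-(X ^ 2) ^ 2) ≤ 1 / 100) (hε : 0 ≤ ε) (hM : 3 * M + ε ≤ M')
    (h : Pc T f' (fun s => ∃ t, U (o + s) ∧ e.Out ψ M o Θ k f g ζ t s) G ((X ^ 2) ^ 7)
      (Real.exp (-(X ^ 2) ^ 2)) ε (Real.exp ((X ^ 2) ^ 9)) x) :
    e.Gd ψ U G (X ^ 14) M' (Real.exp (-(2 * X ^ 18))) o x := by
  obtain ⟨E, r, r1, r2, r3, r4⟩ := e.loc_of hT (fun s μ => congrFun (hf' s) μ) hf hΘ (k := k)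
    (o := o) (ψ := ψ) hτ hε (fun s hs => hs.choose_spec.2.1) h
  refine ⟨E, ?_, fun s hs => (r3 s hs).choose_spec.1, ?_⟩
  · have b1 : Real.exp (-X ^ 18) ≤ Real.exp (-(X ^ 2) ^ 2) ^ r := by
      rw [← Real.exp_nat_mul, Real.exp_le_exp]
      nlinarith [mul_le_mul_of_nonneg_right r1 (show 0 ≤ (X ^ 2) ^ 2 by positivity)]
    have b2 := (mul_le_mul_of_nonneg_left b1 (th_pos hG 0).le).trans r2
    rw [show (X ^ 2) ^ 9 = X ^ 18 by ring, ← inv_mul_le_iff₀ (Real.exp_pos _),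
      ← Real.exp_neg] at b2
    refine le_trans (le_of_eq ?_) b2
    rw [mul_left_comm, ← Real.exp_add, mul_comm]
    congr 2
    ring
  · obtain ⟨r', θ, cen, Θ, c0, F1, F2, c1, c2, c3, c4, c5, c6⟩ := r4
    exact ⟨r', θ, cen, Θ, c0, F1, F2, c1.trans (le_of_eq (by ring)), c2, c3, c4, c5,
      fun z hz => ⟨(c6 z hz).1, (c6 z hz).2.imp fun k hk μ => (hk μ).trans hM⟩⟩

/-- **local charts on one fibre** -/
theorem pieceF : ∃ X0 : ℝ, ∀ X : ℝ, X0 ≤ X → ∀ (n Mon : Type) [Fintype n] [DecidableEq n]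
    [Fintype Mon] (Sl : Mon → Type) [∀ μ, Fintype (Sl μ)] [∀ μ, DecidableEq (Sl μ)]
    (e : Emb Sl (n → ℤ)) (H : Matrix n n ℝ) (ψ1 ψ2 ψ3 ψ4 : (n → ℤ) → Mon → ℝ)
    (U : (n → ℤ) → Prop) (K M l lam : ℝ) (d : ℕ), H.PosDef → th H 0 ≤ 2 * vol H →
    (Fintype.card n : ℝ) ≤ Real.exp X → (Fintype.card Mon : ℝ) ≤ Real.exp X →
    (∀ μ, Fintype.card (Sl μ) ≤ d) → (d : ℝ) ≤ X → 0 < M → Real.exp (X ^ 5) * M ≤ K →
    Real.exp (X ^ 3) ≤ l → Real.exp (X ^ 5) * l ^ 2 ≤ lam →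
    ∑' z : Fin 8 → n → ℤ, (∏ c, gs (![H, H, H, l • H, l • H, l • H, l ^ 2 • H, l ^ 2 • H] c)
      (toR (z c))) * ind (¬e.Rig K z) ≤ Real.exp (-X ^ 2) *
        ∏ c, th (![H, H, H, l • H, l • H, l • H, l ^ 2 • H, l ^ 2 • H] c) 0 →
    Real.exp (-X) * ∏ c, th (![H, H, l • H, l • H] c) 0 ≤
      ∑' x : Fin 4 → n → ℤ, (∏ c, gs (![H, H, l • H, l • H] c) (toR (x c))) *
        ind (U (x 0 + x 2) ∧ e.Q4 ψ1 ψ2 ψ3 ψ4 M (x 0) (x 1) (x 2) (x 3)) →
    ∃ P : (n → ℤ) → (n → ℤ) → Prop, (∀ o z, P o z → U z) ∧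
      (∀ o, e.Loc ψ1 (X ^ 14) (Real.exp (X ^ 5) * M) (P o)) ∧
      Real.exp (-X ^ 19) * (vol H * th (lam • H) 0) ≤
        ∑' o, gs H (toR o) * ∑' a, gs (lam • H) (toR a) * ind (P o (o + a)) := by
  classical
  obtain ⟨X0, hF⟩ := frt_share
  refine ⟨max X0 1000, fun X hX n Mon _ _ _ Sl _ _ e H ψ1 ψ2 ψ3 ψ4 U K M l lam d hH hf hn hm hd hdX
    hM hK hl hlam hR hP => ?_⟩
  have X1 : 1000 ≤ X := (le_max_right _ _).trans hX
  have X2 : X ≤ X ^ 2 := by nlinarith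
  obtain ⟨n1, n2, n3, n4, n5⟩ := numF X1 hn hl
  obtain ⟨m1, m2, m3⟩ := numG X1 hdX
  have l0 : 0 < l := (Real.exp_pos _).trans_le hl
  have lam0 : 0 < lam := lt_of_lt_of_le (by positivity) hlam
  have h2 := hH.smul l0
  have h3 := hH.smul (pow_pos l0 2)
  have h4 := hH.smul lam0
  have q0 := fun y => qq_nonneg hH.posSemidef y
  have g := gaugeG e hH h2 h3 ψ1 ψ2 ψ3 ψ4 U K M (Real.exp (-X)) (Real.exp (-X ^ 2)) l d hd hM.le
    ((mul_le_mul_of_nonneg_right m1 hM.le).trans hK) (Real.exp_pos _)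
    (Real.exp_le_one_iff.2 (by linarith)) (Real.exp_pos _) n1 (fun y => (qq_smul_mat _ _ _).ge)
    (fun y => by rw [qq_smul_mat, qq_smul_mat, pow_two, mul_assoc]) n2 hR hP
  obtain ⟨z, hz⟩ := exists_good (fun c => by fin_cases c <;> assumption)
    (Real.exp_lt_one_iff.2 (by linarith)) hR
  obtain ⟨T, t1, t2⟩ := exists_T h3
  have t3 : ∀ y, ‖T y‖ ^ 2 = l ^ 2 * qq H y := fun y => by
    rw [t2, Real.sq_sqrt (qq_nonneg h3.posSemidef y), qq_smul_mat]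
  obtain ⟨T', hT⟩ := exists_tor e
  have K0 : 0 < K := lt_of_lt_of_le (by positivity) hK
  have sep : ∀ k : M0 Sl → ℤ, ‖T' (zc k)‖ ≤ K → k = 0 := fun k hk => by
    have := rig0 e K0.le hz (k := ez Sl k) (fun μ hμ => ez_neg _ hμ) fun μ hμ => by
      rw [← hT k ⟨μ, hμ⟩]
      exact (norm_le_pi_norm _ _).trans hk
    funext ν
    rw [← ez_pos k ν, this]
    rfl
  have inj := inj_of_sep T' K0 sep
  have sur := LinearMap.injective_iff_surjective.1 inj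
  have ρ0 : 0 < 4 ^ d * M := by positivity
  have ε1 : 3 * (4 ^ d * M) + Real.exp ((X ^ 2) ^ 2) * (4 ^ d * M) ≤ Real.exp (X ^ 5) * M := by
    rw [← add_mul, ← mul_assoc]
    exact mul_le_mul_of_nonneg_right m2 hM.le
  have l1 : 1 ≤ l ^ 2 := by
    have : (0 : ℝ) ≤ Fintype.card n := Nat.cast_nonneg _
    linarith only [this, n4]
  have l2 : Real.exp (5 * (X ^ 2) ^ 2) * l ^ 2 ≤ lam := by
    refine le_trans (mul_le_mul_of_nonneg_right (Real.exp_le_exp.2 ?_) (by positivity)) hlam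
    nlinarith only [X1, pow_pos (show 0 < X by linarith) 4]
  clear n1 n2 m1 m2 hR hP
  have an := anchors hH h3 (fun y => by
    rw [qq_smul_mat]; exact mul_le_mul_of_nonneg_right n4 (q0 y)) hf _
    (e.Gd ψ1 U (lam • H) (X ^ 14) (Real.exp (X ^ 5) * M) (Real.exp (-(2 * X ^ 18))))
    (δ := Real.exp (-X) ^ 2 / 32) (β := Real.exp (-(2 * X ^ 2))) (by positivity) (by positivity)
    (by
      simp only [ind_eq]
      exact (mul_le_mul_of_nonneg_left (vol_le_th_zero hH) (by positivity)).trans g) (by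
    rintro o ⟨Θ, k, f, g, ζ, hΘ, hf, hs⟩
    choose f' hf' using fun s => sur fun ν => f s ν
    choose g' hg' using fun s => sur fun ν => g s ν
    choose ζ' hζ' using fun s => sur fun ν => ζ s ν
    have := hF (X ^ 2) ((le_max_left _ _).trans (hX.trans X2)) n (M0 Sl) _ _ T T' g' f' ζ'
      (fun t y => U (o + y) ∧ e.Out ψ1 (4 ^ d * M) o Θ k f g ζ t y) H (l ^ 2 • H) (lam • H) 0 0
      (4 ^ d * M) (Real.exp (-(X ^ 2) ^ 2)) t1 inj (hn.trans (Real.exp_le_exp.2 X2))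
      (le_trans (by exact_mod_cast Fintype.card_subtype_le _) (hm.trans (Real.exp_le_exp.2 X2)))
      ρ0 hH h3 h4 (fun y => by rw [t3]; exact le_mul_of_one_le_left (q0 y) l1)
      (fun y => by rw [t3, qq_smul_mat]) (fun y => by
        rw [t3, qq_smul_mat, ← mul_assoc]
        exact mul_le_mul_of_nonneg_right l2 (q0 y))
      (Real.exp_pos _) le_rfl (by linarith only [th_pos h3 0])
      (fun k hk => sep k (hk.trans (by linarith only [ε1, hK, ρ0])))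
      (fun t y hh => e.cz_out hT hf' hg' hζ' ρ0.le hh.2) (by
        simp only [ind_eq, sub_zero]
        refine le_trans ?_ (mul_le_mul_of_nonneg_left hs (by positivity))
        rw [← mul_assoc (Real.exp _)]
        exact mul_le_mul_of_nonneg_right n3 (mul_pos (th_pos hH 0) (th_pos h3 0)).le)
    rw [Real.exp_neg, inv_mul_le_iff₀ (Real.exp_pos _)]
    refine this.trans (mul_le_mul_of_nonneg_left ?_ (Real.exp_pos _).le)
    simp only [ind_eq, sub_zero]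
    exact Summable.tsum_le_tsum (fun x => mul_le_mul_of_nonneg_left (ind_mono fun hx =>
      e.gd_of hT hf' hf hΘ h4 n5 (by positivity) ε1 hx) (gs_pos _ _).le)
      ((wt_gs0 h3).summ fun _ => abs_ind _) ((wt_gs0 h3).summ fun _ => abs_ind _))
  simp only [ind_eq] at an
  obtain ⟨P, p1, p2, p3⟩ := e.gd_sum (ψ := ψ1) (U := U) hH h4 (R := X ^ 14)
    (M := Real.exp (X ^ 5) * M) (by positivity) (Real.exp_pos (-(2 * X ^ 18))).le _
  have p4 := th_pos h4 0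
  refine ⟨P, p1, p2, le_trans (mul_le_mul_of_nonneg_right m3 (mul_pos (vol_pos hH) p4).le) ?_⟩
  exact le_trans (le_of_eq (by ring)) ((mul_le_mul_of_nonneg_right an
    (mul_pos (Real.exp_pos (-(2 * X ^ 18))) p4).le).trans p3)

end

end Vale.Agent.P057GA
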