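import Vale.Agent.P057GA.Brg
import Vale.Agent.P057GA.Fib
import Vale.Agent.P057IV.Defs

/-!
Charts in coefficients give charts of forms.
-/

set_option linter.all false

open Matrix Finset
open Vale.Agent.P267.H775 Vale.Agent.P057G Vale.Agent.P057MA Vale.Agent.P057PI
open Vale.Agent.P057T1 (NF)
open Vale.Agent.P057IV (Ty Nr Chart CH OnP)

namespace Vale.Agent.P057GA

noncomputable section

variable {V ι : Type} [DecidableEq V] [Fintype V] [DecidableEq ι] [Fintype ι] {S : MS V ι}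
  {q : Finset ι} {A B : Finset V} {b : V} {c : ℝ} {R M : Matrix ι ι ℝ}

theorem fce_out (h : Disjoint A B) : fce S (A ∪ B) \ S.sts A = fce S B := by
  ext j
  simp only [mem_sdiff, mem_fce, MS.mem_sts, not_exists, not_and]
  constructor
  · rintro ⟨h1, h2⟩ v hv
    exact (mem_union.1 (h1 hv)).resolve_left fun a => h2 v a hv
  · intro h1
    exact ⟨h1.trans subset_union_right, fun v hv a => disjoint_left.1 h hv (h1 a)⟩

theorem fce_erase (hb : b ∉ A) : fce S (A ∪ B) \ S.st b = fce S (A ∪ B.erase b) := by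
  ext j
  simp only [mem_sdiff, mem_fce, MS.mem_st]
  constructor
  · rintro ⟨h1, h2⟩ v hv
    rcases mem_union.1 (h1 hv) with a | a
    · exact mem_union_left _ a
    · exact mem_union_right _ (mem_erase.2 ⟨fun e => h2 (e ▸ hv), a⟩)
  · intro h1
    refine ⟨h1.trans (union_subset_union_right (erase_subset _ _)), fun a => ?_⟩
    rcases mem_union.1 (h1 a) with a | a
    · exact hb a
    · exact (mem_erase.1 a).1 rfl

theorem u_out (h : S.Ok) (w : Wh S c R M) {v : V} {j : ι} (hj : j ∉ S.st v) (x y : ι → ℝ) :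
    (R *ᵥ pos S (mix (S.st v) x y)) j = (R *ᵥ pos S y) j := by
  refine sum_congr rfl fun i _ => ?_
  by_cases h0 : R j i = 0
  · simp only [h0, zero_mul]
  · exact congrArg _ (pos_indep h (fun a => hj (S.mem_st.2 ((w.bR j i h0).1 ▸ S.mem_st.1 a))) x y)

theorem u_lin (h : S.Ok) (hc : S.Cen) (w : Wh S c R M) {v : V} {j : ι} (hj : j ∈ S.st v) :
    Lin (S.st v) fun z => (R *ᵥ pos S z) j :=
  lin_pos h hc ((fm_mat (A := {v}) (r := univ) (fun _ _ _ _ _ => mem_univ _) w.bR).lin v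
    (mem_singleton_self _) j (mem_univ _) hj)

theorem u_on (h : S.Ok) (w : Wh S c R M) {r : Finset ι} (hr : Cls S r) {j : ι} (hj : j ∈ r) :
    On r fun z => (R *ᵥ pos S z) j :=
  On.pos h hr ((fm_mat (A := ∅) hr.blk w.bR).on j hj)

theorem fm_coef (h : S.Ok) (hc : S.Cen) (hq : Cls S q) (w : Wh S c R M)
    {D : (ι → ℝ) → Mn S (q ∩ S.sts A) A → ℝ}
    (hD : ∀ z z', (∀ j ∈ q \ S.sts A, z j = z' j) → D z = D z') :
    Fm S q A fun z => e1 (D z) (R *ᵥ pos S z) := by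
  have f0 : ∀ D0 : Mn S (q ∩ S.sts A) A → ℝ, Fm S q A fun z => e1 D0 (R *ᵥ pos S z) := fun D0 =>
    Fm.pos h hc hq (((fm_mat (bk_sts hq A) w.bR).fm (fm_e1 D0)).mono inter_subset_left subset_rfl)
  refine ⟨fun z z' e => ?_, fun v hv y => ?_⟩
  · show e1 (D z) _ = e1 (D z') _
    rw [hD z z' fun j hj => e j (mem_sdiff.1 hj).1]
    exact (f0 _).on z z' e
  · have : ∀ x, D (mix (S.st v) x y) = D y := fun x => hD _ _ fun j hj =>
      mix_neg _ _ fun a => (mem_sdiff.1 hj).2 (MS.mem_sts.2 ⟨v, hv, S.mem_st.1 a⟩)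
    simp only [this]
    exact (f0 _).lin v hv y

theorem out_of_empty {r : Finset ι} {μ : Mn S r A} (h : ¬Nonempty (Slt S r A b μ)) {j : ι}
    (hj : j ∈ μ.1) : j ∉ S.st b := fun a => h ⟨⟨j, mem_inter.2 ⟨hj, a⟩⟩⟩

theorem on_coef (h : S.Ok) (hq : Cls S q) (w : Wh S c R M) {D : Mn S (q ∩ S.sts A) A → ℝ}
    (hD : ∀ μ, Nonempty (Slt S _ A b μ) → D μ = 0) :
    On (q \ S.st b) fun z => e1 D (R *ᵥ pos S z) := by
  intro z z' e
  refine sum_congr rfl fun μ _ => ?_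
  by_cases hμ : Nonempty (Slt S _ A b μ)
  · rw [hD μ hμ, zero_mul, zero_mul]
  · exact congrArg _ (prod_congr rfl fun j hj => u_on h w (hq.sdiff_st b)
      (mem_sdiff.2 ⟨(mem_inter.1 (μ.2.sub hj)).1, out_of_empty hμ hj⟩) z z' e)

theorem lin_mul2 {E : Type} [AddCommGroup E] [Module ℝ E] {f : E → ℝ} (h : IsLinearMap ℝ f)
    (a c : ℝ) : IsLinearMap ℝ fun x => a * (c * f x) :=
  ⟨fun x x' => by rw [h.map_add]; ring, fun a x => by rw [h.map_smul, smul_eq_mul, smul_eq_mul]; ring⟩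

theorem aff_coef (h : S.Ok) (hc : S.Cen) (w : Wh S c R M) {r : Finset ι} {Θ : Mn S r A → ℝ}
    {D : (ι → ℝ) → Mn S r A → ℝ} (hΘ : ∀ μ, Fintype.card (Slt S r A b μ) ≠ 1 → Θ μ = 0)
    (h0 : ∀ z μ, Nonempty (Slt S r A b μ) → D z μ = 0) (hD : ∀ μ, Aff (S.st b) fun z => D z μ) :
    Aff (S.st b) fun z => e1 (fun μ => Θ μ + D z μ) (R *ᵥ pos S z) := by
  have key : ∀ μ : Mn S r A, Aff (S.st b) fun z => (Θ μ + D z μ) * ∏ j ∈ μ.1, (R *ᵥ pos S z) j := by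
    intro μ y
    by_cases hμ : Nonempty (Slt S r A b μ)
    · simp only [h0 _ μ hμ, add_zero]
      by_cases h1 : Fintype.card (Slt S r A b μ) = 1
      · rw [Fintype.card_coe, card_eq_one] at h1
        obtain ⟨j0, h1⟩ := h1
        have j1 : j0 ∈ μ.1 ∩ S.st b := h1 ▸ mem_singleton_self _
        have e : ∀ x, ∏ j ∈ μ.1, (R *ᵥ pos S (mix (S.st b) x y)) j =
            (∏ j ∈ μ.1 \ S.st b, (R *ᵥ pos S y) j) * (R *ᵥ pos S (mix (S.st b) x y)) j0 := by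
          intro x
          rw [← prod_inter_mul_prod_sdiff μ.1 (S.st b), h1, prod_singleton, mul_comm]
          exact congrArg (· * _) (prod_congr rfl fun j hj => u_out h w (mem_sdiff.1 hj).2 _ _)
        have l := u_lin h hc w (mem_inter.1 j1).2
        simp only [e, l.zero y, mul_zero, sub_zero]
        exact lin_mul2 (l y) _ _
      · simp only [hΘ μ h1, zero_mul, sub_zero]
        exact ⟨fun _ _ => by simp, fun _ _ => by simp⟩
    · have e : ∀ x, ∏ j ∈ μ.1, (R *ᵥ pos S (mix (S.st b) x y)) j = ∏ j ∈ μ.1, (R *ᵥ pos S y) j :=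
        fun x => prod_congr rfl fun j hj => u_out h w (out_of_empty hμ hj) _ _
      simp only [e, ← sub_mul, add_sub_add_left_eq_sub]
      exact ⟨fun x x' => by rw [(hD μ y).map_add]; ring, fun a x => by
        rw [(hD μ y).map_smul, smul_eq_mul, smul_eq_mul]; ring⟩
  simpa only [one_mul, e1] using Aff.sum univ (fun _ => 1) fun μ _ => key μ

/-- the restriction to a set of coordinates -/
def rsP {α : Type} (P : Finset ι) (z : ι → α) : P → α := fun j => z j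

theorem aff_rs {P : Finset ι} (hP : P ⊆ S.st b) (F : (P → ℝ) →ₗ[ℝ] ℝ) (a : ℝ) :
    Aff (S.st b) fun z => a + F (rsP P z) := by
  intro y
  have e : ∀ x, rsP P (mix (S.st b) x y) = rsP P x := fun x => funext fun j => mix_pos _ _ (hP j.2)
  have e0 : rsP P (0 : ι → ℝ) = 0 := rfl
  simp only [e, e0, map_zero, add_zero, add_sub_cancel_left]
  exact ⟨fun x x' => F.map_add _ _, fun a x => F.map_smul a _⟩

variable {κ : Type} {ty : κ → Finset V}

/-- the embedding of a family of types -/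
def embS (h : S.Ok) (hc : S.Cen) (w : Wh S c R M) (B : Finset V) (b : V) (ty : κ → Finset V)
    (y : ι → ℝ) := Emb.sigma fun r =>
  emb h hc (cls_fce S (ty r ∪ B)) (ty r) b w.bM y (fce S B ∩ S.st b)

/-- the coefficients of a family of forms -/
def cS (S : MS V ι) (M : Matrix ι ι ℝ) (B : Finset V) (b : V) (ty : κ → Finset V) (y : ι → ℝ)
    (ψ : κ → (ι → ℝ) → ℝ) (z : ↥(fce S B ∩ S.st b) → ℤ)
    (μ : Σ r, Mn S (fce S (ty r ∪ B) ∩ S.sts (ty r)) (ty r)) : ℝ :=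
  c1 S (fce S (ty μ.1 ∪ B)) (ty μ.1) b M y (xr _ z) (ψ μ.1) μ.2

theorem ch_of_loc (h : S.Ok) (hc : S.Cen) (w : Wh S c R M) (h1 : 1 ≤ c) (hb : b ∈ B)
    (hty : ∀ r, Disjoint (ty r) B) {ψ : κ → (ι → ℝ) → ℝ} (hψ : ∀ r, Ty S (ty r) B (ψ r))
    (y : ι → ℝ) {P : (↥(fce S B ∩ S.st b) → ℤ) → Prop} {Rk K Y : ℝ} (hK : 0 ≤ K)
    (hL : (embS h hc w B b ty y).Loc (cS S M B b ty y ψ) Rk K P) (hR : Rk ≤ Y)
    (hY : ∀ r, (((fce S (ty r ∪ B) ∩ S.sts (ty r)).card : ℝ) * c) ^ (ty r).card * K ≤ Real.exp Y)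
    {E : (ι → ℝ) → Prop} (hE : ∀ z : ι → ℤ, E (toR z) →
      (∀ j ∈ fce S B \ S.st b, (z j : ℝ) = y j) ∧ P (rsP _ z)) : CH S B b ty ψ E Y := by
  obtain ⟨n, θ, cen, Θ, c0, F1, F2, l1, l2, l3, l4, l5, l6⟩ := hL
  have hb' : ∀ r, b ∉ ty r := fun r a => disjoint_left.1 (hty r) a hb
  have rs : ∀ r z z', (∀ j ∈ fce S (ty r ∪ B) \ S.sts (ty r), z j = z' j) →
      rsP (fce S B ∩ S.st b) z = (rsP _ z' : _ → ℝ) := fun r z z' e =>
    funext fun j => e j ((fce_out (S := S) (hty r)).symm ▸ (mem_inter.1 j.2).1)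
  refine ⟨Fin n, inferInstance, fun ρ z => θ ρ ⬝ᵥ rsP _ z - cen ρ,
    fun r z => e1 (fun μ => Θ ⟨r, μ⟩ + (c0 ⟨r, μ⟩ + F1 (rsP _ z) ⟨r, μ⟩)) (R *ᵥ pos S z),
    fun r ρ z => e1 (fun μ => F2 ρ ⟨r, μ⟩) (R *ᵥ pos S z), by simpa using l1.trans hR,
    fun ρ => ⟨fun z z' e => ?_, fun v hv => ?_⟩, fun r => ?_, fun r => ?_, fun r ρ => ⟨?_, ?_⟩,
    fun z hz ρ => (l6 _ (hE z hz).2).1 ρ, fun z hz r => ?_⟩
  · have : rsP (fce S B ∩ S.st b) z = rsP _ z' := funext fun j => e j (mem_inter.1 j.2).1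
    simp only [this]
  · rw [mem_singleton.1 hv]
    have := aff_rs (S := S) (b := b) (P := fce S B ∩ S.st b) inter_subset_right
      (dotProductBilin ℝ ℝ (θ ρ)) (-cen ρ)
    simpa only [dotProductBilin_apply_apply, neg_add_eq_sub] using this
  · exact fm_coef h hc (cls_fce _ _) w fun z z' e => by rw [rs r z z' e]
  · exact aff_coef h hc w (fun μ => l2 ⟨r, μ⟩)
      (fun z μ hμ => by rw [l3 ⟨r, μ⟩ hμ, l4 _ ⟨r, μ⟩ hμ, add_zero])
      fun μ => aff_rs inter_subset_right (LinearMap.proj ⟨r, μ⟩ ∘ₗ F1) _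
  · rw [← fce_erase (hb' r)]
    exact on_coef h (cls_fce _ _) w fun μ => l5 ρ ⟨r, μ⟩
  · exact (fm_coef h hc (cls_fce S (ty r ∪ B)) w (D := fun _ μ => F2 ρ ⟨r, μ⟩)
      fun _ _ _ => rfl).lin
  · obtain ⟨k, hk⟩ := (l6 _ (hE z hz).2).2
    obtain ⟨η, n1, n2, n3⟩ := nf_of_bd h hc (cls_fce S (ty r ∪ B)) w h1 y
      (rsP (fce S B ∩ S.st b) z) (b := b) (Y := toR z) (fun j hj => by
        rw [fce_out (hty r)] at hj
        by_cases a : j ∈ S.st b
        · rw [mix_pos _ _ a, xr, put_pos _ _ (mem_inter.2 ⟨hj, a⟩)]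
          rfl
        · rw [mix_neg _ _ a]
          exact (hE z hz).1 j (mem_sdiff.2 ⟨hj, a⟩)) (hψ r)
      (Φ := fun z => ψ r z - e1 (fun μ => Θ ⟨r, μ⟩ + (c0 ⟨r, μ⟩ + F1 (rsP _ z) ⟨r, μ⟩))
        (R *ᵥ pos S z) - ∑ ρ, (round (θ ρ ⬝ᵥ rsP _ z - cen ρ) : ℝ) *
          e1 (fun μ => F2 ρ ⟨r, μ⟩) (R *ᵥ pos S z))
      (D := fun μ => Θ ⟨r, μ⟩ + c0 ⟨r, μ⟩ + F1 (toR (rsP _ z)) ⟨r, μ⟩ +
        ∑ ρ, (round (θ ρ ⬝ᵥ toR (rsP _ z) - cen ρ) : ℝ) * F2 ρ ⟨r, μ⟩) (fun z' e => by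
        rw [rs r z' _ e]
        simp only [e1, add_mul, sum_add_distrib, sum_mul, mul_sum, mul_assoc]
        rw [sum_comm, sub_sub, ← add_assoc]
        rfl) (k := fun μ => k ⟨r, μ⟩) hK fun μ => by
        rw [← sub_sub]
        exact hk ⟨r, μ⟩
    exact ⟨η, n1, n2, fun z' e => (n3 z' e).trans (hY r)⟩

end

end Vale.Agent.P057GA
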