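import Mathlib.Algebra.BigOperators.Ring.Finset
import Mathlib.Algebra.Order.BigOperators.Ring.Finset
import Mathlib.Data.Real.Basic
import Mathlib.Tactic.Ring
import Mathlib.Tactic.Linarith
import Mathlib.Tactic.GCongr
import Mathlib.Tactic.Positivity

/-! Finitely supported probability weights: cycles of length four, popular values, shears. -/

set_option linter.all false

open Finset

namespace Vale.Agent.P057GA

noncomputable section

/-- probability weights with finite support -/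
structure Pw (α : Type) where
  D : Finset α
  w : α → ℝ
  nn : ∀ a, 0 ≤ w a
  one : ∑ a ∈ D, w a = 1

open Classical in
/-- indicator -/
def ind (p : Prop) : ℝ := if p then 1 else 0

theorem ind_nonneg (p : Prop) : 0 ≤ ind p := by unfold ind; split_ifs <;> norm_num
theorem ind_le_one (p : Prop) : ind p ≤ 1 := by unfold ind; split_ifs <;> norm_num
theorem ind_mono {p q : Prop} (h : p → q) : ind p ≤ ind q := by
  unfold ind; by_cases hp : p
  · simp [hp, h hp]
  · simp only [hp, if_false]; split_ifs <;> norm_num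
theorem ind_and (p q : Prop) : ind (p ∧ q) = ind p * ind q := by
  unfold ind; by_cases hp : p <;> by_cases hq : q <;> simp [hp, hq]
theorem ind_not (p q : Prop) : ind p - ind q ≤ ind (p ∧ ¬q) := by
  unfold ind; by_cases hp : p <;> by_cases hq : q <;> simp [hp, hq]
theorem ind_pos {p : Prop} (h : 0 < ind p) : p := by
  by_contra hp; simp [ind, hp] at h

namespace Pw

variable {α β γ : Type}

/-- expectation -/
def E (P : Pw α) (F : α → ℝ) : ℝ := ∑ a ∈ P.D, P.w a * F a

theorem mono (P : Pw α) {F G : α → ℝ} (h : ∀ a ∈ P.D, F a ≤ G a) : P.E F ≤ P.E G :=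
  sum_le_sum fun a ha => mul_le_mul_of_nonneg_left (h a ha) (P.nn a)

theorem const (P : Pw α) (c : ℝ) : P.E (fun _ => c) = c := by
  rw [E, ← sum_mul, P.one, one_mul]

theorem add (P : Pw α) (F G : α → ℝ) : P.E (fun a => F a + G a) = P.E F + P.E G := by
  simp only [E, mul_add, sum_add_distrib]

theorem sub (P : Pw α) (F G : α → ℝ) : P.E (fun a => F a - G a) = P.E F - P.E G := by
  simp only [E, mul_sub, sum_sub_distrib]

theorem mul_left (P : Pw α) (c : ℝ) (F : α → ℝ) : P.E (fun a => c * F a) = c * P.E F := by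
  simp only [E, mul_sum]
  exact sum_congr rfl fun a _ => by ring

theorem mul_right (P : Pw α) (c : ℝ) (F : α → ℝ) : P.E (fun a => F a * c) = P.E F * c := by
  simp only [E, sum_mul]
  exact sum_congr rfl fun a _ => by ring

theorem comm (P : Pw α) (Q : Pw β) (F : α → β → ℝ) :
    P.E (fun a => Q.E fun b => F a b) = Q.E fun b => P.E fun a => F a b := by
  simp only [E, mul_sum]
  rw [sum_comm]
  exact sum_congr rfl fun a _ => sum_congr rfl fun b _ => by ring

theorem rot (P : Pw α) (Q : Pw β) (R : Pw γ) (F : α → β → γ → ℝ) :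
    P.E (fun a => Q.E fun b => R.E fun c => F a b c) =
      R.E fun c => P.E fun a => Q.E fun b => F a b c := by
  rw [← comm P R fun a c => Q.E fun b => F a b c]
  exact congrArg P.E (funext fun a => comm Q R _)

theorem nonneg (P : Pw α) {F : α → ℝ} (h : ∀ a, 0 ≤ F a) : 0 ≤ P.E F :=
  sum_nonneg fun a _ => mul_nonneg (P.nn a) (h a)

theorem le_one (P : Pw α) {F : α → ℝ} (h : ∀ a, F a ≤ 1) : P.E F ≤ 1 :=
  (P.mono fun a _ => h a).trans (P.const 1).le

theorem sq_le (P : Pw α) (F : α → ℝ) : P.E F ^ 2 ≤ P.E fun a => F a ^ 2 := by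
  have h : 0 ≤ P.E fun a => (F a - P.E F) ^ 2 := P.nonneg fun a => sq_nonneg _
  have e : (fun a => (F a - P.E F) ^ 2) = fun a => (F a ^ 2 - (2 * P.E F) * F a) + P.E F ^ 2 := by
    funext a; ring
  rw [e, add, sub, mul_left, const] at h
  nlinarith

theorem exists_ge (P : Pw α) (F : α → ℝ) : ∃ a ∈ P.D, P.E F ≤ F a := by
  have hne : P.D.Nonempty := by
    by_contra h
    have := P.one
    rw [not_nonempty_iff_eq_empty.1 h] at this
    simp at this
  obtain ⟨a, ha, hm⟩ := exists_max_image P.D F hne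
  exact ⟨a, ha, (P.mono hm).trans (P.const _).le⟩

theorem sq_eq (P : Pw α) (F : α → ℝ) : P.E F ^ 2 = P.E fun a => P.E fun a' => F a * F a' := by
  simp only [mul_left, mul_right]
  ring

theorem box (V : Pw α) (V' : Pw γ) (s : α → γ → ℝ) :
    (V.E fun v => V'.E fun v' => s v v') ^ 4 ≤
      V.E fun p => V'.E fun p' => V.E fun v => V'.E fun v' =>
        s v v' * s p v' * s v p' * s p p' := by
  have h1 : (V.E fun v => V'.E fun v' => s v v') ^ 2 ≤
      V'.E fun v' => V'.E fun p' => V.E fun v => s v v' * s v p' := by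
    refine (V.sq_le _).trans (le_of_eq ?_)
    simp only [sq_eq]
    rw [← rot]
  have h2 : (V'.E fun v' => V'.E fun p' => V.E fun v => s v v' * s v p') ^ 2 ≤
      V'.E fun v' => V'.E fun p' => (V.E fun v => s v v' * s v p') ^ 2 :=
    (V'.sq_le _).trans (V'.mono fun v' _ => V'.sq_le _)
  calc _ = ((V.E fun v => V'.E fun v' => s v v') ^ 2) ^ 2 := by ring
    _ ≤ _ := pow_le_pow_left₀ (sq_nonneg _) h1 2
    _ ≤ _ := h2
    _ = _ := by
      simp only [sq_eq]
      rw [comm V' V']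
      conv_rhs => rw [comm]
      congr 1
      funext p'
      conv_rhs => rw [rot]
      congr 1
      funext v'
      conv_rhs => rw [comm]
      congr 1
      funext v
      congr 1
      funext p
      ring

/-- shift invariance in dual form -/
def Inv {Λ : Type} [AddCommGroup Λ] (P : Pw Λ) (s : Λ) (η : ℝ) : Prop :=
  ∀ F : Λ → ℝ, (∀ x, 0 ≤ F x ∧ F x ≤ 1) → |P.E (fun x => F (x + s)) - P.E F| ≤ η

theorem Inv.le {Λ : Type} [AddCommGroup Λ] {P : Pw Λ} {s : Λ} {η : ℝ} (h : P.Inv s η)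
    (F : Λ → ℝ) (h0 : ∀ x, 0 ≤ F x) (h1 : ∀ x, F x ≤ 1) :
    P.E (fun x => F (x + s)) ≤ P.E F + η := by
  have := abs_le.1 (h F fun x => ⟨h0 x, h1 x⟩)
  linarith

theorem Inv.ge {Λ : Type} [AddCommGroup Λ] {P : Pw Λ} {s : Λ} {η : ℝ} (h : P.Inv s η)
    (F : Λ → ℝ) (h0 : ∀ x, 0 ≤ F x) (h1 : ∀ x, F x ≤ 1) :
    P.E F ≤ P.E (fun x => F (x + s)) + η := by
  have := abs_le.1 (h F fun x => ⟨h0 x, h1 x⟩)
  linarith

theorem mono_add (P : Pw α) {F G : α → ℝ} {η : ℝ} (h : ∀ a ∈ P.D, F a ≤ G a + η) :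
    P.E F ≤ P.E G + η :=
  (P.mono h).trans (by rw [add, const])

end Pw

variable {α β γ : Type}

/-- probability of a ternary predicate -/
def Pr3 (P : Pw α) (Q : Pw β) (R : Pw γ) (S : α → β → γ → Prop) : ℝ :=
  P.E fun a => Q.E fun b => R.E fun c => ind (S a b c)

theorem Pr3.mono (P : Pw α) (Q : Pw β) (R : Pw γ) {S S' : α → β → γ → Prop}
    (h : ∀ a b c, S a b c → S' a b c) : Pr3 P Q R S ≤ Pr3 P Q R S' :=
  P.mono fun a _ => Q.mono fun b _ => R.mono fun c _ => ind_mono (h a b c)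

/-- many cycles of length four through a fixed opposite corner -/
theorem cyc (V : Pw α) (V' : Pw γ) (B : Pw β) (S : α → γ → β → Prop)
    (bad : α → γ → β → α → γ → Prop) (δ η : ℝ) (h0 : 0 ≤ δ) (hS : δ ≤ Pr3 V V' B S)
    (hb : (V.E fun v => V'.E fun v' => B.E fun b => V.E fun p => V'.E fun p' =>
      ind (bad v v' b p p')) ≤ η) :
    ∃ (p : β → α) (p' : β → γ), δ ^ 4 - η ≤ Pr3 V V' B fun v v' b =>
      (((S v v' b ∧ S (p b) v' b) ∧ S v (p' b) b) ∧ S (p b) (p' b) b) ∧ ¬bad v v' b (p b) (p' b) := by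
  let G : β → α → γ → ℝ := fun b p p' => V.E fun v => V'.E fun v' =>
    ind ((((S v v' b ∧ S p v' b) ∧ S v p' b) ∧ S p p' b) ∧ ¬bad v v' b p p')
  have hc : ∀ b, ∃ p p', (V.E fun p => V'.E fun p' => G b p p') ≤ G b p p' := by
    intro b
    obtain ⟨p, _, hp⟩ := V.exists_ge fun p => V'.E fun p' => G b p p'
    obtain ⟨p', _, hp'⟩ := V'.exists_ge fun p' => G b p p'
    exact ⟨p, p', hp.trans hp'⟩
  choose p p' hp using hc
  refine ⟨p, p', ?_⟩
  unfold Pr3 at hS ⊢
  rw [Pw.rot] at hS hb ⊢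
  refine le_trans ?_ (B.mono fun b _ => hp b)
  have h1 : ∀ b, (V.E fun v => V'.E fun v' => ind (S v v' b)) ^ 4 -
      (V.E fun v => V'.E fun v' => V.E fun p => V'.E fun p' => ind (bad v v' b p p')) ≤
      V.E fun p => V'.E fun p' => G b p p' := by
    intro b
    have e : (V.E fun v => V'.E fun v' => V.E fun p => V'.E fun p' => ind (bad v v' b p p')) =
        V.E fun p => V'.E fun p' => V.E fun v => V'.E fun v' => ind (bad v v' b p p') := by
      rw [Pw.rot]
      congr 1
      funext p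
      rw [Pw.rot]
    rw [e]
    refine (sub_le_sub_right (Pw.box V V' fun v v' => ind (S v v' b)) _).trans ?_
    simp only [← Pw.sub, ← ind_and]
    exact V.mono fun p _ => V'.mono fun p' _ => V.mono fun v _ => V'.mono fun v' _ => ind_not _ _
  refine le_trans ?_ (B.mono fun b _ => h1 b)
  rw [Pw.sub]
  refine sub_le_sub ?_ hb
  calc δ ^ 4 = (δ ^ 2) ^ 2 := by ring
    _ ≤ ((B.E fun b => V.E fun v => V'.E fun v' => ind (S v v' b)) ^ 2) ^ 2 := by gcongr
    _ ≤ (B.E fun b => (V.E fun v => V'.E fun v' => ind (S v v' b)) ^ 2) ^ 2 :=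
        pow_le_pow_left₀ (sq_nonneg _) (B.sq_le _) 2
    _ ≤ _ := (B.sq_le _).trans (B.mono fun b _ => le_of_eq (by ring))

/-- a common neighbour -/
theorem func (B : Pw β) (V : Pw α) (V' : Pw γ) (S : β → α → γ → Prop) (δ : ℝ) (h0 : 0 ≤ δ)
    (hS : δ ≤ Pr3 B V V' S) :
    ∃ b ∈ B.D, ∃ p' : γ, δ ^ 2 ≤ V.E fun v => V'.E fun v' => ind (S b v v' ∧ S b v p') := by
  obtain ⟨b, hb, h⟩ := B.exists_ge fun b => V.E fun v => V'.E fun v' => ind (S b v v')
  obtain ⟨p', _, hp⟩ := V'.exists_ge fun p' => V.E fun v => V'.E fun v' =>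
    ind (S b v v' ∧ S b v p')
  refine ⟨b, hb, p', le_trans ?_ hp⟩
  calc δ ^ 2 ≤ (V.E fun v => V'.E fun v' => ind (S b v v')) ^ 2 := by
        gcongr
        exact hS.trans h
    _ ≤ _ := V.sq_le _
    _ = _ := by
        simp only [Pw.sq_eq, ind_and]
        rw [Pw.rot]

end

end Vale.Agent.P057GA
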