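import Vale.Agent.P057GA.Spl
import Vale.Agent.P057GA.Pw
import Mathlib.Tactic.Abel
import Mathlib.Tactic.Module

/-! Integer forms in position coordinates: rigidity and the relation of four points. -/

set_option linter.all false

open Finset

namespace Vale.Agent.P057GA

noncomputable section

variable {Mon : Type} {Sl : Mon → Type} [∀ μ, Fintype (Sl μ)] [∀ μ, DecidableEq (Sl μ)]
  {Λ : Type} [AddCommGroup Λ] {R : Type} [CommRing R]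
  {J J' J'' : Type} [Fintype J] [DecidableEq J] [Fintype J'] [DecidableEq J']
  [Fintype J''] [DecidableEq J'']

/-- substitution of the generators -/
def sub (n : J' → J → ℤ) (F : JF Sl J' R) : JF Sl J R := fun μ => sub1 n (F μ)

/-- the form c of the point with coordinates n -/
def pt (n : J → ℤ) (c : Mon → R) : JF Sl J R := fun μ φ => (∏ s, (n (φ s) : R)) * c μ

/-- all coefficients are bounded by M -/
def Bd (M : ℝ) (F : JF Sl J ℝ) : Prop := ∀ μ φ, |F μ φ| ≤ M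

theorem sub_add' (n : J' → J → ℤ) (F G : JF Sl J' R) : sub n (F + G) = sub n F + sub n G := by
  funext μ φ
  simp only [sub, sub1, Pi.add_apply, mul_add, sum_add_distrib]

theorem sub_sub' (n : J' → J → ℤ) (F G : JF Sl J' R) : sub n (F - G) = sub n F - sub n G := by
  funext μ φ
  simp only [sub, sub1, Pi.sub_apply, mul_sub, sum_sub_distrib]

theorem sub_zero' (n : J' → J → ℤ) : sub n (0 : JF Sl J' R) = 0 := by
  funext μ φ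
  simp [sub, sub1]

theorem sub_sub_eq (m : J' → J → ℤ) (n : J'' → J' → ℤ) (F : JF Sl J'' R) :
    sub m (sub n F) = sub (fun j'' j => ∑ j', n j'' j' * m j' j) F := by
  funext μ
  exact sub1_sub1 m n (F μ)

theorem sub_id (F : JF Sl J R) : sub (fun j' j => if j' = j then 1 else 0) F = F := by
  funext μ
  exact sub1_id (F μ)

theorem sub_pt (m : J' → J → ℤ) (n : J' → ℤ) (c : Mon → R) :
    sub m (pt n c : JF Sl J' R) = pt (fun j => ∑ j', n j' * m j' j) c := by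
  funext μ
  exact sub1_pt m n (c μ)

theorem sub_one (n : J → ℤ) (F : JF Sl (Fin 1) R) :
    sub (fun _ => n) F = pt n fun μ => F μ fun _ => 0 := by
  funext μ φ
  simp only [sub, sub1, pt]
  rw [Fintype.sum_subsingleton _ fun _ => 0]

theorem Bd.sub_le {M B : ℝ} {d : ℕ} {F : JF Sl J' ℝ} (h : Bd M F) (n : J' → J → ℤ) (hB : 1 ≤ B)
    (hn : ∀ j, ∑ j', |(n j' j : ℝ)| ≤ B) (hd : ∀ μ, Fintype.card (Sl μ) ≤ d) (hM : 0 ≤ M) :
    Bd (B ^ d * M) (sub n F) := fun μ φ =>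
  abs_ev1_le (F μ) (fun s j' => n j' (φ s)) M B d (h μ) hB (fun s => hn _) (hd μ) hM

theorem Bd.add {M M' : ℝ} {F G : JF Sl J ℝ} (h : Bd M F) (h' : Bd M' G) : Bd (M + M') (F + G) :=
  fun μ φ => (abs_add_le _ _).trans (add_le_add (h μ φ) (h' μ φ))

theorem Bd.sub {M M' : ℝ} {F G : JF Sl J ℝ} (h : Bd M F) (h' : Bd M' G) : Bd (M + M') (F - G) :=
  fun μ φ => (abs_sub _ _).trans (add_le_add (h μ φ) (h' μ φ))

theorem Bd.mono {M M' : ℝ} {F : JF Sl J ℝ} (h : Bd M F) (h' : M ≤ M') : Bd M' F :=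
  fun μ φ => (h μ φ).trans h'

theorem Bd.neg {M : ℝ} {F : JF Sl J ℝ} (h : Bd M F) : Bd M (-F) :=
  fun μ φ => by rw [Pi.neg_apply, Pi.neg_apply, abs_neg]; exact h μ φ

/-- integer forms written in position coordinates -/
structure Emb {Mon : Type} (Sl : Mon → Type) [∀ μ, Fintype (Sl μ)] [∀ μ, DecidableEq (Sl μ)]
    (Λ : Type) [AddCommGroup Λ] where
  io : (g : ℕ) → (Fin g → Λ) → JF Sl (Fin g) ℤ →+ JF Sl (Fin g) ℝ
  nat : ∀ (g g' : ℕ) (n : Fin g' → Fin g → ℤ) (x : Fin g → Λ) (I : JF Sl (Fin g') ℤ),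
    io g x (sub n I) = sub n (io g' (fun j' => ∑ j, n j' j • x j) I)

namespace Emb

variable (e : Emb Sl Λ)

/-- no bounded integer form -/
def Rig (K : ℝ) {g : ℕ} (x : Fin g → Λ) : Prop := ∀ I, Bd K (e.io g x I) → I = 0

/-- integer form of one point -/
def io1 (a : Λ) (k : Mon → ℤ) : Mon → ℝ := fun μ => e.io 1 (fun _ => a) (fun μ _ => k μ) μ fun _ => 0

theorem io_pt {g : ℕ} (x : Fin g → Λ) (n : Fin g → ℤ) (k : Mon → ℤ) :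
    e.io g x (pt n k) = pt n (e.io1 (∑ j, n j • x j) k) := by
  have h := e.nat g 1 (fun _ => n) x fun μ _ => k μ
  rw [sub_one, sub_one] at h
  exact h

theorem io1_add (a : Λ) (k k' : Mon → ℤ) : e.io1 a (k + k') = e.io1 a k + e.io1 a k' := by
  funext μ
  have h := (e.io 1 fun _ => a).map_add (fun μ _ => k μ) fun μ _ => k' μ
  exact congrFun (congrFun h μ) fun _ => 0

/-- the relation of four points with the label I -/
def Rel (ψ1 ψ2 ψ3 ψ4 : Λ → Mon → ℝ) (M : ℝ) (x y t : Λ) (I : JF Sl (Fin 3) ℤ) : Prop :=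
  Bd M (pt n1 (ψ1 x) + pt n4 (ψ4 (y + t)) - pt n2 (ψ2 y) - pt n3 (ψ3 (x + t)) - e.io 3 ![x, y, t] I)

theorem cyc_zero {g h : ℕ} {K M : ℝ} {d : ℕ} (G : Fin g → Λ) (hR : e.Rig K G)
    (m0 m1 m2 m3 : Fin h → Fin g → ℤ) (I0 I1 I2 I3 : JF Sl (Fin h) ℤ)
    (L0 L1 L2 L3 : JF Sl (Fin h) ℝ) (x0 x1 x2 x3 : Fin h → Λ)
    (e0 : x0 = fun j' => ∑ j, m0 j' j • G j) (e1 : x1 = fun j' => ∑ j, m1 j' j • G j)
    (e2 : x2 = fun j' => ∑ j, m2 j' j • G j) (e3 : x3 = fun j' => ∑ j, m3 j' j • G j)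
    (h0 : Bd M (L0 - e.io h x0 I0)) (h1 : Bd M (L1 - e.io h x1 I1))
    (h2 : Bd M (L2 - e.io h x2 I2)) (h3 : Bd M (L3 - e.io h x3 I3))
    (b0 : ∀ j, ∑ j', |m0 j' j| ≤ 3) (b1 : ∀ j, ∑ j', |m1 j' j| ≤ 3)
    (b2 : ∀ j, ∑ j', |m2 j' j| ≤ 3) (b3 : ∀ j, ∑ j', |m3 j' j| ≤ 3)
    (hL : sub m0 L0 - sub m1 L1 - sub m2 L2 + sub m3 L3 = 0)
    (hd : ∀ μ, Fintype.card (Sl μ) ≤ d) (hM : 0 ≤ M) (hK : 4 * 3 ^ d * M ≤ K) :
    sub m0 I0 - sub m1 I1 - sub m2 I2 + sub m3 I3 = 0 := by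
  refine hR _ ?_
  have c0 := h0.sub_le (B := 3) m0 (by norm_num) (fun j => by exact_mod_cast b0 j) hd hM
  have c1 := h1.sub_le (B := 3) m1 (by norm_num) (fun j => by exact_mod_cast b1 j) hd hM
  have c2 := h2.sub_le (B := 3) m2 (by norm_num) (fun j => by exact_mod_cast b2 j) hd hM
  have c3 := h3.sub_le (B := 3) m3 (by norm_num) (fun j => by exact_mod_cast b3 j) hd hM
  have c := (((c0.sub c1).sub c2).add c3).neg
  rw [map_add, map_sub, map_sub, e.nat, e.nat, e.nat, e.nat, ← e0, ← e1, ← e2, ← e3]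
  simp only [sub_sub'] at c
  have ee : -(sub m0 L0 - sub m0 (e.io h x0 I0) - (sub m1 L1 - sub m1 (e.io h x1 I1)) -
      (sub m2 L2 - sub m2 (e.io h x2 I2)) + (sub m3 L3 - sub m3 (e.io h x3 I3))) =
      sub m0 (e.io h x0 I0) - sub m1 (e.io h x1 I1) - sub m2 (e.io h x2 I2) +
        sub m3 (e.io h x3 I3) - (sub m0 L0 - sub m1 L1 - sub m2 L2 + sub m3 L3) := by abel
  rw [ee, hL, sub_zero] at c
  exact c.mono (by linarith)

end Emb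

/-- I is a sum of A, killed by v, and a form killed by v' -/
def Spl (v v' : Fin 3 → ℤ) (I A : JF Sl (Fin 3) ℤ) : Prop :=
  ∃ A' : JF Sl (Fin 3) ℤ, (∀ μ φ, I μ φ = A μ φ + A' μ φ) ∧ ∀ μ, Kil (A μ) v ∧ Kil (A' μ) v'

theorem spl_of {g : ℕ} (m0 m1 m2 m3 : Fin 3 → Fin g → ℤ) (I0 I1 I2 I3 : JF Sl (Fin 3) ℤ)
    (h : sub m0 I0 - sub m1 I1 - sub m2 I2 + sub m3 I3 = 0) (r : Fin g → Fin 3 → ℤ)
    (k1 k2 k3 : Fin 3 → Fin 3 → ℤ) (v v' : Fin 3 → ℤ)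
    (r0 : (fun a b => ∑ j, m0 a j * r j b) = fun a b => if a = b then 1 else 0)
    (r1 : (fun a b => ∑ j, m1 a j * r j b) = k1) (r2 : (fun a b => ∑ j, m2 a j * r j b) = k2)
    (r3 : (fun a b => ∑ j, m3 a j * r j b) = k3)
    (v1 : ∀ a, ∑ b, k1 a b * v' b = 0) (v2 : ∀ a, ∑ b, k2 a b * v b = 0)
    (v3 : ∀ a, ∑ b, k3 a b * v b = 0) : Spl v v' I0 (sub k2 I2 - sub k3 I3) := by
  have h' := congrArg (sub r) h
  rw [sub_add', sub_sub', sub_sub', sub_sub_eq, sub_sub_eq, sub_sub_eq, sub_sub_eq, r0, r1, r2, r3,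
    sub_id, sub_zero'] at h'
  refine ⟨sub k1 I1, fun μ φ => ?_, fun μ => ⟨?_, kil_sub1 _ _ _ v1⟩⟩
  · have := congrFun (congrFun h' μ) φ
    simp only [Pi.add_apply, Pi.sub_apply, Pi.zero_apply] at this ⊢
    linarith
  · exact (kil_sub1 _ _ _ v2).sub (kil_sub1 _ _ _ v3)

def kA2 : Fin 3 → Fin 3 → ℤ := ![![1, 0, 0], ![0, 0, 0], ![0, 0, 1]]
def kA3 : Fin 3 → Fin 3 → ℤ := ![![0, 0, 0], ![0, 0, 0], ![0, 0, 1]]
def kB2 : Fin 3 → Fin 3 → ℤ := ![![1, 0, 0], ![0, 1, 0], ![0, -1, 0]]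
def kB3 : Fin 3 → Fin 3 → ℤ := ![![1, -1, 0], ![0, 0, 0], ![0, 0, 0]]
def kC2 : Fin 3 → Fin 3 → ℤ := ![![1, 0, 0], ![0, 0, 0], ![0, 1, 1]]
def kC3 : Fin 3 → Fin 3 → ℤ := ![![0, 0, 0], ![0, 0, 0], ![1, 1, 1]]

namespace Emb

variable (e : Emb Sl Λ) {ψ1 ψ2 ψ3 ψ4 : Λ → Mon → ℝ} {K M : ℝ} {d : ℕ}
  {I0 I1 I2 I3 : JF Sl (Fin 3) ℤ}

theorem tup3 {a b c : Λ} {f : Fin 3 → Λ} (h0 : a = f 0) (h1 : b = f 1) (h2 : c = f 2) :
    ![a, b, c] = f := by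
  funext i
  match i with
  | 0 => exact h0
  | 1 => exact h1
  | 2 => exact h2

theorem sum5 (a b c d e : ℤ) (x y z u v : Λ) :
    a • x + b • y + c • z + d • u + e • v = ∑ j, ![a, b, c, d, e] j • ![x, y, z, u, v] j := by
  rw [Fin.sum_univ_five]
  rfl

theorem sub_rel {g : ℕ} (m : Fin 3 → Fin g → ℤ) (p1 p2 p3 p4 : Fin g → ℤ) (c1 c2 c3 c4 : Mon → ℝ)
    (h1 : (fun j => ∑ j', n1 j' * m j' j) = p1) (h2 : (fun j => ∑ j', n2 j' * m j' j) = p2)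
    (h3 : (fun j => ∑ j', n3 j' * m j' j) = p3) (h4 : (fun j => ∑ j', n4 j' * m j' j) = p4) :
    sub m (pt n1 c1 + pt n4 c4 - pt n2 c2 - pt n3 c3 : JF Sl (Fin 3) ℝ) =
      pt p1 c1 + pt p4 c4 - pt p2 c2 - pt p3 c3 := by
  rw [sub_sub', sub_sub', sub_add', sub_pt, sub_pt, sub_pt, sub_pt, h1, h2, h3, h4]

theorem splA {x x' y y' t : Λ} (hR : e.Rig K ![x, x', y, y', t])
    (h0 : e.Rel ψ1 ψ2 ψ3 ψ4 M x y t I0) (h1 : e.Rel ψ1 ψ2 ψ3 ψ4 M x' y t I1)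
    (h2 : e.Rel ψ1 ψ2 ψ3 ψ4 M x y' t I2) (h3 : e.Rel ψ1 ψ2 ψ3 ψ4 M x' y' t I3)
    (hd : ∀ μ, Fintype.card (Sl μ) ≤ d) (hM : 0 ≤ M) (hK : 4 * 3 ^ d * M ≤ K) :
    Spl (bv 1) (bv 0) I0 (sub kA2 I2 - sub kA3 I3) := by
  have h := e.cyc_zero _ hR
    ![![1, 0, 0, 0, 0], ![0, 0, 1, 0, 0], ![0, 0, 0, 0, 1]]
    ![![0, 1, 0, 0, 0], ![0, 0, 1, 0, 0], ![0, 0, 0, 0, 1]]
    ![![1, 0, 0, 0, 0], ![0, 0, 0, 1, 0], ![0, 0, 0, 0, 1]]
    ![![0, 1, 0, 0, 0], ![0, 0, 0, 1, 0], ![0, 0, 0, 0, 1]] I0 I1 I2 I3 _ _ _ _ _ _ _ _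
    (by apply tup3 <;> refine Eq.trans ?_ (sum5 ..) <;> module)
    (by apply tup3 <;> refine Eq.trans ?_ (sum5 ..) <;> module)
    (by apply tup3 <;> refine Eq.trans ?_ (sum5 ..) <;> module)
    (by apply tup3 <;> refine Eq.trans ?_ (sum5 ..) <;> module)
    h0 h1 h2 h3 (by decide) (by decide) (by decide) (by decide)
    (by
      rw [sub_rel _ ![1, 0, 0, 0, 0] ![0, 0, 1, 0, 0] ![1, 0, 0, 0, 1] ![0, 0, 1, 0, 1] _ _ _ _
          (by decide) (by decide) (by decide) (by decide),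
        sub_rel _ ![0, 1, 0, 0, 0] ![0, 0, 1, 0, 0] ![0, 1, 0, 0, 1] ![0, 0, 1, 0, 1] _ _ _ _
          (by decide) (by decide) (by decide) (by decide),
        sub_rel _ ![1, 0, 0, 0, 0] ![0, 0, 0, 1, 0] ![1, 0, 0, 0, 1] ![0, 0, 0, 1, 1] _ _ _ _
          (by decide) (by decide) (by decide) (by decide),
        sub_rel _ ![0, 1, 0, 0, 0] ![0, 0, 0, 1, 0] ![0, 1, 0, 0, 1] ![0, 0, 0, 1, 1] _ _ _ _
          (by decide) (by decide) (by decide) (by decide)]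
      abel) hd hM hK
  refine spl_of _ _ _ _ _ _ _ _ h ![![1, 0, 0], ![0, 0, 0], ![0, 1, 0], ![0, 0, 0], ![0, 0, 1]]
    ![![0, 0, 0], ![0, 1, 0], ![0, 0, 1]] _ _ _ _ ?_ ?_ ?_ ?_ ?_ ?_ ?_ <;> decide

theorem splB {x y y' t t' : Λ} (hR : e.Rig K ![x, y, y', t, t'])
    (h0 : e.Rel ψ1 ψ2 ψ3 ψ4 M x y t I0) (h1 : e.Rel ψ1 ψ2 ψ3 ψ4 M (x + y' - y) y' (t + y - y') I1)
    (h2 : e.Rel ψ1 ψ2 ψ3 ψ4 M x y t' I2)
    (h3 : e.Rel ψ1 ψ2 ψ3 ψ4 M (x + y' - y) y' (t' + y - y') I3)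
    (hd : ∀ μ, Fintype.card (Sl μ) ≤ d) (hM : 0 ≤ M) (hK : 4 * 3 ^ d * M ≤ K) :
    Spl (bv 2) f0 I0 (sub kB2 I2 - sub kB3 I3) := by
  have h := e.cyc_zero _ hR
    ![![1, 0, 0, 0, 0], ![0, 1, 0, 0, 0], ![0, 0, 0, 1, 0]]
    ![![1, -1, 1, 0, 0], ![0, 0, 1, 0, 0], ![0, 1, -1, 1, 0]]
    ![![1, 0, 0, 0, 0], ![0, 1, 0, 0, 0], ![0, 0, 0, 0, 1]]
    ![![1, -1, 1, 0, 0], ![0, 0, 1, 0, 0], ![0, 1, -1, 0, 1]] I0 I1 I2 I3 _ _ _ _ _ _ _ _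
    (by apply tup3 <;> refine Eq.trans ?_ (sum5 ..) <;> module)
    (by apply tup3 <;> refine Eq.trans ?_ (sum5 ..) <;> module)
    (by apply tup3 <;> refine Eq.trans ?_ (sum5 ..) <;> module)
    (by apply tup3 <;> refine Eq.trans ?_ (sum5 ..) <;> module)
    h0 h1 h2 h3 (by decide) (by decide) (by decide) (by decide)
    (by
      rw [sub_rel _ ![1, 0, 0, 0, 0] ![0, 1, 0, 0, 0] ![1, 0, 0, 1, 0] ![0, 1, 0, 1, 0] _ _ _ _
          (by decide) (by decide) (by decide) (by decide),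
        sub_rel _ ![1, -1, 1, 0, 0] ![0, 0, 1, 0, 0] ![1, 0, 0, 1, 0] ![0, 1, 0, 1, 0] _ _ _ _
          (by decide) (by decide) (by decide) (by decide),
        sub_rel _ ![1, 0, 0, 0, 0] ![0, 1, 0, 0, 0] ![1, 0, 0, 0, 1] ![0, 1, 0, 0, 1] _ _ _ _
          (by decide) (by decide) (by decide) (by decide),
        sub_rel _ ![1, -1, 1, 0, 0] ![0, 0, 1, 0, 0] ![1, 0, 0, 0, 1] ![0, 1, 0, 0, 1] _ _ _ _
          (by decide) (by decide) (by decide) (by decide),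
        (by abel : y' + (t + y - y') = y + t), (by abel : x + y' - y + (t + y - y') = x + t),
        (by abel : y' + (t' + y - y') = y + t'), (by abel : x + y' - y + (t' + y - y') = x + t')]
      abel) hd hM hK
  refine spl_of _ _ _ _ _ _ _ _ h ![![1, 0, 0], ![0, 1, 0], ![0, 0, 0], ![0, 0, 1], ![0, -1, 0]]
    ![![1, -1, 0], ![0, 0, 0], ![0, 1, 1]] _ _ _ _ ?_ ?_ ?_ ?_ ?_ ?_ ?_ <;> decide

theorem splC {x x' y y' t : Λ} (hR : e.Rig K ![x, x', y, y', t])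
    (h0 : e.Rel ψ1 ψ2 ψ3 ψ4 M x y t I0) (h1 : e.Rel ψ1 ψ2 ψ3 ψ4 M x' y (t + x - x') I1)
    (h2 : e.Rel ψ1 ψ2 ψ3 ψ4 M x y' (t + y - y') I2)
    (h3 : e.Rel ψ1 ψ2 ψ3 ψ4 M x' y' (t + x - x' + y - y') I3)
    (hd : ∀ μ, Fintype.card (Sl μ) ≤ d) (hM : 0 ≤ M) (hK : 4 * 3 ^ d * M ≤ K) :
    Spl f2 f1 I0 (sub kC2 I2 - sub kC3 I3) := by
  have h := e.cyc_zero _ hR
    ![![1, 0, 0, 0, 0], ![0, 0, 1, 0, 0], ![0, 0, 0, 0, 1]]
    ![![0, 1, 0, 0, 0], ![0, 0, 1, 0, 0], ![1, -1, 0, 0, 1]]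
    ![![1, 0, 0, 0, 0], ![0, 0, 0, 1, 0], ![0, 0, 1, -1, 1]]
    ![![0, 1, 0, 0, 0], ![0, 0, 0, 1, 0], ![1, -1, 1, -1, 1]] I0 I1 I2 I3 _ _ _ _ _ _ _ _
    (by apply tup3 <;> refine Eq.trans ?_ (sum5 ..) <;> module)
    (by apply tup3 <;> refine Eq.trans ?_ (sum5 ..) <;> module)
    (by apply tup3 <;> refine Eq.trans ?_ (sum5 ..) <;> module)
    (by apply tup3 <;> refine Eq.trans ?_ (sum5 ..) <;> module)
    h0 h1 h2 h3 (by decide) (by decide) (by decide) (by decide)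
    (by
      rw [sub_rel _ ![1, 0, 0, 0, 0] ![0, 0, 1, 0, 0] ![1, 0, 0, 0, 1] ![0, 0, 1, 0, 1] _ _ _ _
          (by decide) (by decide) (by decide) (by decide),
        sub_rel _ ![0, 1, 0, 0, 0] ![0, 0, 1, 0, 0] ![1, 0, 0, 0, 1] ![1, -1, 1, 0, 1] _ _ _ _
          (by decide) (by decide) (by decide) (by decide),
        sub_rel _ ![1, 0, 0, 0, 0] ![0, 0, 0, 1, 0] ![1, 0, 1, -1, 1] ![0, 0, 1, 0, 1] _ _ _ _
          (by decide) (by decide) (by decide) (by decide),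
        sub_rel _ ![0, 1, 0, 0, 0] ![0, 0, 0, 1, 0] ![1, 0, 1, -1, 1] ![1, -1, 1, 0, 1] _ _ _ _
          (by decide) (by decide) (by decide) (by decide),
        (by abel : x' + (t + x - x') = x + t), (by abel : y' + (t + y - y') = y + t),
        (by abel : y' + (t + x - x' + y - y') = y + (t + x - x')),
        (by abel : x' + (t + x - x' + y - y') = x + (t + y - y'))]
      abel) hd hM hK
  refine spl_of _ _ _ _ _ _ _ _ h ![![1, 0, 0], ![0, 0, 0], ![0, 1, 0], ![0, 0, 0], ![0, 0, 1]]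
    ![![0, 0, 0], ![0, 1, 0], ![1, 0, 1]] _ _ _ _ ?_ ?_ ?_ ?_ ?_ ?_ ?_ <;> decide

end Emb

end

end Vale.Agent.P057GA
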