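import Vale.Agent.P057GA.Rep
import Vale.Agent.P057GA.Emb

/-!
Monomial coordinates of forms on the joint system over a set of generators.
-/

open Matrix Finset
open Vale.Agent.P267.H775 Vale.Agent.P057G Vale.Agent.P057MA

namespace Vale.Agent.P057GA

noncomputable section

variable {V ι : Type} [DecidableEq ι] [Fintype ι] [DecidableEq V]

theorem EC.lin_prod {S : MS V ι} {q : Finset ι} {A : Finset V} {ν : Finset ι} (h : EC S q A ν)
    {v : V} (hv : v ∈ A) : Lin (S.st v) fun z => ∏ j ∈ ν, z j := by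
  obtain ⟨j, hj, hj2⟩ := h.cov v hv
  have e : ∀ x y : ι → ℝ, ∏ k ∈ ν, mix (S.st v) x y k = x j * ∏ k ∈ ν.erase j, y k := by
    intro x y
    rw [← mul_prod_erase ν _ hj, mix_pos _ _ (S.mem_st.2 hj2)]
    congr 1
    refine prod_congr rfl fun k hk => mix_neg _ _ fun h2 => (mem_erase.1 hk).1 ?_
    exact h.uni v hv k (mem_erase.1 hk).2 j hj (S.mem_st.1 h2) hj2
  intro y
  simp only [e]
  exact ⟨fun x x' => by rw [Pi.add_apply, add_mul], fun c x => by
    simp only [Pi.smul_apply, smul_eq_mul, mul_assoc]⟩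

theorem EC.fm_prod {S : MS V ι} {q : Finset ι} {A : Finset V} {ν : Finset ι} (h : EC S q A ν) :
    Fm S q A fun z => ∏ j ∈ ν, z j :=
  ⟨fun _ _ hz => prod_congr rfl fun j hj => hz j (h.sub hj), fun _ hv => h.lin_prod hv⟩

omit [Fintype ι] in
theorem prod_one (μ ν : Finset ι) : ∏ j ∈ ν, one μ j = if ν ⊆ μ then 1 else 0 := by
  split_ifs with h
  · exact prod_eq_one fun j hj => if_pos (h hj)
  · obtain ⟨j, hj, hj2⟩ := not_subset.1 h
    exact prod_eq_zero hj (if_neg hj2)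

/-- the monomials -/
def Mn (S : MS V ι) (r : Finset ι) (A : Finset V) : Type := {μ : Finset ι // EC S r A μ}

instance (S : MS V ι) (r : Finset ι) (A : Finset V) : Fintype (Mn S r A) := by
  classical exact Subtype.fintype _

instance (S : MS V ι) (r : Finset ι) (A : Finset V) : DecidableEq (Mn S r A) :=
  fun a b => decidable_of_iff (a.1 = b.1) Subtype.ext_iff.symm

/-- the factors that see the direction `b` -/
abbrev Slt (S : MS V ι) (r : Finset ι) (A : Finset V) (b : V) (μ : Mn S r A) : Type :=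
  ↥(μ.1 ∩ S.st b)

/-- the faces of the joint system -/
def jS (S : MS V ι) (J : Type) : MS V (ι × Option J) := ⟨fun a => S.fc a.1, fun _ => 0, 0, 0⟩

variable {S : MS V ι} {r : Finset ι} {A : Finset V} {b : V} {J J' : Type}

theorem card_slt (μ : Mn S r A) : Fintype.card (Slt S r A b μ) ≤ A.card := by
  rw [Fintype.card_coe]
  exact (card_le_card inter_subset_left).trans μ.2.card_le

omit [DecidableEq ι] in
theorem card_mn : Fintype.card (Mn S r A) ≤ r.card ^ A.card := by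
  choose f hf1 hf2 using fun μ : Mn S r A => μ.2.cov
  have := Fintype.card_le_of_injective
    (fun (μ : Mn S r A) (v : A) => (⟨f μ v.1 v.2, μ.2.sub (hf1 _ _ _)⟩ : r)) fun μ ν e => by
      refine Subtype.ext (μ.2.eq_of_sub ν.2 fun j hj => ?_)
      obtain ⟨v, hv, hj2⟩ := MS.mem_sts.1 (μ.2.mee hj)
      have h1 : f μ v hv = f ν v hv := congrArg Subtype.val (congrFun e ⟨v, hv⟩)
      rw [μ.2.uni v hv j hj _ (hf1 μ v hv) hj2 (hf2 μ v hv), h1]
      exact hf1 _ _ _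
  simpa using this

/-- the copy chosen for a factor -/
def lb (μ : Mn S r A) (φ : Slt S r A b μ → J) (j : ι) : Option J :=
  if h : j ∈ μ.1 ∩ S.st b then some (φ ⟨j, h⟩) else none

theorem lb_pos (μ : Mn S r A) (φ : Slt S r A b μ → J) (s : Slt S r A b μ) :
    lb μ φ s = some (φ s) := dif_pos s.2

theorem lb_neg (μ : Mn S r A) (φ : Slt S r A b μ → J) {j : ι} (h : j ∉ S.st b) :
    lb μ φ j = none := dif_neg fun h2 => h (mem_inter.1 h2).2

theorem prod_lb (μ : Mn S r A) (φ : Slt S r A b μ → J) (F : ι → Option J → ℝ) :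
    ∏ j ∈ μ.1, F j (lb μ φ j) = (∏ j ∈ μ.1 \ S.st b, F j none) * ∏ s, F s.1 (some (φ s)) := by
  rw [← prod_sdiff (inter_subset_left (s₂ := S.st b)), sdiff_inter_self_left,
    ← prod_coe_sort (μ.1 ∩ S.st b)]
  congr 1
  · exact prod_congr rfl fun j hj => by rw [lb_neg _ _ (mem_sdiff.1 hj).2]
  · exact prod_congr rfl fun s _ => by rw [lb_pos]

variable [Fintype J] [DecidableEq J] [Fintype J'] [DecidableEq J']

/-- the indices of the joint system -/
def jq (S : MS V ι) (r : Finset ι) (b : V) (J : Type) [Fintype J] [DecidableEq J] :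
    Finset (ι × Option J) := univ.filter fun a => a.1 ∈ r ∧ (a.2 = none ↔ a.1 ∉ S.st b)

theorem mem_jq {a : ι × Option J} :
    a ∈ jq S r b J ↔ a.1 ∈ r ∧ (a.2 = none ↔ a.1 ∉ S.st b) := by simp [jq]

omit [DecidableEq ι] [DecidableEq J] in
theorem mem_jst {v : V} {a : ι × Option J} : a ∈ (jS S J).st v ↔ a.1 ∈ S.st v := by
  rw [MS.mem_st, MS.mem_st]; rfl

/-- the monomial of the joint system -/
def jm (μ : Mn S r A) (φ : Slt S r A b μ → J) : Finset (ι × Option J) :=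
  μ.1.image fun j => (j, lb μ φ j)

omit [Fintype J] in
theorem mem_jm {μ : Mn S r A} {φ : Slt S r A b μ → J} {a : ι × Option J} :
    a ∈ jm μ φ ↔ a.1 ∈ μ.1 ∧ a.2 = lb μ φ a.1 := by
  rw [jm, mem_image]
  exact ⟨fun ⟨j, hj, e⟩ => e ▸ ⟨hj, rfl⟩, fun h => ⟨a.1, h.1, Prod.ext rfl h.2.symm⟩⟩

omit [Fintype J] in
theorem prod_jm (μ : Mn S r A) (φ : Slt S r A b μ → J) (Z : ι × Option J → ℝ) :
    ∏ a ∈ jm μ φ, Z a = (∏ j ∈ μ.1 \ S.st b, Z (j, none)) * ∏ s, Z (s.1, some (φ s)) := by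
  rw [jm, prod_image fun _ _ _ _ e => (Prod.ext_iff.1 e).1]
  exact prod_lb μ φ fun j o => Z (j, o)

theorem ec_jm (μ : Mn S r A) (φ : Slt S r A b μ → J) : EC (jS S J) (jq S r b J) A (jm μ φ) := by
  refine ⟨fun a ha => ?_, fun a ha => ?_, fun v hv => ?_, fun v hv a ha a' ha' h1 h2 => ?_⟩
  · obtain ⟨h1, h2⟩ := mem_jm.1 ha
    refine mem_jq.2 ⟨μ.2.sub h1, fun h3 h4 => ?_, fun h3 => h2.trans (lb_neg _ _ h3)⟩
    rw [h3, lb, dif_pos (mem_inter.2 ⟨h1, h4⟩)] at h2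
    exact absurd h2 (by simp)
  · exact MS.mem_sts.2 (MS.mem_sts (S := S).1 (μ.2.mee (mem_jm.1 ha).1))
  · obtain ⟨j, hj, h⟩ := μ.2.cov v hv
    exact ⟨(j, lb μ φ j), mem_jm.2 ⟨hj, rfl⟩, h⟩
  · have e := μ.2.uni v hv _ (mem_jm.1 ha).1 _ (mem_jm.1 ha').1 h1 h2
    exact Prod.ext e (by rw [(mem_jm.1 ha).2, (mem_jm.1 ha').2, e])

theorem ec_eq_jm {ν : Finset (ι × Option J)} (h : EC (jS S J) (jq S r b J) A ν) :
    ∃ (μ : Mn S r A) (φ : Slt S r A b μ → J), ν = jm μ φ := by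
  let μ : Mn S r A := ⟨ν.image Prod.fst, fun j hj => by
      obtain ⟨a, ha, rfl⟩ := mem_image.1 hj
      exact (mem_jq.1 (h.sub ha)).1,
    fun j hj => by
      obtain ⟨a, ha, rfl⟩ := mem_image.1 hj
      exact MS.mem_sts.2 (MS.mem_sts (S := jS S J).1 (h.mee ha)),
    fun v hv => by
      obtain ⟨a, ha, h2⟩ := h.cov v hv
      exact ⟨a.1, mem_image_of_mem _ ha, h2⟩,
    fun v hv j hj j' hj' h1 h2 => by
      obtain ⟨a, ha, rfl⟩ := mem_image.1 hj
      obtain ⟨a', ha', rfl⟩ := mem_image.1 hj'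
      rw [h.uni v hv a ha a' ha' h1 h2]⟩
  have h1 : ∀ s : Slt S r A b μ, ∃ σ, (s.1, some σ) ∈ ν := by
    rintro ⟨j, hj⟩
    obtain ⟨⟨k, o⟩, ha, rfl⟩ := mem_image.1 (mem_inter.1 hj).1
    cases o with
    | none => exact absurd (mem_inter.1 hj).2 ((mem_jq.1 (h.sub ha)).2.1 rfl)
    | some σ => exact ⟨σ, ha⟩
  choose φ hφ using h1
  refine ⟨μ, φ, ((ec_jm μ φ).eq_of_sub h fun a ha => ?_).symm⟩
  obtain ⟨h2, h3⟩ := mem_jm.1 ha
  by_cases hb : a.1 ∈ S.st b
  · have := hφ ⟨a.1, mem_inter.2 ⟨h2, hb⟩⟩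
    rw [← lb_pos μ φ, ← h3] at this
    exact this
  · obtain ⟨a', ha', e⟩ := mem_image.1 h2
    have h4 := (mem_jq.1 (h.sub ha')).2.2 (e ▸ hb)
    rw [lb_neg _ _ hb] at h3
    rwa [show a = a' from Prod.ext e.symm (h3.trans h4.symm)]

/-- the form with given coefficients -/
def ev (I : JF (Slt S r A b) J ℝ) (Z : ι × Option J → ℝ) : ℝ :=
  ∑ μ, ∑ φ, I μ φ * ∏ a ∈ jm μ φ, Z a

/-- the coefficients of a form -/
def cf (S : MS V ι) (r : Finset ι) (A : Finset V) (b : V) (F : (ι × Option J → ℝ) → ℝ) :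
    JF (Slt S r A b) J ℝ := fun μ φ => F (one (jm μ φ))

theorem fm_ev (I : JF (Slt S r A b) J ℝ) : Fm (jS S J) (jq S r b J) A (ev I) :=
  Fm.sum _ fun μ _ => Fm.sum _ fun φ _ => (ec_jm μ φ).fm_prod.smul _

theorem cf_ev (I : JF (Slt S r A b) J ℝ) : cf S r A b (ev I) = I := by
  funext μ φ
  simp only [cf, ev, prod_one]
  have key : ∀ (μ' : Mn S r A) (φ' : Slt S r A b μ' → J), jm μ' φ' ⊆ jm μ φ → μ' = μ :=
    fun μ' φ' h => Subtype.ext (μ'.2.eq_of_sub μ.2 fun j hj =>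
      (mem_jm.1 (h (mem_jm (a := (j, lb μ' φ' j)).2 ⟨hj, rfl⟩))).1)
  rw [sum_eq_single μ, sum_eq_single φ]
  · simp
  · intro φ' _ h
    rw [if_neg, mul_zero]
    intro h2
    refine h (funext fun s => ?_)
    have := (mem_jm.1 (h2 (mem_jm (a := (s.1, lb μ φ' s)).2 ⟨(mem_inter.1 s.2).1, rfl⟩))).2
    simpa only [lb_pos, Option.some.injEq] using this
  · simp
  · intro μ' _ h
    exact sum_eq_zero fun φ' _ => by rw [if_neg fun h2 => h (key _ _ h2), mul_zero]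
  · simp

theorem ev_cf (hr : r ⊆ S.sts A) {F : (ι × Option J → ℝ) → ℝ}
    (hF : Fm (jS S J) (jq S r b J) A F) (Z : ι × Option J → ℝ) : ev (cf S r A b F) Z = F Z := by
  refine (sub_eq_zero.1 (zero_of_ec _ A (jq S r b J) _ le_rfl (fun a ha => ?_)
    (hF.sub (fm_ev (cf S r A b F))) (fun ν hν => ?_) Z)).symm
  · exact MS.mem_sts.2 (MS.mem_sts (S := S).1 (hr (mem_jq.1 ha).1))
  · obtain ⟨μ, φ, rfl⟩ := ec_eq_jm hν
    exact sub_eq_zero.2 (congrFun (congrFun (cf_ev (cf S r A b F)) μ) φ).symm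

theorem ev_add (I I' : JF (Slt S r A b) J ℝ) (Z : ι × Option J → ℝ) :
    ev (I + I') Z = ev I Z + ev I' Z := by
  simp only [ev, Pi.add_apply, add_mul, sum_add_distrib]

theorem ev_sub' (I I' : JF (Slt S r A b) J ℝ) (Z : ι × Option J → ℝ) :
    ev (I - I') Z = ev I Z - ev I' Z := by
  simp only [ev, Pi.sub_apply, sub_mul, sum_sub_distrib]

theorem ev_smul (c : ℝ) (I : JF (Slt S r A b) J ℝ) (Z : ι × Option J → ℝ) :
    ev (c • I) Z = c * ev I Z := by
  simp only [ev, Pi.smul_apply, smul_eq_mul, mul_sum, mul_assoc]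

/-- the real form of an integer form -/
def rc {Mon : Type} {Sl : Mon → Type} (I : JF Sl J ℤ) : JF Sl J ℝ := fun μ φ => I μ φ

theorem intV_ev (I : JF (Slt S r A b) J ℤ) : IntV (ev (rc I)) := fun z =>
  ⟨∑ μ, ∑ φ, I μ φ * ∏ a ∈ jm μ φ, z a, by simp [ev, rc, toR]⟩

omit [Fintype J] in
theorem IntV.exists_cf {F : (ι × Option J → ℝ) → ℝ} (h : IntV F) :
    ∃ I : JF (Slt S r A b) J ℤ, rc I = cf S r A b F := by
  have : ∀ (μ : Mn S r A) (φ : Slt S r A b μ → J), ∃ n : ℤ, (n : ℝ) = F (one (jm μ φ)) := by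
    intro μ φ
    obtain ⟨n, hn⟩ := h fun a => if a ∈ jm μ φ then 1 else 0
    refine ⟨n, hn.symm.trans (congrArg F (funext fun a => ?_))⟩
    simp only [toR, one]
    split_ifs <;> simp
  choose I hI using this
  exact ⟨I, funext fun μ => funext fun φ => hI μ φ⟩

/-- integer combinations of the copies -/
def nm (n : J' → J → ℤ) (Z : ι × Option J → ℝ) (a : ι × Option J') : ℝ :=
  match a.2 with
  | none => Z (a.1, none)
  | some σ' => ∑ σ, n σ' σ * Z (a.1, some σ)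

theorem ev_sub (n : J' → J → ℤ) (I : JF (Slt S r A b) J' ℝ) (Z : ι × Option J → ℝ) :
    ev (sub n I) Z = ev I (nm n Z) := by
  refine sum_congr rfl fun μ _ => ?_
  simp only [prod_jm, sub, sub1, nm, sum_mul]
  rw [sum_comm]
  refine sum_congr rfl fun φ' _ => ?_
  rw [prod_univ_sum, Fintype.piFinset_univ, mul_sum, mul_sum]
  refine sum_congr rfl fun φ _ => ?_
  rw [prod_mul_distrib]
  ring

omit [Fintype J] [DecidableEq J] [DecidableEq J'] in
theorem rc_sub {Mon : Type} {Sl : Mon → Type} [∀ μ, Fintype (Sl μ)] [∀ μ, DecidableEq (Sl μ)]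
    (n : J' → J → ℤ) (I : JF Sl J' ℤ) : rc (sub n I) = sub n (rc I) := by
  funext μ φ
  simp [rc, sub, sub1]

theorem abs_ev_le {I : JF (Slt S r A b) J ℝ} {M c : ℝ} (hI : Bd M I) (hM : 0 ≤ M) (hc : 1 ≤ c)
    (hJ : 1 ≤ Fintype.card J) {Z : ι × Option J → ℝ} (hZ : ∀ a ∈ jq S r b J, |Z a| ≤ c) :
    |ev I Z| ≤ (r.card * Fintype.card J * c) ^ A.card * M := by
  have h1 : ∀ (μ : Mn S r A) (φ : Slt S r A b μ → J),
      |I μ φ * ∏ a ∈ jm μ φ, Z a| ≤ M * c ^ A.card := by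
    intro μ φ
    rw [abs_mul, abs_prod]
    refine mul_le_mul (hI μ φ) ?_ (prod_nonneg fun _ _ => abs_nonneg _) hM
    refine (prod_le_prod (fun _ _ => abs_nonneg _) fun a ha => hZ a ((ec_jm μ φ).sub ha)).trans ?_
    rw [prod_const]
    exact pow_le_pow_right₀ hc (ec_jm μ φ).card_le
  have h2 : ∀ μ : Mn S r A, |∑ φ, I μ φ * ∏ a ∈ jm μ φ, Z a| ≤
      (Fintype.card J : ℝ) ^ A.card * (M * c ^ A.card) := by
    intro μ
    refine (abs_sum_le_sum_abs _ _).trans ((sum_le_sum fun φ _ => h1 μ φ).trans ?_)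
    rw [sum_const, card_univ, Fintype.card_fun, nsmul_eq_mul]
    refine mul_le_mul_of_nonneg_right ?_ (by positivity)
    exact_mod_cast Nat.pow_le_pow_right hJ (card_slt μ)
  refine (abs_sum_le_sum_abs _ _).trans ((sum_le_sum fun μ _ => h2 μ).trans ?_)
  rw [sum_const, card_univ, nsmul_eq_mul, mul_pow, mul_pow]
  have h3 : (Fintype.card (Mn S r A) : ℝ) ≤ (r.card : ℝ) ^ A.card := by exact_mod_cast card_mn
  calc _ ≤ (r.card : ℝ) ^ A.card * ((Fintype.card J : ℝ) ^ A.card * (M * c ^ A.card)) :=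
        mul_le_mul_of_nonneg_right h3 (by positivity)
    _ = _ := by ring

end

end Vale.Agent.P057GA
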