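import Vale.Agent.P057GA.Cht
import Vale.Agent.P057QP.Peel

/-!
Means over the fibres of systems of copies; the chart on a good fibre.
-/

set_option linter.all false

open Matrix Finset Real
open Vale.Agent.P267.H775 Vale.Agent.P057G Vale.Agent.P057MA Vale.Agent.P057PI Vale.Agent.P057HU
open Vale.Agent.P057T1 (NF UF pr cq q4 a4)
open Vale.Agent.P057IV (Ty Nr Chart CH OnP jt b4 b2 rel den)

namespace Vale.Agent.P057GA

noncomputable section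

theorem ind_T1 (p : Prop) : P057T1.ind p = ind p := rfl

theorem tsum_cons {A : Type} {n : ℕ} {w : Fin (n + 1) → A → ℝ} (h : ∀ c, Wt (w c))
    {F : (Fin (n + 1) → A) → ℝ} (hF : ∀ x, |F x| ≤ 1) :
    ∑' x : Fin (n + 1) → A, (∏ c, w c (x c)) * F x =
      ∑' a, w 0 a * ∑' x : Fin n → A, (∏ c : Fin n, w c.succ (x c)) * F (Fin.cons a x) := by
  rw [← (h 0).fub (wt_pi fun c : Fin n => h c.succ).1 (F := fun p => F (Fin.cons p.1 p.2))
    (fun _ => hF _), ← (Fin.consEquiv fun _ : Fin (n + 1) => A).tsum_eq]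
  refine tsum_congr fun p => ?_
  rw [Fin.prod_univ_succ]
  rfl

theorem pi4_02 {A : Type} {w : Fin 4 → A → ℝ} (h : ∀ c, Wt (w c)) {F : A → A → ℝ}
    (hF : ∀ a a', |F a a'| ≤ 1) : ∑' x : Fin 4 → A, (∏ c, w c (x c)) * F (x 0) (x 2) =
      (∑' a, w 1 a) * (∑' a, w 3 a) * ∑' o, w 0 o * ∑' a, w 2 a * F o a := by
  rw [tsum_cons h fun _ => hF _ _, ← tsum_mul_left]
  refine tsum_congr fun o => ?_
  rw [tsum_cons (fun c => h _) fun _ => hF _ _]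
  have e : ∀ t : A, ∑' x : Fin 2 → A, (∏ c : Fin 2, w c.succ.succ (x c)) *
      F ((Fin.cons o (Fin.cons t x : Fin 3 → A) : Fin 4 → A) 0)
        ((Fin.cons o (Fin.cons t x : Fin 3 → A) : Fin 4 → A) 2) =
      (∑' a, w 2 a * F o a) * ∑' a, w 3 a := by
    intro t
    rw [← tsum_mul_right, tsum_cons (fun c => h _) fun _ => hF _ _]
    refine tsum_congr fun a => ?_
    show w 2 a * ∑' x : Fin 1 → A, (∏ c : Fin 1, w c.succ.succ.succ (x c)) * F o a = _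
    rw [tsum_mul_right, (wt_pi fun c : Fin 1 => h c.succ.succ.succ).2, Fin.prod_univ_one]
    show w 2 a * ((∑' a, w 3 a) * _) = _
    ring
  simp only [e]
  rw [tsum_mul_right]
  show _ * ((∑' a, w 1 a) * _) = _
  ring

theorem mk_good {Ω : Type} {w p m d : Ω → ℝ} {P M D W δ η : ℝ} (w0 : ∀ y, 0 ≤ w y)
    (hP : HasSum (fun y => w y * p y) P) (hM : HasSum (fun y => w y * m y) M)
    (hD : HasSum (fun y => w y * d y) D) (hW : HasSum w W) (h1 : ∀ y, p y ≤ m y)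
    (h2 : ∀ y, 1 ≤ m y) (h3 : ∀ y, 0 ≤ d y) (hδ : 0 ≤ δ) (hη : 0 < η) :
    P - δ * W - 2 * (M - W) - 2 / η * D ≤ 2 * ∑' y, w y * ind (δ ≤ p y ∧ m y ≤ 2 ∧ d y ≤ η) := by
  refine hasSum_le (fun y => ?_) (((hP.sub (hW.mul_left δ)).sub ((hM.sub hW).mul_left 2)).sub
    (hD.mul_left (2 / η))) ((Wt.summ ⟨w0, hW.summable⟩ fun _ => abs_ind _).hasSum.mul_left 2)
  have key : p y - δ - 2 * (m y - 1) - 2 / η * d y ≤ 2 * ind (δ ≤ p y ∧ m y ≤ 2 ∧ d y ≤ η) := by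
    have c1 : 0 ≤ 2 / η * d y := mul_nonneg (by positivity) (h3 y)
    have := h1 y
    have := h2 y
    unfold ind
    split_ifs with h
    · linarith [h.2.1]
    · by_cases a : δ ≤ p y
      · by_cases b : m y ≤ 2
        · have c : η < d y := lt_of_not_ge fun hb => h ⟨a, b, hb⟩
          have : 2 ≤ 2 / η * d y := by
            rw [div_mul_eq_mul_div, le_div_iff₀ hη]
            linarith
          linarith
        · linarith [lt_of_not_ge b]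
      · linarith [lt_of_not_ge a]
  nlinarith [mul_le_mul_of_nonneg_left key (w0 y)]

variable {V ι C : Type} [DecidableEq V] [Fintype V] [DecidableEq ι] [Fintype ι] [DecidableEq C]
  [Fintype C] {S : MS V ι} {B : Finset V} {b : V} {c0 : C}

/-- the normalised mean over the copies of a fibre -/
def fm (S : MS V ι) (c0 : C) (r : Finset ι) (b : V) (σ : C → ℝ) (g : (BI S.fc c0 → ℤ) → ℝ)
    (y : ι → ℤ) : ℝ :=
  (∑' x : C → ↥(r ∩ S.st b) → ℤ, (∏ c, gs (σ c ^ 2 • S.fg r b (toR y)) (toR (x c))) *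
    g (asmC S c0 r b y x)) / ∏ c, vol (σ c ^ 2 • S.fg r b (toR y))

theorem fm_sum (h : S.Ok) (hc : S.Cen) {r : Finset ι} (hr : Cls S r) {s : BI S.fc c0 → ℝ}
    {σ : C → ℝ} (hs : Sc S c0 r b s σ) {g : (BI S.fc c0 → ℤ) → ℝ} (g1 : ∀ Y, |g Y| ≤ 1) :
    HasSum (fun y => S.wt (r \ S.st b) y * fm S c0 r b σ g y)
      ((∑' Y, (dup S c0 s).wt (qC S c0 r b) Y * g Y) / vl (dup S c0 s).G (qC S c0 r b) *
        vl S.G (r \ S.st b)) := by
  have k4 := cop_sum h hc hr hs g1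
  have e : ∀ y, ∏ c, vol (σ c ^ 2 • S.fg r b y) = ∏ c, vol (σ c ^ 2 • S.fg r b 0) := fun y =>
    mul_left_cancel₀ (vl_pos h.pd _).ne' (((cop_split h hs).2 y).symm.trans ((cop_split h hs).2 0))
  have p1 := vl_pos h.pd (r \ S.st b)
  rw [(cop_split h hs).2 0, div_mul_eq_mul_div, mul_comm _ (vl _ _), mul_div_mul_left _ _ p1.ne']
  exact HasSum.congr_fun (k4.div_const _) fun y => by rw [fm, e, mul_div_assoc]

theorem fm_bad (h : S.Ok) (hc : S.Cen) {q r : Finset ι} (hq : Cls S q) {A : Finset V}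
    (hr : q \ S.sts A = r) (hA : A.Nonempty) (hw : b ∉ A) {σ : C → ℝ} (hσ : ∀ c, 1 ≤ σ c)
    {K W η : ℝ} (hK : 0 ≤ K)
    (hW : (K + 1) * (Fintype.card C * q.card + 2 * A.card + 2) ≤ W) (hW' : ∀ c, σ c ≤ W)
    (hm : (nar (blow S c0) W).mass (qC S c0 q b) ≤ 1 + η) :
    ∃ D ≤ 500 * 7 ^ A.card * η * vl S.G (r \ S.st b),
      HasSum (fun y => S.wt (r \ S.st b) y * fm S c0 r b σ (fun Y =>
        ind (¬UF (nar (blow S c0) 1) (qC S c0 q b) (aC c0 A) K (toR Y))) y) D := by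
  subst hr
  exact cop_bad h hc hq hA hw hσ le_rfl hK (by rwa [one_mul]) hW' hm

theorem pd_sg (h : S.Ok) (r : Finset ι) {σ : C → ℝ} (hσ : ∀ c, 1 ≤ σ c) (y : ι → ℝ) (c : C) :
    (σ c ^ 2 • S.fg r b y).PosDef := (h.fg_pos r b y).smul (pow_pos (one_pos.trans_le (hσ c)) 2)

theorem fm_mono (h : S.Ok) {r : Finset ι} {σ : C → ℝ} (hσ : ∀ c, 1 ≤ σ c)
    {g g' : (BI S.fc c0 → ℤ) → ℝ} (g1 : ∀ Y, |g Y| ≤ 1) (g2 : ∀ Y, |g' Y| ≤ 1) (y : ι → ℤ)
    (e : ∀ x, g (asmC S c0 r b y x) ≤ g' (asmC S c0 r b y x)) :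
    fm S c0 r b σ g y ≤ fm S c0 r b σ g' y := by
  have w := (wt_pi fun c => wt_gs0 (pd_sg (b := b) h r hσ (toR y) c)).1
  exact div_le_div_of_nonneg_right (Summable.tsum_le_tsum
    (fun x => mul_le_mul_of_nonneg_left (e x) (w.1 x)) (w.summ fun _ => g1 _)
    (w.summ fun _ => g2 _)) (prod_nonneg fun c _ => (vol_pos (pd_sg h r hσ _ c)).le)

theorem fm_nonneg (h : S.Ok) {r : Finset ι} {σ : C → ℝ} (hσ : ∀ c, 1 ≤ σ c)
    {g : (BI S.fc c0 → ℤ) → ℝ} (g0 : ∀ Y, 0 ≤ g Y) (y : ι → ℤ) : 0 ≤ fm S c0 r b σ g y :=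
  div_nonneg (tsum_nonneg fun x => mul_nonneg (prod_nonneg fun _ _ => (gs_pos _ _).le) (g0 _))
    (prod_nonneg fun c _ => (vol_pos (pd_sg h r hσ _ c)).le)

theorem fm_one (h : S.Ok) {r : Finset ι} {σ : C → ℝ} (hσ : ∀ c, 1 ≤ σ c) (y : ι → ℤ) :
    fm S c0 r b σ (fun _ => 1) y = (∏ c, th (σ c ^ 2 • S.fg r b (toR y)) 0) /
      ∏ c, vol (σ c ^ 2 • S.fg r b (toR y)) := by
  simp only [fm, mul_one]
  rw [(wt_pi fun c => wt_gs0 (pd_sg (b := b) h r hσ (toR y) c)).2]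
  simp only [tsum_gs0]

theorem one_le_fm (h : S.Ok) {r : Finset ι} {σ : C → ℝ} (hσ : ∀ c, 1 ≤ σ c) (y : ι → ℤ) :
    1 ≤ fm S c0 r b σ (fun _ => 1) y := by
  rw [fm_one h hσ, one_le_div (prod_pos fun c _ => vol_pos (pd_sg h r hσ _ c))]
  exact prod_le_prod (fun c _ => (vol_pos (pd_sg h r hσ _ c)).le)
    fun c _ => vol_le_th_zero (pd_sg h r hσ _ c)

theorem sc4 {n : Type} (H : Matrix n n ℝ) {l : ℝ} (hl : 0 ≤ l) (c : Fin 4) :
    (![1, 1, √l, √l] : Fin 4 → ℝ) c ^ 2 • H = ![H, H, l • H, l • H] c := by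
  fin_cases c <;> simp [Real.sq_sqrt hl]

theorem sc8 {n : Type} (H : Matrix n n ℝ) {l : ℝ} (hl : 0 ≤ l) (c : Fin 8) :
    (![1, 1, 1, √l, √l, √l, l, l] : Fin 8 → ℝ) c ^ 2 • H =
      ![H, H, H, l • H, l • H, l • H, l ^ 2 • H, l ^ 2 • H] c := by
  fin_cases c <;> simp [Real.sq_sqrt hl]

theorem one_le8 {l : ℝ} (hl : 1 ≤ l) (c : Fin 8) :
    1 ≤ (![1, 1, 1, √l, √l, √l, l, l] : Fin 8 → ℝ) c ∧
      (![1, 1, 1, √l, √l, √l, l, l] : Fin 8 → ℝ) c ≤ l := by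
  have h1 := Real.one_le_sqrt.2 hl
  have h2 : √l ≤ l := Real.sqrt_le_iff.2 ⟨by linarith, by nlinarith⟩
  fin_cases c <;> simp [*]

theorem le4 {l : ℝ} (hl : 1 ≤ l) (c : Fin 4) : (![1, 1, √l, √l] : Fin 4 → ℝ) c ^ 2 ≤ l := by
  fin_cases c <;> simp [Real.sq_sqrt (show 0 ≤ l by linarith), hl]

theorem fce_jt {A : Finset V} (hb : b ∈ B) (hA : b ∉ A) (lam : ℝ) :
    fce (jt S b lam) (a4 A ∪ b4 B b) = qC S 0 (fce S (A ∪ B)) b := by
  refine Eq.trans ?_ (P057QP.fce_b4 (mem_union_right A hb) lam)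
  congr 1
  rw [b4, b4, ← union_assoc, erase_union_distrib, erase_eq_of_notMem hA, a4, a4, a4, image_union]

/-- the statement on one fibre -/
def PF (X : ℝ) : Prop := ∀ (n Mon : Type) [Fintype n] [DecidableEq n]
    [Fintype Mon] (Sl : Mon → Type) [∀ μ, Fintype (Sl μ)] [∀ μ, DecidableEq (Sl μ)]
    (e : Emb Sl (n → ℤ)) (H : Matrix n n ℝ) (ψ1 ψ2 ψ3 ψ4 : (n → ℤ) → Mon → ℝ)
    (U : (n → ℤ) → Prop) (K M l lam : ℝ) (d : ℕ), H.PosDef → th H 0 ≤ 2 * vol H →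
    (Fintype.card n : ℝ) ≤ Real.exp X → (Fintype.card Mon : ℝ) ≤ Real.exp X →
    (∀ μ, Fintype.card (Sl μ) ≤ d) → (d : ℝ) ≤ X → 0 < M → Real.exp (X ^ 5) * M ≤ K →
    Real.exp (X ^ 3) ≤ l → Real.exp (X ^ 5) * l ^ 2 ≤ lam →
    ∑' z : Fin 8 → n → ℤ, (∏ c, gs (![H, H, H, l • H, l • H, l • H, l ^ 2 • H, l ^ 2 • H] c)
      (toR (z c))) * ind (¬e.Rig K z) ≤ Real.exp (-X ^ 2) *
        ∏ c, th (![H, H, H, l • H, l • H, l • H, l ^ 2 • H, l ^ 2 • H] c) 0 →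
    Real.exp (-X) * ∏ c, th (![H, H, l • H, l • H] c) 0 ≤
      ∑' x : Fin 4 → n → ℤ, (∏ c, gs (![H, H, l • H, l • H] c) (toR (x c))) *
        ind (U (x 0 + x 2) ∧ e.Q4 ψ1 ψ2 ψ3 ψ4 M (x 0) (x 1) (x 2) (x 3)) →
    ∃ P : (n → ℤ) → (n → ℤ) → Prop, (∀ o z, P o z → U z) ∧
      (∀ o, e.Loc ψ1 (X ^ 14) (Real.exp (X ^ 5) * M) (P o)) ∧
      Real.exp (-X ^ 19) * (vol H * th (lam • H) 0) ≤
        ∑' o, gs H (toR o) * ∑' a, gs (lam • H) (toR a) * ind (P o (o + a))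

theorem pieceF' : ∃ X0 : ℝ, ∀ X : ℝ, X0 ≤ X → PF X := pieceF

variable {κ : Type} [Fintype κ] {ty : κ → Finset V} {c : ℝ} {R M : Matrix ι ι ℝ}

theorem card_mon : (Fintype.card (Σ r, Mn S (fce S (ty r ∪ B) ∩ S.sts (ty r)) (ty r)) : ℝ) ≤
    Fintype.card κ * (Fintype.card ι + 1) ^ Fintype.card V := by
  rw [Fintype.card_sigma]
  push_cast
  refine (sum_le_sum fun r _ => ?_).trans (le_of_eq (by rw [sum_const, card_univ, nsmul_eq_mul]))
  have h1 : Fintype.card (Mn S (fce S (ty r ∪ B) ∩ S.sts (ty r)) (ty r)) ≤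
      (Fintype.card ι + 1) ^ Fintype.card V :=
    card_mn.trans ((Nat.pow_le_pow_left ((card_le_univ _).trans (Nat.le_succ _)) _).trans
      (Nat.pow_le_pow_right (Nat.succ_pos _) (card_le_univ _)))
  exact_mod_cast h1

/-- the chart on a good fibre -/
theorem fib_step {X : ℝ} (hF : PF X) (h : S.Ok) (hc : S.Cen) (w : Wh S c R M) (h1 : 1 ≤ c)
    (hb : b ∈ B) (hty : ∀ r, Disjoint (ty r) B) {ψ : Fin 4 → κ → (ι → ℝ) → ℝ}
    (hψ : ∀ j r, Ty S (ty r) B (ψ j r)) {U : (ι → ℝ) → Prop} (hU : OnP (fce S B) U)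
    {K' M0 l lam : ℝ} (hι : (Fintype.card ι : ℝ) ≤ exp X)
    (hκ : (Fintype.card κ : ℝ) * (Fintype.card ι + 1) ^ Fintype.card V ≤ exp X)
    (hV : (Fintype.card V : ℝ) ≤ X) (hM : 0 < M0) (hl : exp (X ^ 3) ≤ l) (hl1 : 1 ≤ l)
    (hlam : exp (X ^ 5) * l ^ 2 ≤ lam) (hA : l * Fintype.card V ≤ c ^ 2)
    (hK : ∀ r, (((fce S (ty r ∪ B) ∩ S.sts (ty r)).card : ℝ) * (7 + 1 : ℕ) * c) ^ (ty r).card *
      (exp (X ^ 5) * M0) ≤ K') (y : ι → ℤ)
    (g1 : 2 * exp (-X) ≤ fm S 0 (fce S B) b ![1, 1, √l, √l] (fun W => ind (U (pr S b 0 2 (toR W)) ∧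
      ∀ r, Nr (jt S b l) (a4 (ty r)) (b4 B b) (rel S b fun j => ψ j r) M0 (toR W))) y)
    (g2 : fm S 0 (fce S B) b ![1, 1, √l, √l] (fun _ => 1) y ≤ 2)
    (g3 : ∑ r, fm S 0 (fce S B) b ![1, 1, 1, √l, √l, √l, l, l] (fun W => ind (¬UF (nar (blow S 0) 1)
      (qC S 0 (fce S (ty r ∪ B)) b) (aC 0 (ty r)) K' (toR W))) y ≤ exp (-X ^ 2)) :
    ∃ P : (↥(fce S B ∩ S.st b) → ℤ) → (↥(fce S B ∩ S.st b) → ℤ) → Prop,
      (∀ o z, P o z → U (toR (put _ z y))) ∧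
      (∀ o, (embS h hc w B b ty (toR y)).Loc (cS S M B b ty (toR y) (ψ 0)) (X ^ 14)
        (exp (X ^ 5) * M0) (P o)) ∧
      exp (-X ^ 19) * (vol (S.fg (fce S B) b (toR y)) * th (lam • S.fg (fce S B) b (toR y)) 0) ≤
        ∑' o, gs (S.fg (fce S B) b (toR y)) (toR o) *
          ∑' a, gs (lam • S.fg (fce S B) b (toR y)) (toR a) * ind (P o (o + a)) := by
  have hb' : ∀ r, b ∉ ty r := fun r a => disjoint_left.1 (hty r) a hb
  have l0 : 0 ≤ l := by linarith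
  have s4 := P057QP.one_le_sig hl1
  have s8 := fun c => (one_le8 hl1 c).1
  have p4 := pd_sg (b := b) h (fce S B) s4 (toR y)
  have p8 := pd_sg (b := b) h (fce S B) s8 (toR y)
  have v4 := prod_pos fun c (_ : c ∈ univ) => vol_pos (p4 c)
  have v8 := prod_pos fun c (_ : c ∈ univ) => vol_pos (p8 c)
  rw [fm_one h s4, div_le_iff₀ v4] at g2
  rw [fm, le_div_iff₀ v4] at g1
  simp only [fm] at g3
  rw [← sum_div, div_le_iff₀ v8] at g3
  have w4 := (wt_pi fun c => wt_gs0 (p4 c)).1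
  have w8 := (wt_pi fun c => wt_gs0 (p8 c)).1
  have hH := h.fg_pos (fce S B) b (toR y)
  refine hF _ _ _ (embS h hc w B b ty (toR y)) _ _ (cS S M B b ty (toR y) (ψ 1))
    (cS S M B b ty (toR y) (ψ 2)) (cS S M B b ty (toR y) (ψ 3)) (fun z => U (toR (put _ z y)))
    (exp (X ^ 5) * M0) M0 l lam (Fintype.card V) hH ?_
    (le_trans (by exact_mod_cast Fintype.card_subtype_le _) hι) (card_mon.trans hκ)
    (fun μ => (card_slt μ.2).trans (card_le_univ _)) hV hM le_rfl hl hlam ?_ ?_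
  · have t := fun c => vol_le_th_zero (p4 c)
    have t' := fun c => vol_pos (p4 c)
    have u := mul_le_mul (mul_le_mul (t 1) (t 2) (t' 2).le ((t' 1).le.trans (t 1))) (t 3) (t' 3).le
      (mul_nonneg ((t' 1).le.trans (t 1)) ((t' 2).le.trans (t 2)))
    rw [Fin.prod_univ_four, Fin.prod_univ_four, sc4 _ l0 0] at g2
    refine le_of_mul_le_mul_right ?_ (mul_pos (mul_pos (t' 1) (t' 2)) (t' 3))
    refine (mul_le_mul_of_nonneg_left u (th_pos hH 0).le).trans ?_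
    simp only [mul_assoc] at g2 ⊢
    exact g2
  · simp only [← sc8 _ l0]
    refine le_trans ?_ (g3.trans (mul_le_mul_of_nonneg_left (prod_le_prod
      (fun c _ => (vol_pos (p8 c)).le) fun c _ => vol_le_th_zero (p8 c)) (exp_pos _).le))
    rw [← Summable.tsum_finsetSum fun r _ => w8.summ fun _ => abs_ind _]
    refine Summable.tsum_le_tsum (fun x => ?_) (w8.summ fun _ => abs_ind _)
      (summable_sum fun r _ => w8.summ fun _ => abs_ind _)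
    rw [← mul_sum]
    refine mul_le_mul_of_nonneg_left ?_ (w8.1 x)
    by_cases hx : ∀ r, UF (nar (blow S 0) 1) (qC S 0 (fce S (ty r ∪ B)) b) (aC 0 (ty r)) K'
      (toR (asmC S 0 (fce S B) b y x))
    · have : (embS h hc w B b ty (toR y)).Rig (exp (X ^ 5) * M0) x :=
        Emb.rig_sigma fun r => rig_of_uf h hc (cls_fce _ _) (hb' r) w
          (fce_out (hty r)) y x h1 (by positivity) (hK r) (hx r)
      rw [ind, if_neg (not_not.2 this)]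
      exact sum_nonneg fun _ _ => ind_nonneg _
    · obtain ⟨r, hr⟩ := not_forall.1 hx
      refine (ind_le_one _).trans (le_trans ?_ (single_le_sum (fun _ _ => ind_nonneg _) (mem_univ r)))
      rw [ind, if_pos hr]
  · simp only [← sc4 _ l0]
    refine le_trans (b := 2 * exp (-X) * ∏ c, vol _) ?_ (g1.trans (Summable.tsum_le_tsum
      (fun x => mul_le_mul_of_nonneg_left (ind_mono fun hx => ⟨?_, ?_⟩) (w4.1 x))
      (w4.summ fun _ => abs_ind _) (w4.summ fun _ => abs_ind _)))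
    · nlinarith [mul_le_mul_of_nonneg_left g2 (exp_pos (-X)).le]
    · exact hU _ _ (fun j hj => (P057QP.pr_asm b y x 0 2 hj).symm) hx.1
    · refine Emb.q4_sigma (ψ := fun j r z => c1 S (fce S (ty r ∪ B)) (ty r) b M (toR y) (xr _ z)
        (ψ j r)) fun r => q4_of_nf h hc (cls_fce _ _) (hb' r) w (fce_out (hty r)) y x
          (sc_sg _ b s4) hl1 (le4 hl1) (by linarith) (le_trans (mul_le_mul_of_nonneg_left
            (by exact_mod_cast card_le_univ _) l0) hA) (fun j => hψ j r) ?_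
      have := hx.2 r
      rw [Nr, fce_jt hb (hb' r)] at this
      exact this

end

end Vale.Agent.P057GA
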