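import Vale.Agent.P057GA.Mkv
import Vale.Agent.P057IV.Plan

/-!
From many relations along parallelograms to local charts.
-/

set_option linter.all false

open Matrix Finset Real
open Vale.Agent.P267.H775 Vale.Agent.P057G Vale.Agent.P057MA Vale.Agent.P057PI Vale.Agent.P057HU
open Vale.Agent.P057T1 (NF UF pr cq q4 a4 mem_q4 cq_st cq_out)
open Vale.Agent.P057IV (Ty Nr Chart CH OnP jt b4 b2 rel den Mg PIECE)

namespace Vale.Agent.P057GA

noncomputable section

theorem pow_exp {x a : ℝ} {n N : ℕ} (h0 : 0 ≤ x) (h : x ≤ exp a) (ha : 0 ≤ a) (hn : n ≤ N) :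
    x ^ n ≤ exp (N * a) := by
  refine (pow_le_pow_left₀ h0 h n).trans ?_
  rw [← exp_nat_mul, exp_le_exp]
  exact mul_le_mul_of_nonneg_right (by exact_mod_cast hn) ha

theorem mul_exp {x y a b : ℝ} (hy : 0 ≤ y) (h : x ≤ exp a) (h' : y ≤ exp b) :
    x * y ≤ exp (a + b) := by
  rw [exp_add]
  exact mul_le_mul h h' hy (exp_pos _).le

/-- the parameters -/
structure Nm (N : ℕ) (X Y T : ℝ) : Prop where
  x : 1000 ≤ X
  y : 2 ≤ Y
  n : (4 * N + 10) * Y ≤ X
  t : X ^ 20 ≤ T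

namespace Nm

variable {N : ℕ} {X Y T : ℝ} (h : Nm N X Y T)
include h

theorem pw {k : ℕ} (hk : k ≤ 19) : 1000 * X ^ k ≤ T := by
  refine le_trans ?_ h.t
  rw [show (20 : ℕ) = 19 + 1 from rfl, pow_succ, mul_comm]
  exact mul_le_mul (pow_le_pow_right₀ (by linarith [h.x]) hk) h.x (by norm_num)
    (pow_nonneg (by linarith [h.x]) _)

theorem yx : 10 * Y ≤ X := by
  nlinarith [h.n, h.y, (Nat.cast_nonneg N : (0 : ℝ) ≤ N)]

theorem nx : 8 * (N : ℝ) + 20 ≤ X := by
  nlinarith [h.n, h.y, (Nat.cast_nonneg N : (0 : ℝ) ≤ N)]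

theorem xt : 1000 * X ≤ T := by simpa using h.pw (k := 1) (by norm_num)

theorem mon {D k : ℝ} (hD0 : 0 ≤ D) (hD : D ≤ exp Y) (hk : k ≤ Y) : k * (D + 1) ^ N ≤ exp X := by
  have y := h.y
  have a1 : D + 1 ≤ exp (Y + 1) := by
    rw [exp_add]
    nlinarith [add_one_le_exp 1, add_one_le_exp Y]
  refine (mul_exp (by positivity) (le_exp Y (by linarith)) (pow_exp (by positivity) a1
    (by linarith) le_rfl)).trans (exp_le_exp.2 ?_)
  nlinarith [h.n, (Nat.cast_nonneg N : (0 : ℝ) ≤ N)]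

theorem big {D e : ℝ} {n : ℕ} (hD0 : 0 ≤ D) (hD : D ≤ exp Y) (he0 : 0 ≤ e) (he : e ≤ 8)
    (hn : n ≤ N) : (D * e * ((N + 1) * exp T)) ^ n * (exp (X ^ 5) * exp Y) ≤
      exp ((4 * N + 2) * T) := by
  have a := h.xt
  have a1 := h.yx
  have a2 := h.nx
  have a3 := h.pw (k := 5) (by norm_num)
  have x := h.x
  have y := h.y
  have n0 : (0 : ℝ) ≤ N := Nat.cast_nonneg N
  have b1 := mul_exp (by positivity) (mul_exp he0 (hD.trans (exp_le_exp.2 (by linarith : Y ≤ T)))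
    (le_exp T (by linarith))) (mul_exp (exp_pos T).le (le_exp (a := N + 1) T (by linarith)) le_rfl)
  refine (mul_exp (by positivity) (pow_exp (by positivity) b1 (by linarith) hn)
    (mul_exp (exp_pos _).le le_rfl le_rfl)).trans (exp_le_exp.2 ?_)
  nlinarith [pow_pos (show 0 < X by linarith) 5]

theorem sq : (4 * N + 6) * T ≤ T ^ 2 := by
  nlinarith [h.xt, h.nx, h.x, (Nat.cast_nonneg N : (0 : ℝ) ≤ N)]

theorem wid {D : ℝ} {n : ℕ} (hD0 : 0 ≤ D) (hD : D ≤ exp Y) (hn : n ≤ N) :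
    (exp ((4 * N + 2) * T) + 1) * (8 * D + 2 * n + 2) ≤ exp (T ^ 2) := by
  have a := h.xt
  have a1 := h.yx
  have a2 := h.nx
  have x := h.x
  have n0 : (0 : ℝ) ≤ N := Nat.cast_nonneg N
  have n1 : (n : ℝ) ≤ N := by exact_mod_cast hn
  have t1 := add_one_le_exp T
  have b1 : exp ((4 * N + 2) * T) + 1 ≤ exp ((4 * N + 2) * T + T) := by
    rw [exp_add]
    nlinarith [one_le_exp (x := (4 * N + 2) * T) (by nlinarith)]
  have b2 : 8 * D + 2 * n + 2 ≤ exp (T + T) := by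
    rw [exp_add]
    nlinarith [hD.trans (exp_le_exp.2 (by linarith [h.y] : Y ≤ T))]
  refine (mul_exp (by positivity) b1 b2).trans (exp_le_exp.2 ?_)
  nlinarith [h.sq]

theorem mkv {η k : ℝ} (h0 : 0 ≤ η) (hη : η ≤ exp (-T ^ 2)) (hk0 : 0 ≤ k) (hk : k ≤ Y) :
    exp (-Y) / 2 ≤ exp (-Y) - 2 * exp (-X) * 2 - 2 * η -
      2 / exp (-X ^ 2) * (k * (500 * 7 ^ N * η)) := by
  have a := h.xt
  have a1 := h.yx
  have a2 := h.nx
  have a3 := h.pw (k := 2) (by norm_num)
  have x := h.x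
  have y := h.y
  have n0 : (0 : ℝ) ≤ N := Nat.cast_nonneg N
  have s := h.sq
  have e : ∀ u, u + 15 ≤ -Y → exp u ≤ exp (-Y) / 16 := fun u hu => by
    rw [le_div_iff₀ (by norm_num)]
    exact (mul_exp (by norm_num) le_rfl (le_exp 15 (by norm_num))).trans (exp_le_exp.2 hu)
  have b1 := e (-X) (by linarith)
  have b2 := hη.trans (e (-T ^ 2) (by nlinarith))
  have b3 : 2 / exp (-X ^ 2) * (k * (500 * 7 ^ N * η)) ≤ exp (-Y) / 16 := by
    rw [Real.exp_neg (X ^ 2), div_inv_eq_mul]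
    refine (mul_exp (by positivity) (mul_exp (exp_pos _).le (le_exp 1 (by norm_num)) le_rfl)
      (mul_exp (by positivity) (le_exp Y (by linarith)) (mul_exp h0 (mul_exp (by positivity)
        (le_exp 499 (by norm_num)) (pow_exp (by norm_num) (le_exp 6 (by norm_num)) (by norm_num)
          le_rfl)) hη))).trans (e _ ?_)
    nlinarith
  linarith [exp_pos (-Y)]

theorem fin {η : ℝ} (hη : η ≤ exp (-T ^ 2)) :
    exp (-T ^ 2) ≤ exp (-X ^ 19) * (exp (-Y) / 4) - η := by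
  have a := h.xt
  have a1 := h.yx
  have a3 := h.pw (k := 19) le_rfl
  have x := h.x
  have b1 : exp (-T ^ 2) * 8 ≤ exp (-X ^ 19) * exp (-Y) := by
    rw [← exp_add]
    refine (mul_exp (by norm_num) le_rfl (le_exp 7 (by norm_num))).trans (exp_le_exp.2 ?_)
    nlinarith [pow_pos (show 0 < X by linarith) 19]
  linarith

end Nm

variable {V ι : Type} [DecidableEq V] [Fintype V] [DecidableEq ι] [Fintype ι]
  {S : MS V ι} {B : Finset V} {b : V}

/-- the frozen part read off from a configuration -/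
def ya (S : MS V ι) (B : Finset V) (b : V) (a : ι → ℝ) (j : ι) : ℤ :=
  if j ∈ fce S B \ S.st b then round (a j) else 0

/-- the sets of the fibres glued together -/
def gl (S : MS V ι) (B : Finset V) (b : V)
    (P : (ι → ℤ) → (↥(fce S B ∩ S.st b) → ℤ) → (↥(fce S B ∩ S.st b) → ℤ) → Prop)
    (a z : ι → ℝ) : Prop :=
  (∀ j ∈ fce S B \ S.st b, z j = ya S B b a j) ∧
    P (ya S B b a) (fun j => round (a j)) fun j => round (z j)

theorem gl_asm {P : (ι → ℤ) → (↥(fce S B ∩ S.st b) → ℤ) → (↥(fce S B ∩ S.st b) → ℤ) → Prop}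
    {y : ι → ℤ} (hy : ∀ j ∉ fce S B \ S.st b, y j = 0) (x : Fin 4 → ↥(fce S B ∩ S.st b) → ℤ)
    (h : P y (x 0) (x 0 + x 2)) : gl S B b P (toR (asmC S 0 (fce S B) b y x) ∘ cq S b 0)
      (pr S b 0 2 (toR (asmC S 0 (fce S B) b y x))) := by
  have e1 : ∀ j ∈ fce S B, (toR (asmC S 0 (fce S B) b y x) ∘ cq S b 0) j =
      (put (fce S B ∩ S.st b) (x 0) y j : ℤ) := fun j hj => congrArg Int.cast (asmC_cq b y x 0 hj)
  have e2 : ∀ j ∈ fce S B, pr S b 0 2 (toR (asmC S 0 (fce S B) b y x)) j =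
      (put (fce S B ∩ S.st b) (x 0 + x 2) y j : ℤ) := fun j hj =>
    (P057QP.pr_asm b y x 0 2 hj).symm
  have e3 : ya S B b (toR (asmC S 0 (fce S B) b y x) ∘ cq S b 0) = y := by
    funext j
    unfold ya
    split_ifs with hj
    · rw [e1 j (mem_sdiff.1 hj).1, round_intCast,
        put_neg _ _ fun a => (mem_sdiff.1 hj).2 (mem_inter.1 a).2]
    · exact (hy j hj).symm
  unfold gl
  rw [e3]
  refine ⟨fun j hj => ?_, ?_⟩
  · rw [e2 j (mem_sdiff.1 hj).1, put_neg _ _ fun a => (mem_sdiff.1 hj).2 (mem_inter.1 a).2]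
  · convert h using 1 <;> funext j
    · rw [e1 j (mem_inter.1 j.2).1, round_intCast, put_coe]
    · rw [e2 j (mem_inter.1 j.2).1, round_intCast, put_coe]

theorem cq_13 (lam : ℝ) (c : Fin 4) (j : ι) : cq S b c j ∈ (jt S b lam).sts {(b, 1), (b, 3)} ↔
    j ∈ S.st b ∧ (c = 1 ∨ c = 3) := by
  have := fun c' => cq_st (S := S) (w := b) c c' j
  simp only [MS.mem_st] at this ⊢
  simp only [MS.mem_sts, mem_insert, mem_singleton, exists_eq_or_imp, exists_eq_left]
  exact (or_congr (this 1) (this 3)).trans and_or_left.symm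

theorem q4_b2 (hb : b ∈ B) (lam : ℝ) : q4 S (fce S B) b \ (jt S b lam).sts {(b, 1), (b, 3)} =
    fce (jt S b lam) (b2 B b) := by
  have key := cq_13 (S := S) (b := b) lam
  ext i
  rw [mem_sdiff, mem_q4, P057QP.mem_fce_b2 hb]
  constructor
  · rintro ⟨⟨c, j, hj, rfl⟩, h⟩
    refine ⟨j, hj, ?_⟩
    by_cases h1 : j ∈ S.st b
    · rw [key, not_and, not_or] at h
      rcases (by decide : ∀ c : Fin 4, ¬c = 1 ∧ ¬c = 3 → c = 0 ∨ c = 2) c (h h1) with rfl | rfl
      exacts [Or.inl rfl, Or.inr rfl]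
    · exact Or.inl (cq_out h1 _ _)
  · rintro ⟨j, hj, rfl | rfl⟩
    · exact ⟨⟨0, j, hj, rfl⟩, fun a => absurd ((key _ _).1 a).2 (by decide)⟩
    · exact ⟨⟨2, j, hj, rfl⟩, fun a => absurd ((key _ _).1 a).2 (by decide)⟩

/-- the density on the system of centre and displacement -/
theorem den_b2 (h : S.Ok) (hc : S.Cen) (hb : b ∈ B) {lam η β θ : ℝ} (hl : 1 ≤ lam) (hβ : 0 ≤ β)
    (hm : (jt S b lam).mass (q4 S (fce S B) b) ≤ 1 + η)
    {P : (ι → ℤ) → (↥(fce S B ∩ S.st b) → ℤ) → (↥(fce S B ∩ S.st b) → ℤ) → Prop}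
    {Gd : (ι → ℤ) → Prop} (hG : θ * vl S.G (fce S B \ S.st b) ≤
      ∑' y, S.wt (fce S B \ S.st b) y * ind (Gd y))
    (hP : ∀ y, Gd y → β * (vol (S.fg (fce S B) b (toR y)) * th (lam • S.fg (fce S B) b (toR y)) 0) ≤
      ∑' o, gs (S.fg (fce S B) b (toR y)) (toR o) *
        ∑' a, gs (lam • S.fg (fce S B) b (toR y)) (toR a) * ind (P y o (o + a))) :
    β * θ - η ≤ den (jt S b lam) (b2 B b) fun W => gl S B b P (W ∘ cq S b 0) (pr S b 0 2 W) := by
  have s4 := P057QP.one_le_sig hl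
  have l0 : 0 ≤ lam := by linarith
  have ok := P057QP.ok_jt h b hl
  have k := (P057QP.raw_sum ok (P057QP.cen_jt hc b lam) (M := q4 S (fce S B) b)
    (P057QP.fce_b4 (S := S) hb lam ▸ (cls_fce (jt S b lam) (b4 B b)).sat ok) {(b, 1), (b, 3)} hm
    (Γ := fun W => ind (gl S B b P (toR W ∘ cq S b 0) (pr S b 0 2 (toR W))))
    (fun _ => ind_nonneg _) (fun _ => ind_le_one _) fun x y => by
      have e0 : ∀ j, toR (mix ((jt S b lam).sts {(b, 1), (b, 3)}) x y) (cq S b 0 j) =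
          toR y (cq S b 0 j) := fun j => congrArg Int.cast
        (mix_neg _ _ fun a => absurd ((cq_13 lam _ _).1 a).2 (by decide))
      have e2 : ∀ j, toR (mix ((jt S b lam).sts {(b, 1), (b, 3)}) x y) (cq S b 2 j) =
          toR y (cq S b 2 j) := fun j => congrArg Int.cast
        (mix_neg _ _ fun a => absurd ((cq_13 lam _ _).1 a).2 (by decide))
      simp only [pr, Function.comp_def, e0, e2]).2
  rw [q4_b2 hb] at k
  refine le_trans ?_ (sub_le_iff_le_add.2 k)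
  refine sub_le_sub_right ?_ _
  have p0 := vl_pos h.pd (fce S B \ S.st b)
  refine le_of_mul_le_mul_right ?_ p0
  have s1 := fm_sum h hc (cls_fce S B) (P057QP.sc_jt (fce S B) b hl)
    (g := fun W => ind (gl S B b P (toR W ∘ cq S b 0) (pr S b 0 2 (toR W)))) fun _ => abs_ind _
  rw [mul_assoc]
  refine (mul_le_mul_of_nonneg_left hG hβ).trans (hasSum_le (fun y => ?_)
    ((h.summable_re _ fun _ => abs_ind _).hasSum.mul_left β) s1)
  rw [mul_left_comm]
  by_cases hy : ∀ j ∉ fce S B \ S.st b, y j = 0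
  swap
  · rw [MS.wt, if_neg hy, zero_mul, zero_mul]
  refine mul_le_mul_of_nonneg_left ?_ (MS.wt_nonneg _ _)
  by_cases hg : Gd y
  swap
  · rw [ind, if_neg hg, mul_zero]
    exact fm_nonneg h s4 (fun _ => ind_nonneg _) y
  have p4 := pd_sg (b := b) h (fce S B) s4 (toR y)
  have w4 := (wt_pi fun c => wt_gs0 (p4 c)).1
  rw [ind, if_pos hg, mul_one, fm, le_div_iff₀ (prod_pos fun c _ => vol_pos (p4 c))]
  refine le_trans ?_ (Summable.tsum_le_tsum (fun x => mul_le_mul_of_nonneg_left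
    (ind_mono (gl_asm hy x)) (w4.1 x)) (w4.summ fun _ => abs_ind _) (w4.summ fun _ => abs_ind _))
  rw [pi4_02 (fun c => wt_gs0 (p4 c)) (F := fun o a => ind (P y o (o + a))) fun _ _ => abs_ind _,
    tsum_gs0, tsum_gs0, Fin.prod_univ_four]
  simp only [sc4 _ l0]
  have hH := h.fg_pos (fce S B) b (toR y)
  have hL := hH.smul (show 0 < lam by linarith)
  have v1 := vol_pos hH
  have v2 := vol_pos hL
  refine le_trans ?_ (mul_le_mul (mul_le_mul (vol_le_th_zero hH) (vol_le_th_zero hL) v2.le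
    (th_pos hH 0).le) ((mul_le_mul_of_nonneg_left (mul_le_mul_of_nonneg_left (vol_le_th_zero hL)
      v1.le) hβ).trans (hP y hg)) (by positivity) (mul_pos (th_pos hH 0) (th_pos hL 0)).le)
  exact le_of_eq (by show β * (vol _ * vol _ * vol _ * vol _) = _; simp; ring)

theorem exists_par (X0 : ℝ) (N : ℕ) : ∃ k : ℕ, 1 ≤ k ∧ ∀ Y T : ℝ, 2 ≤ Y → Y ^ (20 * k) ≤ T →
    X0 ≤ Y ^ k ∧ Nm N (Y ^ k) Y T := by
  obtain ⟨k, hk⟩ := pow_unbounded_of_one_lt (max X0 1000 + (4 * N + 10)) (by norm_num : (1 : ℝ) < 2)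
  refine ⟨k + 1, by omega, fun Y T hY hT => ?_⟩
  have a := pow_le_pow_left₀ (by norm_num) hY k
  have n0 : (0 : ℝ) ≤ N := Nat.cast_nonneg N
  have m1 := le_max_left X0 1000
  have m2 := le_max_right X0 1000
  have b : Y ^ k ≤ Y ^ (k + 1) := pow_le_pow_right₀ (by linarith) (by omega)
  refine ⟨by linarith, by linarith, hY, ?_, by rwa [← pow_mul, mul_comm]⟩
  rw [pow_succ]
  exact mul_le_mul_of_nonneg_right (by linarith) (by linarith)

theorem ex_em {α : Type} {g1 g2 g3 : Prop} {p1 p2 p3 : α → Prop}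
    (h1 : g1 → g2 → g3 → ∃ a, p1 a ∧ p2 a ∧ p3 a) (h2 : ∃ a, p1 a ∧ p2 a) :
    ∃ a, p1 a ∧ p2 a ∧ (g1 ∧ g2 ∧ g3 → p3 a) :=
  (em (g1 ∧ g2 ∧ g3)).elim (fun g => (h1 g.1 g.2.1 g.2.2).imp fun _ a => ⟨a.1, a.2.1, fun _ => a.2.2⟩)
    fun g => h2.imp fun _ a => ⟨a.1, a.2, fun a => absurd a g⟩

/-- **local charts from many relations** -/
theorem piece (V : Type) [Fintype V] [DecidableEq V] : PIECE V := by
  obtain ⟨X0, hF⟩ := pieceF'
  obtain ⟨k, k1, hk⟩ := exists_par X0 (Fintype.card V)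
  refine ⟨20 * k, fun ι _ _ S B b κ _ ty ψ U Y T Z lam h hc hY hT hZ hl1 hl2 hb hty hψ hU hι hκ hM
    hd => ?_⟩
  obtain ⟨x0, nm⟩ := hk Y T hY hT
  generalize Y ^ k = X at x0 nm
  set N := Fintype.card V with hN
  have a1 := nm.xt
  have a2 := nm.yx
  have a3 := nm.nx
  have x := nm.x
  have n0 : (0 : ℝ) ≤ N := Nat.cast_nonneg N
  have t2 : T ^ 2 ≤ T ^ (20 * k) := pow_le_pow_right₀ (by linarith) (by omega)
  have t3 : T ^ 2 ≤ Z ^ (20 * k) := t2.trans (pow_le_pow_left₀ (by linarith) hZ _)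
  have t4 : Z ≤ Z ^ (20 * k) := le_self_pow₀ (by linarith) (by omega)
  have t5 := nm.sq
  have l1 : 1 ≤ exp T := one_le_exp (by linarith)
  have lam1 : 1 ≤ lam := (one_le_exp (pow_nonneg (by linarith) _)).trans hl1
  have xp := fun n => pow_pos (show 0 < X by linarith) n
  have c1 : 1 ≤ ((N : ℝ) + 1) * exp T := by nlinarith
  obtain ⟨R, M, w⟩ := exists_wh h (c := (N + 1) * exp T) (by linarith)
  have hb' : ∀ r, b ∉ ty r := fun r a => disjoint_left.1 (hty r).2 a hb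
  have cq0 : ∀ q : Finset ι, (q.card : ℝ) ≤ exp Y := fun q =>
    le_trans (by exact_mod_cast card_le_univ q) hι
  have N8 : 8 ≤ ⌈Z ^ (20 * k)⌉₊ := by
    have : ((8 : ℕ) : ℝ) ≤ ⌈Z ^ (20 * k)⌉₊ := le_trans (by push_cast; linarith) (Nat.le_ceil _)
    exact_mod_cast this
  have η1 : exp (-Z ^ (20 * k)) ≤ exp (-T ^ 2) := exp_le_exp.2 (by linarith)
  have mj : ∀ l, 1 ≤ l → l ≤ exp Z → (jt S b l).mass (q4 S (fce S B) b) ≤
      1 + exp (-Z ^ (20 * k)) := fun l h1 h2 =>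
    P057QP.mass_jt h hc b h1 ((Real.sqrt_le_iff.2 ⟨by linarith, by nlinarith⟩ : √l ≤ l).trans
      (h2.trans (exp_le_exp.2 t4))) (by omega) hM (P057QP.fce_b4 (S := S) hb l ▸ cls_fce _ _)
  have s4 := P057QP.one_le_sig l1
  have s8 := one_le8 l1
  have sP := fm_sum h hc (cls_fce S B) (P057QP.sc_jt (fce S B) b l1) (g := fun W =>
    ind (U (pr S b 0 2 (toR W)) ∧ ∀ r, Nr (jt S b (exp T)) (a4 (ty r)) (b4 B b)
      (rel S b fun j => ψ j r) (exp Y) (toR W))) fun _ => abs_ind _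
  have sM := fm_sum h hc (cls_fce S B) (P057QP.sc_jt (fce S B) b l1) (g := fun _ => 1)
    fun _ => by simp
  choose D hD sD using fun r => fm_bad (c0 := (0 : Fin 8)) h hc (cls_fce S (ty r ∪ B))
    (fce_out (hty r).2) (hty r).1 (hb' r) (fun c => (s8 c).1) (K := exp ((4 * N + 2) * T))
    (W := exp (Z ^ (20 * k))) (η := exp (-Z ^ (20 * k))) (exp_pos _).le
    (le_trans (by simpa using nm.wid (Nat.cast_nonneg _) (cq0 _) (card_le_univ _))
      (exp_le_exp.2 t3))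
    (fun c => (s8 c).2.trans (exp_le_exp.2 (hZ.trans t4)))
    (mass_qC h hc (cls_fce _ _) b (exp_pos _).ne' (Smo.mono h hc (cls_univ S) (cls_fce _ _) hM
      (subset_univ _) le_rfl (exp_pos _) le_rfl le_rfl) (by simpa using N8))
  have sD' := hasSum_sum fun r (_ : r ∈ univ) => sD r
  simp only [← mul_sum] at sD'
  have mk := mk_good (MS.wt_nonneg _) sP sM sD' (h.hasSum_wt _)
    (fun y => fm_mono h s4 (fun _ => abs_ind _) (fun _ => by simp) y fun _ => ind_le_one _)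
    (fun y => one_le_fm h s4 y)
    (fun y => sum_nonneg fun r _ => fm_nonneg h (fun c => (s8 c).1) (fun _ => ind_nonneg _) y)
    (δ := 2 * exp (-X)) (by positivity) (exp_pos (-X ^ 2))
  have ch := fun y => ex_em (fib_step (hF X x0) h hc w c1 hb (fun r => (hty r).2) hψ
    hU (hι.trans (exp_le_exp.2 (by linarith))) (nm.mon (Nat.cast_nonneg _) hι hκ) (by linarith)
    (exp_pos Y) (exp_le_exp.2 (by linarith [nm.pw (k := 3) (by norm_num), xp 3])) l1 (lam := lam) (by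
      refine le_trans ?_ hl1
      rw [← exp_nat_mul, ← exp_add, exp_le_exp]
      push_cast
      nlinarith [nm.pw (k := 5) (by norm_num), xp 5])
    (by nlinarith) (fun r => by
      simpa using nm.big (e := 8) (Nat.cast_nonneg _) (cq0 _) (by norm_num) le_rfl
        (card_le_univ (ty r))) y)
    ⟨fun _ _ => False, fun _ _ a => False.elim a, fun _ => Emb.loc_false _ _ _ (xp 14).le⟩
  choose P p1 p2 p3 using ch
  have p0 := vl_pos h.pd (fce S B \ S.st b)
  refine ⟨gl S B b P, fun a z hz => ?_, fun a => ?_, ?_⟩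
  · refine hU _ _ (fun j hj => ?_) (p1 _ _ _ hz.2)
    rw [toR_put]
    by_cases h1 : j ∈ S.st b
    · rw [put_pos _ _ (mem_inter.2 ⟨hj, h1⟩)]
      exact congrArg Int.cast (round_intCast (z j))
    · rw [put_neg _ _ fun a => h1 (mem_inter.1 a).2]
      exact (hz.1 j (mem_sdiff.2 ⟨hj, h1⟩)).symm
  · refine ch_of_loc h hc w c1 hb (fun r => (hty r).2) (hψ 0) _ (by positivity)
      (p2 _ fun j => round (a j))
      (by nlinarith [nm.pw (k := 14) (by norm_num), xp 14])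
      (fun r => le_trans ?_ (exp_le_exp.2 (show (4 * N + 2) * T ≤ _ by linarith)))
      fun z hz => ⟨hz.1, ?_⟩
    · simpa using nm.big (e := 1) (Nat.cast_nonneg _) (cq0 _) (by norm_num) (by norm_num)
        (card_le_univ (ty r))
    · have := hz.2
      simp only [toR, round_intCast] at this
      exact this
  · refine le_trans (exp_le_exp.2 (by linarith)) ((nm.fin η1).trans
      (den_b2 h hc hb lam1 (exp_pos _).le (mj lam lam1 hl2) ?_ p3))
    have m1 := (mj _ l1 (exp_le_exp.2 hZ))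
    have m2 := h.one_le_mass hc (((cls_fce S B).sdiff_st b).sat h)
    have m3 := P057QP.mg_mass h hc (by linarith) hM ((cls_fce S B).sdiff_st b) one_pos
      (one_le_exp (by linarith))
    rw [nar_one] at m3
    have m4 : exp (-Z ^ (20 * k)) ≤ 1 := exp_le_one_iff.2 (by linarith)
    rw [den, P057QP.fce_b4 hb] at hd
    simp only [mul_one] at mk
    have d1 : ∑ r, D r ≤ Fintype.card κ * (500 * 7 ^ N * exp (-Z ^ (20 * k))) *
        vl S.G (fce S B \ S.st b) := by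
      refine (sum_le_sum fun r _ => (hD r).trans (mul_le_mul_of_nonneg_right
        (mul_le_mul_of_nonneg_right (mul_le_mul_of_nonneg_left (pow_le_pow_right₀ (by norm_num)
          (card_le_univ (ty r))) (by norm_num)) (exp_pos _).le) p0.le)).trans (le_of_eq ?_)
      rw [sum_const, card_univ, nsmul_eq_mul, ← mul_assoc]
    have d2 := mul_le_mul_of_nonneg_right (nm.mkv (exp_pos _).le η1 (Nat.cast_nonneg _) hκ) p0.le
    have d3 := mul_le_mul_of_nonneg_right hd p0.le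
    have d4 := mul_le_mul_of_nonneg_right m1 p0.le
    have d5 := mul_le_mul_of_nonneg_right m2 p0.le
    have d6 := mul_le_mul_of_nonneg_left (mul_le_mul_of_nonneg_right (m3.trans
      (by linarith : _ ≤ (2 : ℝ))) p0.le) (show 0 ≤ 2 * exp (-X) by positivity)
    have d7 := mul_le_mul_of_nonneg_left d1 (show 0 ≤ 2 / exp (-X ^ 2) by positivity)
    refine le_of_mul_le_mul_left (le_trans ?_ mk) (by norm_num : (0 : ℝ) < 2)
    change _ ≤ (_ : ℝ) / vl (dup S 0 _).G (qC S 0 _ b) * _ at d3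
    change (_ : ℝ) / vl (dup S 0 _).G (qC S 0 _ b) * _ ≤ _ at d4
    simp only [ind_T1] at d3
    change _ ≤ (∑' z, (dup S 0 _).wt (qC S 0 _ b) z * _) / _ * _ at d3
    change (∑' z, (dup S 0 _).wt (qC S 0 _ b) z) / _ * _ ≤ _ at d4
    linarith

end

end Vale.Agent.P057GA
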