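import Vale.Agent.P057GA.Emb
import Mathlib.Algebra.BigOperators.Fin
import Mathlib.Data.Fintype.BigOperators

/-! Translated and product weights; rigidity passes to split systems of combinations. -/

set_option linter.all false

open Finset

namespace Vale.Agent.P057GA

noncomputable section

namespace Pw

variable {α β Λ : Type} [AddCommGroup Λ]

/-- the translated weight -/
def shift (P : Pw Λ) (c : Λ) : Pw Λ where
  D := P.D.map (Equiv.addRight c).toEmbedding
  w x := P.w (x - c)
  nn x := P.nn _
  one := by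
    rw [sum_map, ← P.one]
    exact sum_congr rfl fun x _ => by simp

theorem shift_E (P : Pw Λ) (c : Λ) (F : Λ → ℝ) : (P.shift c).E F = P.E fun x => F (x + c) := by
  unfold E shift
  rw [sum_map]
  exact sum_congr rfl fun x _ => by simp

theorem mem_shift {P : Pw Λ} {c x : Λ} (h : x ∈ (P.shift c).D) : x - c ∈ P.D := by
  obtain ⟨y, hy, rfl⟩ := mem_map.1 h
  simpa using hy

theorem Inv.shift {P : Pw Λ} {s : Λ} {η : ℝ} (h : P.Inv s η) (c : Λ) : (P.shift c).Inv s η := by
  intro F hF
  rw [shift_E, shift_E]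
  have := h (fun x => F (x + c)) fun x => hF _
  simpa only [add_right_comm] using this

theorem Inv.mono {P : Pw Λ} {s : Λ} {η η' : ℝ} (h : P.Inv s η) (h' : η ≤ η') : P.Inv s η' :=
  fun F hF => (h F hF).trans h'

theorem inv_shift {P Q : Pw Λ} {η η' : ℝ} (h : ∀ a ∈ Q.D, ∀ a' ∈ Q.D, P.Inv (a - a') η)
    (h' : η ≤ η') (c c' : Λ) :
    ∀ a ∈ (Q.shift c').D, ∀ a' ∈ (Q.shift c').D, (P.shift c).Inv (a - a') η' := by
  intro a ha a' ha'
  have := ((h _ (mem_shift ha) _ (mem_shift ha')).shift c).mono h'
  rwa [sub_sub_sub_cancel_right] at this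

variable {C C' : Type} [Fintype C] [DecidableEq C] [Fintype C'] [DecidableEq C']

/-- the product weight -/
def pi (P : C → Pw α) : Pw (C → α) where
  D := Fintype.piFinset fun c => (P c).D
  w x := ∏ c, (P c).w (x c)
  nn x := prod_nonneg fun c _ => (P c).nn _
  one := by
    rw [← prod_univ_sum]
    exact prod_eq_one fun c _ => (P c).one

theorem pi_prod (P : C → Pw α) (f : C → α → ℝ) :
    (pi P).E (fun x => ∏ c, f c (x c)) = ∏ c, (P c).E (f c) := by
  unfold E pi
  simp only [← prod_mul_distrib]
  exact (prod_univ_sum (fun c => (P c).D) fun c a => (P c).w a * f c a).symm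

theorem pi_nil (P : Fin 0 → Pw α) (F : (Fin 0 → α) → ℝ) : (pi P).E F = F ![] := by
  have : F = fun _ => F ![] := funext fun x => congrArg F (Subsingleton.elim _ _)
  rw [this, const]

theorem pi_cons {g : ℕ} (P0 : Pw α) (P : Fin g → Pw α) (F : (Fin (g + 1) → α) → ℝ) :
    (pi (Matrix.vecCons P0 P)).E F = P0.E fun a => (pi P).E fun x => F (Matrix.vecCons a x) := by
  unfold E
  simp only [mul_sum]
  rw [← sum_product']
  symm
  refine sum_bij' (fun p _ => Matrix.vecCons p.1 p.2) (fun x _ => (x 0, Fin.tail x)) ?_ ?_ ?_ ?_ ?_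
  · intro p hp
    obtain ⟨h1, h2⟩ := mem_product.1 hp
    refine Fintype.mem_piFinset.2 fun c => ?_
    refine Fin.cases h1 (fun i => ?_) c
    exact Fintype.mem_piFinset.1 h2 i
  · intro x hx
    have := Fintype.mem_piFinset.1 hx
    exact mem_product.2 ⟨this 0, Fintype.mem_piFinset.2 fun i => this i.succ⟩
  · intro p _
    rfl
  · intro x _
    exact Fin.cons_self_tail x
  · intro p _
    show _ = (∏ c : Fin (g + 1), _) * _
    rw [Fin.prod_univ_succ, ← mul_assoc]
    rfl

open Classical in
theorem E_ind (P : Pw α) (a : α) :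
    P.E (fun x => if x = a then 1 else 0) = if a ∈ P.D then P.w a else 0 := by
  unfold E
  simp only [mul_ite, mul_one, mul_zero]
  exact sum_ite_eq' _ _ _

/-- marginals of a product -/
theorem pi_comp (P : C → Pw α) {e : C' → C} (he : Function.Injective e) (F : (C' → α) → ℝ) :
    (pi P).E (fun x => F (x ∘ e)) = (pi (P ∘ e)).E F := by
  classical
  have key : ∀ z : C' → α, (pi P).E (fun x => if x ∘ e = z then 1 else 0) =
      if z ∈ (pi (P ∘ e)).D then (pi (P ∘ e)).w z else 0 := by
    intro z
    have e1 : (fun x : C → α => if x ∘ e = z then (1 : ℝ) else 0) = fun x =>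
        ∏ c, ∏ c' ∈ univ.filter fun c' => e c' = c, if x c = z c' then (1 : ℝ) else 0 := by
      funext x
      have : ∀ c, (∏ c' ∈ univ.filter fun c' => e c' = c, if x c = z c' then (1 : ℝ) else 0) =
          ∏ c' ∈ univ.filter fun c' => e c' = c, if x (e c') = z c' then (1 : ℝ) else 0 :=
        fun c => prod_congr rfl fun c' hc => by rw [(mem_filter.1 hc).2]
      simp only [this]
      rw [prod_fiberwise univ e, Fintype.prod_ite_zero]
      simp only [funext_iff, Function.comp, prod_const_one]
    rw [e1, pi_prod P fun c a => ∏ c' ∈ univ.filter fun c' => e c' = c,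
      if a = z c' then (1 : ℝ) else 0]
    have e2 : ∀ c, (P c).E (fun a => ∏ c' ∈ univ.filter fun c' => e c' = c,
        if a = z c' then (1 : ℝ) else 0) = ∏ c' ∈ univ.filter fun c' => e c' = c,
          if z c' ∈ (P (e c')).D then (P (e c')).w (z c') else 0 := by
      intro c
      by_cases hc : ∃ c', e c' = c
      · obtain ⟨c', rfl⟩ := hc
        have : (univ.filter fun c'' => e c'' = e c') = {c'} := by
          ext c''
          simp [he.eq_iff]
        simp only [this, prod_singleton]
        convert E_ind _ _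
      · have : (univ.filter fun c'' => e c'' = c) = ∅ := by
          ext c''
          simpa using fun h => hc ⟨c'', h⟩
        simp only [this, prod_empty, const]
    simp only [e2]
    rw [prod_fiberwise univ e, Fintype.prod_ite_zero]
    simp only [pi, Fintype.mem_piFinset, Function.comp]
  have e3 : ∀ x ∈ (pi P).D, F (x ∘ e) =
      ∑ z ∈ (pi (P ∘ e)).D, (if x ∘ e = z then 1 else 0) * F z := by
    intro x hx
    simp only [ite_mul, one_mul, zero_mul]
    rw [sum_ite_eq, if_pos]
    exact Fintype.mem_piFinset.2 fun c => Fintype.mem_piFinset.1 hx (e c)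
  calc _ = (pi P).E fun x => ∑ z ∈ (pi (P ∘ e)).D, (if x ∘ e = z then 1 else 0) * F z :=
        sum_congr rfl fun x hx => congrArg _ (e3 x hx)
    _ = ∑ z ∈ (pi (P ∘ e)).D, (pi P).E (fun x => if x ∘ e = z then 1 else 0) * F z := by
        unfold E
        simp only [mul_sum, sum_mul]
        rw [sum_comm]
        exact sum_congr rfl fun z _ => sum_congr rfl fun x _ => by ring
    _ = _ := sum_congr rfl fun z hz => by rw [key, if_pos hz]

end Pw

variable {Mon : Type} {Sl : Mon → Type} [∀ μ, Fintype (Sl μ)] [∀ μ, DecidableEq (Sl μ)]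
  {Λ : Type} [AddCommGroup Λ]

/-- rigidity of a split system of combinations -/
theorem Emb.rig_pull (e : Emb Sl Λ) {g h d : ℕ} {K K' B : ℝ} {G : Fin g → Λ} (hR : e.Rig K G)
    (N : Fin h → Fin g → ℤ) (R : Fin g → Fin h → ℤ)
    (hNR : (fun a b => ∑ j, N a j * R j b) = fun a b => if a = b then 1 else 0) (hB : 1 ≤ B)
    (hN : ∀ j, ∑ a, |(N a j : ℝ)| ≤ B) (hd : ∀ μ, Fintype.card (Sl μ) ≤ d) (h0 : 0 ≤ K')
    (hK : B ^ d * K' ≤ K) : e.Rig K' fun a => ∑ j, N a j • G j := by
  intro I hI
  have h1 := (hI.sub_le N hB hN hd h0).mono hK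
  rw [← e.nat] at h1
  have h2 := congrArg (sub R) (hR _ h1)
  rwa [sub_sub_eq, hNR, sub_id, sub_zero'] at h2

end

end Vale.Agent.P057GA
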