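import Vale.Agent.P057MA.Lift
import Vale.Agent.P057G.Ms7

/-!
Blockwise square roots; exact covers; a form is determined by its values at indicators.
-/

open Matrix Finset
open scoped MatrixOrder
open Vale.Agent.P267.H775 Vale.Agent.P057G Vale.Agent.P057MA

namespace Vale.Agent.P057GA

noncomputable section

variable {V ι : Type} [DecidableEq ι] [Fintype ι]

/-- a square root that respects all orthogonal splittings -/
theorem exists_root {G : Matrix ι ι ℝ} (hG : G.PosDef) :
    ∃ R M : Matrix ι ι ℝ, R * M = 1 ∧ M * R = 1 ∧ G = Rᵀ * R ∧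
      ∀ P : ι → Prop, (∀ i j, P i → ¬P j → G i j = 0) →
        ∀ i j, ¬(P i ↔ P j) → R i j = 0 ∧ M i j = 0 := by
  classical
  have h0 : (0 : Matrix ι ι ℝ) ≤ G := hG.posSemidef.nonneg
  set R := CFC.sqrt G with hR
  have h1 : R * R = G := CFC.sqrt_mul_sqrt_self G h0
  have h2 : R.PosSemidef := (CFC.sqrt_nonneg G).posSemidef
  have h3 : Rᵀ = R := by
    have := h2.1
    rwa [IsHermitian, conjTranspose_eq_transpose_of_trivial] at this
  have h4 : IsUnit R.det := by
    have h5 := hG.det_pos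
    rw [← h1, det_mul] at h5
    exact IsUnit.mk0 _ fun h => by rw [h] at h5; simp at h5
  refine ⟨R, R⁻¹, mul_nonsing_inv _ h4, nonsing_inv_mul _ h4, by rw [h3, h1], fun P hP => ?_⟩
  set d : ι → ℝ := fun i => if P i then 1 else -1 with hd
  have dd : diagonal d * diagonal d = 1 := by
    rw [diagonal_mul_diagonal, ← diagonal_one]
    congr 1; funext i; simp only [hd]; split_ifs <;> norm_num
  have hs : ∀ i j, G i j = G j i := fun i j => by
    have := congrFun (congrFun hG.1 j) i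
    simpa using this
  have dG : diagonal d * G * diagonal d = G := by
    ext i j
    rw [mul_diagonal, diagonal_mul]
    simp only [hd]
    split_ifs with a b b
    · ring
    · rw [hP i j a b]; ring
    · rw [hs, hP j i b a]; ring
    · ring
  have dR : diagonal d * R * diagonal d = R := by
    have h6 : (diagonal d * R * diagonal d).PosSemidef := by
      have := h2.conjTranspose_mul_mul_same (diagonal d)
      rwa [conjTranspose_eq_transpose_of_trivial, diagonal_transpose] at this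
    refine (CFC.sqrt_unique ?_ h6.nonneg).symm
    calc diagonal d * R * diagonal d * (diagonal d * R * diagonal d)
        = diagonal d * R * (diagonal d * diagonal d) * R * diagonal d := by
          simp only [Matrix.mul_assoc]
      _ = G := by rw [dd, Matrix.mul_one, Matrix.mul_assoc _ R R, h1, dG]
  have dM : diagonal d * R⁻¹ * diagonal d = R⁻¹ := by
    refine (Matrix.inv_eq_right_inv ?_).symm
    calc R * (diagonal d * R⁻¹ * diagonal d)
        = diagonal d * R * diagonal d * (diagonal d * R⁻¹ * diagonal d) := by rw [dR]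
      _ = diagonal d * R * (diagonal d * diagonal d) * R⁻¹ * diagonal d := by
          simp only [Matrix.mul_assoc]
      _ = 1 := by rw [dd, Matrix.mul_one, Matrix.mul_assoc _ R, mul_nonsing_inv _ h4,
          Matrix.mul_one, dd]
  have key : ∀ N : Matrix ι ι ℝ, diagonal d * N * diagonal d = N → ∀ i j, ¬(P i ↔ P j) →
      N i j = 0 := by
    intro N hN i j hij
    have := congrFun (congrFun hN i) j
    rw [mul_diagonal, diagonal_mul] at this
    simp only [hd] at this
    split_ifs at this with a b b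
    · exact absurd (iff_of_true a b) hij
    · linarith
    · linarith
    · exact absurd (iff_of_false a b) hij
  exact fun i j hij => ⟨key R dR i j hij, key _ dM i j hij⟩

variable [DecidableEq V]

/-- whitening data of a system, with the scale `c` -/
structure Wh (S : MS V ι) (c : ℝ) (R M : Matrix ι ι ℝ) : Prop where
  rm : R * M = 1
  mr : M * R = 1
  nr : ∀ u, ∑ i, (R *ᵥ u) i ^ 2 = c ^ 2 * qq S.G u
  bR : ∀ i j, R i j ≠ 0 → S.fc i = S.fc j ∧ S.lv i = S.lv j
  bM : ∀ i j, M i j ≠ 0 → S.fc i = S.fc j ∧ S.lv i = S.lv j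

theorem exists_wh {S : MS V ι} (h : S.Ok) {c : ℝ} (hc : c ≠ 0) : ∃ R M, Wh S c R M := by
  obtain ⟨R, M, h1, h2, h3, h4⟩ := exists_root h.pd
  have k : ∀ i j, ¬(S.fc i = S.fc j ∧ S.lv i = S.lv j) → R i j = 0 ∧ M i j = 0 := by
    intro i j hij
    refine h4 (fun a => S.fc i = S.fc a ∧ S.lv i = S.lv a) (fun a b ha hb => ?_) i j
      fun e => hij (e.1 ⟨rfl, rfl⟩)
    by_contra h0
    exact hb ⟨ha.1.trans (h.orth a b h0).1, ha.2.trans (h.orth a b h0).2⟩
  refine ⟨c • R, c⁻¹ • M, ?_, ?_, fun u => ?_, fun i j hij => ?_, fun i j hij => ?_⟩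
  · rw [smul_mul_smul_comm, h1, mul_inv_cancel₀ hc, one_smul]
  · rw [smul_mul_smul_comm, h2, inv_mul_cancel₀ hc, one_smul]
  · rw [h3, qq_mul, mul_sum]
    refine sum_congr rfl fun i _ => ?_
    rw [smul_mulVec, Pi.smul_apply, smul_eq_mul, mul_pow]
  · by_contra h0
    exact hij (by rw [Matrix.smul_apply, (k i j h0).1, smul_zero])
  · by_contra h0
    exact hij (by rw [Matrix.smul_apply, (k i j h0).2, smul_zero])

/-- exact covers of `A` by faces of indices in `q` -/
structure EC (S : MS V ι) (q : Finset ι) (A : Finset V) (μ : Finset ι) : Prop where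
  sub : μ ⊆ q
  mee : μ ⊆ S.sts A
  cov : ∀ v ∈ A, ∃ j ∈ μ, v ∈ S.fc j
  uni : ∀ v ∈ A, ∀ j ∈ μ, ∀ j' ∈ μ, v ∈ S.fc j → v ∈ S.fc j' → j = j'

/-- the indicator vector -/
def one (μ : Finset ι) : ι → ℝ := fun j => if j ∈ μ then 1 else 0

variable {S : MS V ι}

omit [DecidableEq ι] in
theorem EC.eq_of_sub {q q' : Finset ι} {A : Finset V} {μ ν : Finset ι} (h : EC S q A μ)
    (h' : EC S q' A ν) (hs : μ ⊆ ν) : μ = ν := by
  refine Subset.antisymm hs fun j hj => ?_
  obtain ⟨v, hv, hj2⟩ := MS.mem_sts.1 (h'.mee hj)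
  obtain ⟨k, hk, hk2⟩ := h.cov v hv
  rwa [h'.uni v hv j hj k (hs hk) hj2 hk2]

omit [DecidableEq ι] in
theorem EC.card_le {q : Finset ι} {A : Finset V} {μ : Finset ι} (h : EC S q A μ) :
    μ.card ≤ A.card := by
  have h1 : ∀ j ∈ μ, ∃ v ∈ A, v ∈ S.fc j := fun j hj => MS.mem_sts.1 (h.mee hj)
  choose f hf1 hf2 using h1
  rw [← card_attach]
  refine card_le_card_of_injOn (fun j => f j.1 j.2) (fun j _ => hf1 _ _) fun j _ k _ e => ?_
  beta_reduce at e
  exact Subtype.ext (h.uni _ (hf1 _ j.2) _ j.2 _ k.2 (hf2 _ _) (e ▸ hf2 _ _))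

theorem lin_fix {r s : Finset ι} {f : (ι → ℝ) → ℝ} (h : Lin r f) {a : ι → ℝ}
    (ha : ∀ j ∈ r, a j = 0) : Lin r fun z => f (mix s a z) := by
  refine (aff_fix h.aff s a).lin fun y => ?_
  have : mix s a (mix r 0 y) = mix r 0 (mix s a y) := by
    funext j
    simp only [mix]
    split_ifs with h1 h2 <;> first | rfl | exact ha j h2
  rw [this, h.zero]

theorem lin_strip {A : Finset V} {f : (ι → ℝ) → ℝ} (hl : ∀ v ∈ A, Lin (S.st v) f) {v : V}
    (hv : v ∈ A) {j : ι} (hj : v ∈ S.fc j) (U : Finset V) : U ⊆ S.fc j ∩ A → ∀ z,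
      f (mix (S.st v) (Pi.single j 1) z) = f (mix (S.st v ∪ S.sts U) (Pi.single j 1) z) := by
  induction U using Finset.induction_on with
  | empty => intro _ z; rw [MS.sts_empty, union_empty]
  | insert w U hw ih =>
    intro hU z
    rw [ih ((subset_insert _ _).trans hU)]
    obtain ⟨w1, w2⟩ := mem_inter.1 (hU (mem_insert_self _ _))
    set z1 := mix (S.st v ∪ S.sts U) (Pi.single j 1) z with hz1
    have e1 := (hl w w2 z1).map_add (Pi.single j 1) (z1 - Pi.single j 1)
    rw [add_sub_cancel, mix_self] at e1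
    have e2 : mix (S.st w) (z1 - Pi.single j 1) z1 =
        mix (S.st v) 0 (mix (S.st w) (z1 - Pi.single j 1) z1) := by
      funext k
      by_cases hk : k ∈ S.st v
      · have : z1 k = (Pi.single j 1 : ι → ℝ) k := mix_pos _ _ (mem_union_left _ hk)
        rw [mix_pos _ _ hk]
        by_cases hk2 : k ∈ S.st w
        · rw [mix_pos _ _ hk2, Pi.sub_apply, this, sub_self]; rfl
        · rw [mix_neg _ _ hk2, this, Pi.single_eq_of_ne]
          · rfl
          · rintro rfl; exact hk2 (S.mem_st.2 w1)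
      · rw [mix_neg _ _ hk]
    rw [e1, e2, (hl v hv).zero, add_zero]
    congr 1
    funext k
    simp only [hz1, mix, MS.sts_insert, mem_union]
    by_cases a : k ∈ S.st w <;> simp [a]

/-- a form that vanishes at the indicators of all exact covers vanishes -/
theorem zero_of_ec (n : ℕ) : ∀ (A : Finset V) (q : Finset ι) (f : (ι → ℝ) → ℝ), A.card ≤ n →
    q ⊆ S.sts A → Fm S q A f → (∀ μ, EC S q A μ → f (one μ) = 0) → ∀ z, f z = 0 := by
  induction n with
  | zero =>
    intro A q f hA hq hf h0 z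
    obtain rfl := card_eq_zero.1 (Nat.le_zero.1 hA)
    rw [MS.sts_empty, subset_empty] at hq
    subst hq
    rw [← h0 ∅ ⟨empty_subset _, empty_subset _, by simp, by simp⟩]
    exact hf.on _ _ (by simp)
  | succ n ih =>
    intro A q f hA hq hf h0 z
    rcases A.eq_empty_or_nonempty with rfl | ⟨v, hv⟩
    · exact ih ∅ q f (by simp) hq hf h0 z
    have e := aff_expand hf.on (hf.lin v hv).aff z z
    rw [mix_self, (hf.lin v hv).zero, zero_add] at e
    rw [e]
    refine sum_eq_zero fun j hj => ?_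
    obtain ⟨j1, j2⟩ := mem_inter.1 hj
    have j3 := S.mem_st.1 j2
    have hs : S.st v ∪ S.sts (S.fc j ∩ A) = S.sts (S.fc j ∩ A) :=
      union_eq_right.2 (MS.st_subset_sts (mem_inter.2 ⟨j3, hv⟩))
    have js : j ∈ S.sts (S.fc j ∩ A) := MS.mem_sts.2 ⟨v, mem_inter.2 ⟨j3, hv⟩, j3⟩
    rw [slp, (hf.lin v hv).zero, sub_zero, lin_strip hf.lin hv j3 _ Subset.rfl, hs]
    refine mul_eq_zero_of_left ?_ _
    refine ih (A \ S.fc j) (q \ S.sts (S.fc j ∩ A))
      (fun z => f (mix (S.sts (S.fc j ∩ A)) (Pi.single j 1) z)) ?_ ?_ ⟨?_, ?_⟩ ?_ z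
    · have : (A \ S.fc j).card < A.card :=
        card_lt_card ⟨sdiff_subset, fun h => (mem_sdiff.1 (h hv)).2 j3⟩
      omega
    · intro k hk
      obtain ⟨w, hw, hw2⟩ := MS.mem_sts.1 (hq (mem_sdiff.1 hk).1)
      exact MS.mem_sts.2 ⟨w, mem_sdiff.2 ⟨hw, fun h =>
        (mem_sdiff.1 hk).2 (MS.mem_sts.2 ⟨w, mem_inter.2 ⟨h, hw⟩, hw2⟩)⟩, hw2⟩
    · intro z z' hz
      refine hf.on _ _ fun k hk => ?_
      by_cases h : k ∈ S.sts (S.fc j ∩ A)
      · rw [mix_pos _ _ h, mix_pos _ _ h]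
      · rw [mix_neg _ _ h, mix_neg _ _ h, hz k (mem_sdiff.2 ⟨hk, h⟩)]
    · intro w hw
      refine lin_fix (hf.lin w (mem_sdiff.1 hw).1) fun k hk => Pi.single_eq_of_ne ?_ _
      rintro rfl
      exact (mem_sdiff.1 hw).2 (S.mem_st.1 hk)
    · intro ν hν
      have hd : ∀ k ∈ ν, ∀ w ∈ A, w ∈ S.fc k → w ∉ S.fc j := fun k hk w hw h1 h2 =>
        (mem_sdiff.1 (hν.sub hk)).2 (MS.mem_sts.2 ⟨w, mem_inter.2 ⟨h2, hw⟩, h1⟩)
      rw [← h0 (insert j ν) ⟨insert_subset j1 (hν.sub.trans sdiff_subset),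
        insert_subset (hq j1) ((hν.sub.trans sdiff_subset).trans hq), fun w hw => ?_,
        fun w hw a ha b hb h1 h2 => ?_⟩]
      · congr 1
        funext k
        by_cases h : k ∈ S.sts (S.fc j ∩ A)
        · have : k ∉ ν := fun h2 => (mem_sdiff.1 (hν.sub h2)).2 h
          rw [mix_pos _ _ h, one, Pi.single_apply]
          simp [this]
        · have : k ≠ j := fun h2 => h (h2 ▸ js)
          rw [mix_neg _ _ h, one, one]
          simp [this]
      · by_cases h : w ∈ S.fc j
        · exact ⟨j, mem_insert_self _ _, h⟩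
        · obtain ⟨k, hk, hk2⟩ := hν.cov w (mem_sdiff.2 ⟨hw, h⟩)
          exact ⟨k, mem_insert_of_mem hk, hk2⟩
      · rcases mem_insert.1 ha with a1 | a1 <;> rcases mem_insert.1 hb with b1 | b1
        · exact a1.trans b1.symm
        · exact absurd (a1 ▸ h1) (hd b b1 w hw h2)
        · exact absurd (b1 ▸ h2) (hd a a1 w hw h1)
        · exact hν.uni w (mem_sdiff.2 ⟨hw, hd a a1 w hw h1⟩) a a1 b b1 h1 h2

end

end Vale.Agent.P057GA
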