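import Vale.Agent.P057GA.Ins

/-!
Coefficients against sizes on the unit ball.
-/

open Matrix Finset
open Vale.Agent.P267.H775 Vale.Agent.P057G Vale.Agent.P057MA

namespace Vale.Agent.P057GA

noncomputable section

variable {V ι : Type} [DecidableEq V] [DecidableEq ι] [Fintype ι]
  {S : MS V ι} {q : Finset ι} {A : Finset V} {b : V} {c : ℝ} {R M : Matrix ι ι ℝ}
  {J J' : Type} [Fintype J] [DecidableEq J] [Fintype J'] [DecidableEq J']

/-- the squared length of joint positions -/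
def jn (S : MS V ι) (r : Finset ι) (b : V) (U : ι × Option J → ℝ) : ℝ :=
  qq S.G (msk (r \ S.st b) fun j => U (j, none)) +
    ∑ σ, qq S.G (msk (r ∩ S.st b) fun j => U (j, some σ))

omit [DecidableEq V] in
theorem msk_mat {r : Finset ι} (hr : Bk S r)
    (hM : ∀ i j, M i j ≠ 0 → S.fc i = S.fc j ∧ S.lv i = S.lv j) (v : ι → ℝ) :
    msk r (M *ᵥ v) = M *ᵥ msk r v := by
  funext i
  simp only [msk, mulVec, dotProduct]
  split_ifs with hi
  · refine sum_congr rfl fun j _ => ?_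
    by_cases h : M i j = 0
    · rw [h, zero_mul, zero_mul]
    · rw [if_pos (hr i j (hM i j h).1 (hM i j h).2 hi)]
  · refine (sum_eq_zero fun j _ => ?_).symm
    by_cases h : M i j = 0
    · rw [h, zero_mul]
    · rw [if_neg fun hj => hi (hr j i (hM i j h).1.symm (hM i j h).2.symm hj), mul_zero]

omit [DecidableEq V] in
theorem Wh.nrm (w : Wh S c R M) {r : Finset ι} (hr : Bk S r) (v : ι → ℝ) :
    c ^ 2 * qq S.G (msk r (M *ᵥ v)) = ∑ j ∈ r, v j ^ 2 := by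
  rw [msk_mat hr w.bM, ← w.nr, mulVec_mulVec, w.rm, one_mulVec]
  simp [msk]

theorem sum_jq (r : Finset ι) (F : ι × Option J → ℝ) : ∑ a ∈ jq S r b J, F a =
    ∑ j ∈ r \ S.st b, F (j, none) + ∑ σ, ∑ j ∈ r ∩ S.st b, F (j, some σ) := by
  rw [jq, sum_filter, Fintype.sum_prod_type_right, Fintype.sum_option]
  congr 1
  · rw [← sum_filter]
    congr 1; ext j; simp
  · refine sum_congr rfl fun σ _ => ?_
    rw [← sum_filter]
    congr 1; ext j; simp

theorem Wh.jn_wh (w : Wh S c R M) {r : Finset ι} (hr : Bk S r) (U : ι × Option J → ℝ) :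
    c ^ 2 * jn S r b (wh M U) = ∑ a ∈ jq S r b J, U a ^ 2 := by
  rw [sum_jq, jn, mul_add, mul_sum, ← w.nrm (hr.sdiff b)]
  congr 1
  exact sum_congr rfl fun σ _ => w.nrm (hr.inter b) fun j => U (j, some σ)

theorem Wh.jn_one (w : Wh S c R M) {r : Finset ι} (hr : Bk S r) (hc : 0 < c)
    (hA : (A.card : ℝ) ≤ c ^ 2) (μ : Mn S r A) (φ : Slt S r A b μ → J) :
    jn S r b (wh M (one (jm μ φ))) ≤ 1 := by
  refine le_of_mul_le_mul_left ?_ (pow_pos hc 2)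
  rw [w.jn_wh hr, mul_one]
  refine le_trans ?_ hA
  simp only [one, ite_pow, one_pow, ne_eq, OfNat.ofNat_ne_zero, not_false_eq_true, zero_pow,
    sum_ite_mem, sum_const, nsmul_eq_mul, mul_one, Nat.cast_le]
  exact (card_le_card inter_subset_right).trans (ec_jm μ φ).card_le

theorem Wh.abs_le (w : Wh S c R M) {r : Finset ι} (hr : Bk S r) (hc : 0 < c)
    {U : ι × Option J → ℝ} (hU : jn S r b U ≤ 1) {a : ι × Option J} (ha : a ∈ jq S r b J) :
    |wh R U a| ≤ c := by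
  have h1 := w.jn_wh (b := b) hr (wh R U)
  rw [wh_wh, w.mr, wh_one] at h1
  have h2 := single_le_sum (f := fun a => wh R U a ^ 2) (fun _ _ => sq_nonneg _) ha
  refine abs_le_of_sq_le_sq ?_ hc.le
  nlinarith [pow_pos hc 2]

/-- the coefficients of a function of the positions -/
def co (S : MS V ι) (r : Finset ι) (A : Finset V) (b : V) (M : Matrix ι ι ℝ)
    (f : (ι × Option J → ℝ) → ℝ) : JF (Slt S r A b) J ℝ := cf S r A b fun U => f (wh M U)

theorem Wh.bd_co (w : Wh S c R M) {r : Finset ι} (hr : Bk S r) (hc : 0 < c)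
    (hA : (A.card : ℝ) ≤ c ^ 2) {f : (ι × Option J → ℝ) → ℝ} {K : ℝ}
    (hf : ∀ U, jn S r b U ≤ 1 → |f U| ≤ K) : Bd K (co S r A b M f) :=
  fun μ φ => hf _ (w.jn_one hr hc hA μ φ)

theorem Wh.ev_co (w : Wh S c R M) {r : Finset ι} (hr : Bk S r) (hs : r ⊆ S.sts A)
    {f : (ι × Option J → ℝ) → ℝ} (hf : Fm (jS S J) (jq S r b J) A f) (U : ι × Option J → ℝ) :
    ev (co S r A b M f) (wh R U) = f U := by
  rw [co, ev_cf hs ((fm_wh hr w.bM).fm hf), wh_wh, w.mr, wh_one]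

theorem Wh.le_of_bd (w : Wh S c R M) {r : Finset ι} (hr : Bk S r) (hs : r ⊆ S.sts A) (hc : 1 ≤ c)
    (hJ : 1 ≤ Fintype.card J) {f : (ι × Option J → ℝ) → ℝ} (hf : Fm (jS S J) (jq S r b J) A f)
    {K : ℝ} (hK : 0 ≤ K) (h : Bd K (co S r A b M f)) {U : ι × Option J → ℝ}
    (hU : jn S r b U ≤ 1) : |f U| ≤ (r.card * Fintype.card J * c) ^ A.card * K := by
  rw [← w.ev_co hr hs hf]
  exact abs_ev_le h hK hc hJ fun a ha => w.abs_le hr (by linarith) hU ha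

/-- short integer forms vanish on the joint fibre -/
def JU (S : MS V ι) (q : Finset ι) (A : Finset V) (b : V) (y : ι → ℝ) (x : J → ι → ℝ) (K : ℝ) :
    Prop :=
  ∀ η, Fm (jS S J) (jq S (q ∩ S.sts A) b J) A η → IntV η →
    (∀ U, jn S (q ∩ S.sts A) b U ≤ 1 → |η (LF S A b y x U)| ≤ K) → ∀ Z, η Z = 0

/-- a function of the positions is near an integer form of the joint fibre -/
def JN (S : MS V ι) (q : Finset ι) (A : Finset V) (b : V) (y : ι → ℝ) (x : J → ι → ℝ)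
    (f : (ι × Option J → ℝ) → ℝ) (K : ℝ) : Prop :=
  ∃ η, Fm (jS S J) (jq S (q ∩ S.sts A) b J) A η ∧ IntV η ∧
    ∀ U, jn S (q ∩ S.sts A) b U ≤ 1 → |f U - η (LF S A b y x U)| ≤ K

variable (h : S.Ok) (hc : S.Cen) (hq : Cls S q) (w : Wh S c R M) (y : ι → ℝ) (P : Finset ι)

theorem emb_io {g : ℕ} (x : Fin g → P → ℤ) (I : JF (Slt S (q ∩ S.sts A) A b) (Fin g) ℤ) :
    (emb h hc hq A b w.bM y P).io g x I =
      co S _ A b M fun U => ev (rc I) (LF S A b y (fun σ => xr P (x σ)) U) := rfl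

theorem rig_of_ju (h1 : 1 ≤ c) {g : ℕ} (hg : 1 ≤ g) {x : Fin g → P → ℤ} {K K' : ℝ} (hK : 0 ≤ K)
    (hK' : ((q ∩ S.sts A).card * g * c) ^ A.card * K ≤ K')
    (hU : JU S q A b y (fun σ => xr P (x σ)) K') : (emb h hc hq A b w.bM y P).Rig K x := by
  intro I hI
  have h2 := hU (ev (rc I)) (fm_ev _) (intV_ev I) fun U hU =>
    (w.le_of_bd (bk_sts hq A) inter_subset_right h1 (by simpa using hg)
      ((fm_LF h hc hq y _).fm (fm_ev _)) hK hI hU).trans (by simpa using hK')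
  funext μ φ
  have h3 := congrFun (congrFun (cf_ev (rc I)) μ) φ
  rw [cf, h2, rc] at h3
  exact Int.cast_eq_zero.1 h3.symm

theorem bd_of_jn (h0 : 0 < c) (hA : (A.card : ℝ) ≤ c ^ 2) {g : ℕ} {x : Fin g → P → ℤ}
    {f : (ι × Option (Fin g) → ℝ) → ℝ} {K : ℝ} (hN : JN S q A b y (fun σ => xr P (x σ)) f K) :
    ∃ I, Bd K (co S _ A b M f - (emb h hc hq A b w.bM y P).io g x I) := by
  obtain ⟨η, h1, h2, h3⟩ := hN
  obtain ⟨I, hI⟩ := IntV.exists_cf (S := S) (r := q ∩ S.sts A) (A := A) (b := b) h2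
  refine ⟨I, fun μ φ => ?_⟩
  have := w.bd_co (A := A) (bk_sts hq A) h0 hA h3 μ φ
  rw [emb_io h hc hq w, hI]
  simpa only [co, cf, Pi.sub_apply, ev_cf inter_subset_right h1] using this

theorem jn_of_bd (h1 : 1 ≤ c) {g : ℕ} (hg : 1 ≤ g) {x : Fin g → P → ℤ}
    {f : (ι × Option (Fin g) → ℝ) → ℝ} (hf : Fm (jS S _) (jq S (q ∩ S.sts A) b _) A f) {K : ℝ}
    (hK : 0 ≤ K) {I : JF (Slt S (q ∩ S.sts A) A b) (Fin g) ℤ}
    (hI : Bd K (co S _ A b M f - (emb h hc hq A b w.bM y P).io g x I)) :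
    JN S q A b y (fun σ => xr P (x σ)) f (((q ∩ S.sts A).card * g * c) ^ A.card * K) :=
  ⟨ev (rc I), fm_ev _, intV_ev I, fun U hU => by
    simpa using w.le_of_bd (bk_sts hq A) inter_subset_right h1 (by simpa using hg)
      (hf.sub ((fm_LF h hc hq y _).fm (fm_ev _))) hK hI hU⟩

/-- a form read at the point with coordinates `n`, as a function of the joint positions -/
def at1 (S : MS V ι) (A : Finset V) (b : V) (y x : ι → ℝ) (n : J → ℤ) (ψ : (ι → ℝ) → ℝ)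
    (U : ι × Option J → ℝ) : ℝ :=
  ψ (lft S A (mix (S.st b) x y) (vw S b (0 : Fin 1) (nm (fun _ => n) U)))

/-- the coefficients of a form over one point -/
def c1 (S : MS V ι) (q : Finset ι) (A : Finset V) (b : V) (M : Matrix ι ι ℝ) (y x : ι → ℝ)
    (ψ : (ι → ℝ) → ℝ) (μ : Mn S (q ∩ S.sts A) A) : ℝ :=
  ψ (lft S A (mix (S.st b) x y) (M *ᵥ one μ.1))

omit [Fintype J] in
theorem vw_one {r : Finset ι} (μ : Mn S r A) (σ : J) :
    vw S b σ (one (jm μ (fun _ => σ : Slt S r A b μ → J))) = one μ.1 := by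
  funext j
  simp only [vw, mix, one, mem_jm, lb, mem_inter]
  by_cases h1 : j ∈ μ.1 <;> by_cases h2 : j ∈ S.st b <;> simp [h1, h2]

omit [Fintype J] [DecidableEq J] in
theorem vw_wh (hM : ∀ i j, M i j ≠ 0 → S.fc i = S.fc j ∧ S.lv i = S.lv j) (σ : J)
    (U : ι × Option J → ℝ) : vw S b σ (wh M U) = M *ᵥ vw S b σ U := by
  funext i
  simp only [vw, mix, wh, mulVec, dotProduct]
  split_ifs with hi <;> refine sum_congr rfl fun j _ => ?_ <;> by_cases h0 : M i j = 0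
  · rw [h0, zero_mul, zero_mul]
  · rw [if_pos (S.mem_st.2 ((hM i j h0).1 ▸ S.mem_st.1 hi))]
  · rw [h0, zero_mul, zero_mul]
  · rw [if_neg fun h2 => hi (S.mem_st.2 ((hM i j h0).1 ▸ S.mem_st.1 h2))]

include h hc hq in
theorem fm_at0 (x : ι → ℝ) {ψ : (ι → ℝ) → ℝ} (hψ : Fm S q A ψ) (σ : J) :
    Fm (jS S J) (jq S (q ∩ S.sts A) b J) A
      fun U => ψ (lft S A (mix (S.st b) x y) (vw S b σ U)) :=
  ((fm_vw _ σ).comp (fm_lft h hc hq _)).fm hψ

theorem fm_nm (r : Finset ι) (n : J' → J → ℤ) :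
    FM (jS S J) (jq S r b J) (jS S J') (jq S r b J') A (nm n) := by
  refine ⟨?_, ?_, ?_⟩
  · rintro ⟨j, _ | σ⟩ ha z z' hz
    · exact hz _ (mem_jq.2 ⟨(mem_jq.1 ha).1, iff_of_true rfl ((mem_jq.1 ha).2.1 rfl)⟩)
    · refine sum_congr rfl fun τ _ => congrArg _ (hz _ (mem_jq.2 ⟨(mem_jq.1 ha).1, ?_⟩))
      simpa using (mem_jq.1 ha).2
  · rintro v _ ⟨j, _ | σ⟩ _ h1
    · exact lin_coord (mem_jst.2 (mem_jst.1 h1 :))
    · exact Lin.sum univ (fun τ => (n σ τ : ℝ)) fun τ _ =>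
        lin_coord (j := (j, some τ)) (mem_jst.2 (mem_jst.1 h1 :))
  · rintro v _ ⟨j, _ | σ⟩ _ h1 x y
    · exact mix_neg _ _ fun h2 => h1 (mem_jst.2 (mem_jst.1 h2 :))
    · exact sum_congr rfl fun τ _ => congrArg _
        (mix_neg _ _ fun h2 => h1 (mem_jst.2 (mem_jst.1 h2 :)))

include h hc hq in
theorem fm_at1 (x : ι → ℝ) (n : J → ℤ) {ψ : (ι → ℝ) → ℝ} (hψ : Fm S q A ψ) :
    Fm (jS S J) (jq S (q ∩ S.sts A) b J) A (at1 S A b y x n ψ) :=
  (fm_nm _ _).fm (fm_at0 h hc hq y x hψ 0)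

include h hc hq w in
theorem co_at1 (x : ι → ℝ) (n : J → ℤ) {ψ : (ι → ℝ) → ℝ} (hψ : Fm S q A ψ) :
    co S _ A b M (at1 S A b y x n ψ) = pt n (c1 S q A b M y x ψ) := by
  have h1 := cf_nm inter_subset_right (fun _ : Fin 1 => n)
    ((fm_wh (bk_sts hq A) w.bM).fm (fm_at0 (b := b) h hc hq y x hψ 0))
  simp only [wh_nm] at h1
  refine h1.trans ((sub_one n _).trans ?_)
  congr 1
  funext μ
  simp only [cf, c1, vw_wh w.bM, vw_one]

/-- the form with given coefficients over one point -/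
def e1 {r : Finset ι} (D : Mn S r A → ℝ) (z : ι → ℝ) : ℝ := ∑ μ, D μ * ∏ j ∈ μ.1, z j

theorem fm_e1 {r : Finset ι} (D : Mn S r A → ℝ) : Fm S r A (e1 D) :=
  Fm.sum _ fun μ _ => μ.2.fm_prod.smul _

omit [DecidableEq ι] in
theorem intV_e1 {r : Finset ι} (k : Mn S r A → ℤ) : IntV (e1 fun μ => (k μ : ℝ)) := fun z =>
  ⟨∑ μ, k μ * ∏ j ∈ μ.1, z j, by simp [e1, toR]⟩

theorem ev_e1 {r : Finset ι} (D : Mn S r A → ℝ) (Z : ι × Option (Fin 1) → ℝ) :
    ev (fun μ _ => D μ : JF (Slt S r A b) (Fin 1) ℝ) Z = e1 D (vw S b 0 Z) := by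
  refine sum_congr rfl fun μ _ => ?_
  rw [Fintype.sum_unique, jm, prod_image fun _ _ _ _ e => (Prod.ext_iff.1 e).1]
  congr 1
  refine prod_congr rfl fun j hj => ?_
  by_cases h2 : j ∈ S.st b
  · rw [vw, mix_pos _ _ h2, lb, dif_pos (mem_inter.2 ⟨hj, h2⟩)]; rfl
  · rw [vw, mix_neg _ _ h2, lb_neg _ _ h2]

theorem emb_io1 (x : P → ℤ) (k : Mn S (q ∩ S.sts A) A → ℤ) :
    (emb h hc hq A b w.bM y P).io1 x k = c1 S q A b M y (xr P x) (e1 fun μ => (k μ : ℝ)) := by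
  funext μ
  change ev (fun μ _ => (k μ : ℝ)) _ = _
  rw [ev_e1, vw_LF h, vw_wh w.bM, vw_one]
  rfl

include h hc hq w in
/-- a form over one point is the form of its coefficients -/
theorem e1_c1 (x : ι → ℝ) {ψ : (ι → ℝ) → ℝ} (hψ : Fm S q A ψ) {z : ι → ℝ}
    (hz : ∀ j ∈ q \ S.sts A, z j = mix (S.st b) x y j) :
    e1 (c1 S q A b M y x ψ) (R *ᵥ pos S z) = ψ z := by
  have h1 := w.ev_co (bk_sts hq A) inter_subset_right (fm_at0 (b := b) h hc hq y x hψ (0 : Fin 1))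
    fun a => pos S z a.1
  have e : vw S b (0 : Fin 1) (fun a : ι × Option (Fin 1) => pos S z a.1) = pos S z := mix_self _ _
  have e2 : co S (q ∩ S.sts A) A b M (fun U => ψ (lft S A (mix (S.st b) x y) (vw S b (0 : Fin 1) U)))
      = fun μ _ => c1 S q A b M y x ψ μ := by
    funext μ φ
    rw [Subsingleton.elim φ fun _ => 0]
    simp only [co, cf, c1, vw_wh w.bM, vw_one]
  rw [e2, ev_e1, vw_wh w.bR, e] at h1
  refine h1.trans (hψ.on _ _ fun j hj => ?_)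
  rw [← lft_congr h hq hz (fun _ _ => rfl) hj, lft_pos h]

include w in
theorem abs_e1_le (h1 : 1 ≤ c) {D : Mn S (q ∩ S.sts A) A → ℝ} {K : ℝ} (hK : 0 ≤ K)
    (hD : ∀ μ, |D μ| ≤ K) {r : Finset ι} (hr : Bk S r) (h0 : ∀ μ, D μ ≠ 0 → μ.1 ⊆ r) {z : ι → ℝ}
    (hz : ln2 S r z ≤ 1) : |e1 D (R *ᵥ pos S z)| ≤ ((q ∩ S.sts A).card * c) ^ A.card * K := by
  have h2 : ∀ j ∈ r, |(R *ᵥ pos S z) j| ≤ c := by
    intro j hj
    have h3 := w.nrm hr (R *ᵥ pos S z)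
    rw [mulVec_mulVec, w.mr, one_mulVec, ← ln2_eq] at h3
    have h4 := single_le_sum (f := fun a => (R *ᵥ pos S z) a ^ 2) (fun _ _ => sq_nonneg _) hj
    refine abs_le_of_sq_le_sq ?_ (by linarith)
    nlinarith [pow_pos (show 0 < c by linarith) 2]
  have h3 : ∀ μ : Mn S (q ∩ S.sts A) A, |D μ * ∏ j ∈ μ.1, (R *ᵥ pos S z) j| ≤ K * c ^ A.card := by
    intro μ
    by_cases h4 : D μ = 0
    · rw [h4, zero_mul, abs_zero]; positivity
    rw [abs_mul, abs_prod]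
    refine mul_le_mul (hD μ) ?_ (prod_nonneg fun _ _ => abs_nonneg _) hK
    refine (prod_le_prod (fun _ _ => abs_nonneg _) fun a ha => h2 a (h0 μ h4 ha)).trans ?_
    rw [prod_const]
    exact pow_le_pow_right₀ h1 μ.2.card_le
  refine (abs_sum_le_sum_abs _ _).trans ((sum_le_sum fun μ _ => h3 μ).trans ?_)
  rw [sum_const, card_univ, nsmul_eq_mul, mul_pow]
  have h4 : (Fintype.card (Mn S (q ∩ S.sts A) A) : ℝ) ≤ ((q ∩ S.sts A).card : ℝ) ^ A.card := by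
    exact_mod_cast card_mn
  calc _ ≤ ((q ∩ S.sts A).card : ℝ) ^ A.card * (K * c ^ A.card) :=
        mul_le_mul_of_nonneg_right h4 (by positivity)
    _ = _ := by ring

end

end Vale.Agent.P057GA
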