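import Vale.Agent.P057GA.Alg

/-! A form with three splittings is a signed sum of four point forms. -/

set_option linter.all false

open Finset

namespace Vale.Agent.P057GA

noncomputable section

variable {P : Type} [Fintype P] [DecidableEq P]

/-- basis vector -/
def bv {J : Type} [DecidableEq J] (a : J) : J → ℤ := fun j => if j = a then 1 else 0

/-- the form vanishes when one slot carries the vector v -/
def Kil {J : Type} [Fintype J] [DecidableEq J] (c : (P → J) → ℤ) (v : J → ℤ) : Prop :=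
  ∀ (f : P → J → ℤ) (s : P), f s = v → ev1 c f = 0

theorem kil_sub1 {J J' : Type} [Fintype J] [DecidableEq J] [Fintype J'] [DecidableEq J']
    (n : J' → J → ℤ) (F : (P → J') → ℤ) (v : J → ℤ) (h : ∀ j', ∑ j, n j' j * v j = 0) :
    Kil (sub1 n F) v := by
  intro f s hs
  rw [ev1_sub1]
  exact ev1_zero _ _ s fun j' => by simp only [hs, h]

theorem Kil.add {J : Type} [Fintype J] [DecidableEq J] {c c' : (P → J) → ℤ} {v : J → ℤ}
    (h : Kil c v) (h' : Kil c' v) : Kil (fun φ => c φ + c' φ) v := by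
  intro f s hs
  rw [ev1_add, h f s hs, h' f s hs, add_zero]

theorem Kil.sub {J : Type} [Fintype J] [DecidableEq J] {c c' : (P → J) → ℤ} {v : J → ℤ}
    (h : Kil c v) (h' : Kil c' v) : Kil (fun φ => c φ - c' φ) v := by
  intro f s hs
  rw [ev1_sub, h f s hs, h' f s hs, sub_zero]

/-- v on the slot s0 and w elsewhere -/
def two {J : Type} (s0 : P) (v w : J → ℤ) : P → J → ℤ := fun s => if s = s0 then v else w

theorem prod_two1 (s0 : P) (a : ℤ) : ∏ s : P, (if s = s0 then a else 1) = a := by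
  rw [prod_ite_eq']
  simp

theorem prod_two0 (s0 : P) (a : ℤ) :
    ∏ s : P, (if s = s0 then a else 0) = if ∀ s, s = s0 then a else 0 := by
  split_ifs with h
  · rw [prod_congr rfl fun s _ => (by rw [if_pos (h s), if_pos (h s)] :
      (if s = s0 then a else 0) = if s = s0 then a else 1), prod_two1]
  · push Not at h
    obtain ⟨s, hs⟩ := h
    exact prod_eq_zero (mem_univ s) (if_neg hs)

theorem prod_twoz (s0 : P) (b : ℤ) : ∏ s : P, (if s = s0 then 0 else b) = 0 :=
  prod_eq_zero (mem_univ s0) (if_pos rfl)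

def n1 : Fin 3 → ℤ := ![1, 0, 0]
def n2 : Fin 3 → ℤ := ![0, 1, 0]
def n3 : Fin 3 → ℤ := ![1, 0, 1]
def n4 : Fin 3 → ℤ := ![0, 1, 1]
def f0 : Fin 3 → ℤ := ![1, 1, -1]
def f1 : Fin 3 → ℤ := ![1, 0, -1]
def f2 : Fin 3 → ℤ := ![0, 1, -1]

theorem prod_ind (n : Fin 3 → ℤ) (p : Fin 3 → Prop) [DecidablePred p]
    (h : ∀ a, n a = if p a then 1 else 0) (φ : P → Fin 3) (k : ℤ) :
    (if ∀ s, p (φ s) then k else 0) = (∏ s, n (φ s)) * k := by
  split_ifs with h'
  · rw [prod_eq_one fun s _ => by rw [h, if_pos (h' s)], one_mul]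
  · push Not at h'
    obtain ⟨s, hs⟩ := h'
    rw [prod_eq_zero (mem_univ s) (by rw [h, if_neg hs]), zero_mul]

theorem upd_basis (φ : P → Fin 3) (s : P) (a : Fin 3) :
    Function.update (fun s j => if j = φ s then (1 : ℤ) else 0) s (fun j => if j = a then 1 else 0) =
      fun s' j => if j = Function.update φ s a s' then 1 else 0 := by
  funext s'
  by_cases h : s' = s
  · subst h; simp
  · simp [Function.update_of_ne h]

theorem gauge1 (c A A' B B' C C' : (P → Fin 3) → ℤ) (s0 : P)
    (hA : ∀ φ, c φ = A φ + A' φ) (hB : ∀ φ, c φ = B φ + B' φ) (hC : ∀ φ, c φ = C φ + C' φ)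
    (kA : Kil A (bv 1)) (kA' : Kil A' (bv 0)) (kB : Kil B (bv 2)) (kB' : Kil B' f0)
    (kC : Kil C f2) (kC' : Kil C' f1) :
    (if ∀ s, s = s0 then 0 else ev1 B (two s0 f0 (bv 0))) =
      (if ∀ s, s = s0 then 0 else ev1 A (two s0 (bv 0) f1)) ∧
    ∀ φ, c φ = (∏ s, n1 (φ s)) * (if ∀ s, s = s0 then 0 else ev1 A (two s0 (bv 0) f1)) +
      (∏ s, n4 (φ s)) * (-ev1 C (two s0 f1 (bv 2))) -
      (∏ s, n2 (φ s)) * (-ev1 B (two s0 f0 (bv 1))) -
      (∏ s, n3 (φ s)) * (-ev1 A (two s0 (bv 0) (bv 2))) := by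
  have eA : c = fun φ => A φ + A' φ := funext hA
  have eB : c = fun φ => B φ + B' φ := funext hB
  have eC : c = fun φ => C φ + C' φ := funext hC
  have h1 : ∀ φ s s', φ s = 0 → φ s' = 1 → c φ = 0 := by
    intro φ s s' hs hs'
    rw [← ev1_basis c φ, eA, ev1_add, kA _ s' (by funext j; simp [bv, hs']),
      kA' _ s (by funext j; simp [bv, hs]), add_zero]
  have h2 : ∀ φ s s', s ≠ s' → φ s = 2 → φ s' = 2 →
      c φ = c (Function.update φ s 0) + c (Function.update φ s 1) := by
    intro φ s s' hne hs hs'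
    have e : ev1 c (Function.update (fun s j => if j = φ s then (1 : ℤ) else 0) s f0) = 0 := by
      rw [eB, ev1_add, kB _ s' (by
        rw [Function.update_of_ne hne.symm]; funext j; simp [bv, hs']),
        kB' _ s (by simp), add_zero]
    rw [ev1_upd] at e
    simp only [upd_basis, ev1_basis, Fin.sum_univ_three, f0] at e
    have e2 : Function.update φ s 2 = φ := by rw [← hs]; simp
    rw [e2] at e
    simp at e
    linarith
  have h3 : ∀ s s' : P, s ≠ s' → c (wd 0 ∅) = c (wd 0 {s}) + c (wd 1 {s'}) := by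
    intro s s' hne
    have e : ev1 c (Function.update (Function.update
        (fun s j => if j = wd 0 (∅ : Finset P) s then (1 : ℤ) else 0) s f1) s' f2) = 0 := by
      rw [eC, ev1_add, kC _ s' (by simp), kC' _ s (by
        rw [Function.update_of_ne hne]; simp), add_zero]
    rw [ev1_upd] at e
    simp only [Function.update_comm hne] at e
    simp only [upd_basis] at e
    simp only [ev1_upd _ _ s f1] at e
    simp only [upd_basis, ev1_basis, Fin.sum_univ_three, f1, f2] at e
    have w2 : ∀ (φ : P → Fin 3) (t : P), φ t = 2 → Function.update φ t 2 = φ := by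
      intro φ t ht
      rw [← ht]; simp
    have e1 : c (Function.update (Function.update (wd 0 (∅ : Finset P)) s' 1) s 0) = 0 :=
      h1 _ s s' (by simp) (by rw [Function.update_of_ne hne.symm]; simp)
    rw [e1, w2 (wd 0 ∅) s' (by simp [wd]), w2 (wd 0 ∅) s (by simp [wd]),
      w2 (Function.update (wd 0 (∅ : Finset P)) s' 1) s
        (by rw [Function.update_of_ne hne]; simp [wd])] at e
    simp only [upd_wd] at e
    simp at e
    linarith
  obtain ⟨k1, k2, k3, k4, hk, hc⟩ := shape c s0 h1 h2 h3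
  have hc' : c = fun φ => (∏ s, (n1 (φ s) : ℤ)) * k1 - (∏ s, (n2 (φ s) : ℤ)) * k2 -
      (∏ s, (n3 (φ s) : ℤ)) * k3 + (∏ s, (n4 (φ s) : ℤ)) * k4 := by
    funext φ
    rw [hc φ, prod_ind n1 (· = 0) (by intro a; fin_cases a <;> simp [n1]),
      prod_ind n2 (· = 1) (by intro a; fin_cases a <;> simp [n2]),
      prod_ind n3 (· ≠ 1) (by intro a; fin_cases a <;> simp [n3]),
      prod_ind n4 (· ≠ 0) (by intro a; fin_cases a <;> simp [n4])]
  have key : ∀ v w : Fin 3 → ℤ, ev1 c (two s0 v w) =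
      (∏ s : P, if s = s0 then v 0 else w 0) * k1 - (∏ s : P, if s = s0 then v 1 else w 1) * k2 -
      (∏ s : P, if s = s0 then v 0 + v 2 else w 0 + w 2) * k3 +
      (∏ s : P, if s = s0 then v 1 + v 2 else w 1 + w 2) * k4 := by
    intro v w
    have e := fun (n : Fin 3 → ℤ) (k : ℤ) => ev1_pt (R := ℤ) n k (two s0 v w)
    simp only [Int.cast_id] at e
    rw [hc', ev1_add, ev1_sub, ev1_sub, e, e, e, e]
    simp only [Fin.sum_univ_three, n1, n2, n3, n4, two]
    congr 1
    · congr 1
      · congr 1 <;> congr 1 <;> refine prod_congr rfl fun s _ => ?_ <;> split_ifs <;> simp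
      · congr 1; refine prod_congr rfl fun s _ => ?_; split_ifs <;> simp
    · congr 1; refine prod_congr rfl fun s _ => ?_; split_ifs <;> simp
  have t0 : ∀ v w : Fin 3 → ℤ, two s0 v w s0 = v := fun v w => by simp [two]
  have q1 := key f0 (bv 0)
  have q2 := key f0 (bv 1)
  have q3 := key (bv 0) f1
  have q4 := key (bv 0) (bv 2)
  have q5 := key f1 (bv 2)
  rw [eB, ev1_add, kB' _ s0 (t0 _ _)] at q1 q2
  rw [eA, ev1_add, kA' _ s0 (t0 _ _)] at q3 q4
  rw [eC, ev1_add, kC' _ s0 (t0 _ _)] at q5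
  generalize ev1 B (two s0 f0 (bv 0)) = z1 at *
  generalize ev1 B (two s0 f0 (bv 1)) = z2 at *
  generalize ev1 A (two s0 (bv 0) f1) = z3 at *
  generalize ev1 A (two s0 (bv 0) (bv 2)) = z4 at *
  generalize ev1 C (two s0 f1 (bv 2)) = z5 at *
  simp only [f0, f1, bv, Matrix.cons_val_zero, Matrix.cons_val_one, Matrix.cons_val_two,
    Matrix.head_cons, Matrix.tail_cons, Fin.reduceEq, if_true, if_false, add_zero, zero_add,
    add_neg_cancel, prod_two1, prod_two0, prod_twoz] at q1 q2 q3 q4 q5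
  by_cases hP : ∀ s, s = s0
  · have := hk hP
    simp only [if_pos hP] at *
    refine ⟨trivial, fun φ => ?_⟩
    have e2 : -z2 = k2 := by linarith
    have e3 : -z4 = k3 := by linarith
    have e4 : -z5 = k4 := by linarith
    rw [e2, e3, e4, hc', this]
    ring
  · simp only [if_neg hP] at *
    have e2 : -z2 = k2 := by linarith
    have e3 : -z4 = k3 := by linarith
    have e4 : -z5 = k4 := by linarith
    have e1 : z3 = k1 := by linarith
    have e1' : z1 = k1 := by linarith
    refine ⟨by rw [e1, e1'], fun φ => ?_⟩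
    rw [e1, e2, e3, e4, hc']
    ring

end

end Vale.Agent.P057GA
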