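import Vale.Agent.P057GA.Four
import Vale.Agent.P057PI.Cop

/-! Truncated Gaussian weights; the gauge theorem for Gaussian laws. -/

set_option linter.all false

open Finset Matrix
open scoped Real

namespace Vale.Agent.P057GA

open Vale.Agent.P057G Vale.Agent.P057HU Vale.Agent.P267.H775 Vale.Agent.P057PI

noncomputable section

/-- `P` is a truncation of the weight `w` -/
structure Tr {A : Type} (P : Pw A) (w : A → ℝ) (ε : ℝ) : Prop where
  wt : Wt w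
  pos : 0 < ∑ a ∈ P.D, w a
  eq : ∀ a, P.w a * ∑ a ∈ P.D, w a = w a
  big : (1 - ε) * ∑' a, w a ≤ ∑ a ∈ P.D, w a

namespace Tr

variable {A : Type} {P : Pw A} {w : A → ℝ} {ε : ℝ}

theorem le (h : Tr P w ε) : ∑ a ∈ P.D, w a ≤ ∑' a, w a :=
  h.wt.2.sum_le_tsum _ fun a _ => h.wt.1 a

theorem tpos (h : Tr P w ε) : 0 < ∑' a, w a := h.pos.trans_le h.le

theorem sum_eq (h : Tr P w ε) (F : A → ℝ) :
    ∑ a ∈ P.D, w a * F a = (∑ a ∈ P.D, w a) * P.E F := by
  unfold Pw.E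
  rw [mul_sum]
  refine sum_congr rfl fun a _ => ?_
  conv_lhs => rw [← h.eq a]
  ring

theorem lo0 (h : Tr P w ε) {F : A → ℝ} (h0 : ∀ a, 0 ≤ F a) (h1 : ∀ a, F a ≤ 1) :
    (1 - ε) * (∑' a, w a) * P.E F ≤ ∑' a, w a * F a := by
  have s := h.wt.summ (F := F) (C := 1) fun a => by rw [abs_of_nonneg (h0 a)]; exact h1 a
  refine le_trans ?_ (s.sum_le_tsum P.D fun a _ => mul_nonneg (h.wt.1 a) (h0 a))
  rw [h.sum_eq]
  exact mul_le_mul_of_nonneg_right h.big (P.nonneg h0)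

theorem e0 (h : Tr P w ε) : 0 ≤ ε := by
  have := h.big.trans h.le
  nlinarith [h.tpos]

theorem lo (h : Tr P w ε) {F : A → ℝ} (h0 : ∀ a, 0 ≤ F a) (h1 : ∀ a, F a ≤ 1) :
    (∑' a, w a) * (P.E F - ε) ≤ ∑' a, w a * F a := by
  refine le_trans ?_ (h.lo0 h0 h1)
  have := mul_le_mul_of_nonneg_left (P.le_one h1) (mul_nonneg h.e0 h.tpos.le)
  nlinarith

theorem lo2 (h : Tr P w ε) (hε : ε ≤ 1 / 2) {F : A → ℝ} (h0 : ∀ a, 0 ≤ F a) (h1 : ∀ a, F a ≤ 1) :
    (∑' a, w a) * P.E F ≤ 2 * ∑' a, w a * F a := by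
  have := h.lo0 h0 h1
  have := mul_le_mul_of_nonneg_right hε (mul_nonneg h.tpos.le (P.nonneg h0))
  nlinarith

theorem up (h : Tr P w ε) {F : A → ℝ} (h0 : ∀ a, 0 ≤ F a) (h1 : ∀ a, F a ≤ 1) :
    ∑' a, w a * F a ≤ (∑' a, w a) * (P.E F + ε) := by
  have s := h.wt.summ (F := F) (C := 1) fun a => by rw [abs_of_nonneg (h0 a)]; exact h1 a
  have u := h.lo (F := fun a => 1 - F a) (fun a => by linarith [h1 a]) fun a => by linarith [h0 a]
  simp only [mul_sub, mul_one] at u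
  rw [h.wt.2.tsum_sub s, Pw.sub, Pw.const] at u
  linarith

theorem mono (h : Tr P w ε) {ε' : ℝ} (h' : ε ≤ ε') : Tr P w ε' :=
  ⟨h.wt, h.pos, h.eq, le_trans (mul_le_mul_of_nonneg_right (by linarith) h.tpos.le) h.big⟩

theorem pi {C : Type} [Fintype C] [DecidableEq C] {P : C → Pw A} {w : C → A → ℝ}
    (h : ∀ c, Tr (P c) (w c) ε) (h1 : ε ≤ 1) (h0 : 0 ≤ ε) :
    Tr (Pw.pi P) (fun x => ∏ c, w c (x c)) (Fintype.card C * ε) := by
  have e : ∑ x ∈ (Pw.pi P).D, ∏ c, w c (x c) = ∏ c, ∑ a ∈ (P c).D, w c a :=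
    (prod_univ_sum (fun c => (P c).D) w).symm
  obtain ⟨w1, w2⟩ := wt_pi fun c => (h c).wt
  refine ⟨w1, ?_, fun x => ?_, ?_⟩
  · rw [e]
    exact prod_pos fun c _ => (h c).pos
  · rw [e]
    show (∏ c, _) * _ = _
    rw [← prod_mul_distrib]
    exact prod_congr rfl fun c _ => (h c).eq _
  · rw [e, w2]
    refine le_trans ?_ (prod_le_prod (fun c _ => mul_nonneg (by linarith) (h c).tpos.le)
      fun c _ => (h c).big)
    rw [prod_mul_distrib, prod_const, card_univ]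
    refine mul_le_mul_of_nonneg_right ?_ (prod_nonneg fun c _ => (h c).tpos.le)
    have := one_add_mul_le_pow (a := -ε) (by linarith) (Fintype.card C)
    rwa [mul_neg, ← sub_eq_add_neg, ← sub_eq_add_neg] at this

end Tr

variable {n : Type} [Fintype n] [DecidableEq n]

/-- a short integer shift hardly changes a Gaussian mean -/
theorem shift_l1 {G : Matrix n n ℝ} (hG : G.PosDef) (s : n → ℤ) {κ : ℝ} (hκ : 0 ≤ κ)
    (h : Real.exp (2 * π * qq G (toR s)) - 1 ≤ κ ^ 2) {F : (n → ℤ) → ℝ} (h1 : ∀ x, |F x| ≤ 1) :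
    |∑' x, gs G (toR x) * F (x + s) - ∑' x, gs G (toR x) * F x| ≤ th G 0 * κ := by
  have e1 : ∑' x, gs G (toR x) * F (x + s) = ∑' x, gs G (toR x - toR s) * F x := by
    rw [← (Equiv.addRight s).tsum_eq fun x : n → ℤ => gs G (toR x - toR s) * F x]
    refine tsum_congr fun b => ?_
    simp only [Equiv.coe_addRight]
    congr 2
    funext i
    simp [toR]
  have t1 : th G (toR s) = th G 0 := by simpa using th_add_toR G 0 s
  have t2 : th G ((2 : ℝ) • toR s) = th G 0 := by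
    have := th_add_toR G (toR s) s
    rwa [← two_smul ℝ, t1] at this
  have s0 := (wt_gs0 hG).2.hasSum
  rw [tsum_gs0] at s0
  have s2 := (((hasSum_th hG ((2 : ℝ) • toR s)).mul_left (Real.exp (2 * π * qq G (toR s)))).sub
    ((hasSum_th hG (toR s)).mul_left 2)).add s0
  have e2 : ∀ x : n → ℤ, |gs G (toR x - toR s) - gs G (toR x)| ^ 2 = gs G (toR x) *
      (Real.exp (2 * π * qq G (toR s)) * gs G (toR x - (2 : ℝ) • toR s) -
        2 * gs G (toR x - toR s) + gs G (toR x)) := fun x => by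
    rw [sq_abs, sub_sq, gs_sub_sq hG.1]
    ring
  obtain ⟨c1, c2⟩ := tsum_cs s0.summable s2.summable (fun x => (gs_pos _ _).le)
    (fun x => (mul_nonneg_iff_of_pos_left (gs_pos G (toR x))).1 (by rw [← e2]; positivity))
    (fun x => abs_nonneg _) fun x => (e2 x).le
  rw [s0.tsum_eq, s2.tsum_eq, t1, t2] at c2
  have p := th_pos hG 0
  have c3 : ∑' x : n → ℤ, |gs G (toR x - toR s) - gs G (toR x)| ≤ th G 0 * κ := by
    refine (le_abs_self _).trans (abs_le_of_sq_le_sq (c2.trans ?_) (by positivity))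
    have := mul_le_mul_of_nonneg_left h (mul_pos p p).le
    nlinarith
  rw [e1, ← ((wt_gs hG _).summ h1).tsum_sub ((wt_gs0 hG).summ h1), ← Real.norm_eq_abs]
  refine (tsum_of_norm_bounded c1.hasSum fun x => ?_).trans c3
  rw [← sub_mul, Real.norm_eq_abs, abs_mul]
  exact mul_le_of_le_one_right (abs_nonneg _) (h1 x)

theorem Tr.inv {G : Matrix n n ℝ} (hG : G.PosDef) {P : Pw (n → ℤ)} {ε : ℝ}
    (hP : Tr P (fun x => gs G (toR x)) ε) (s : n → ℤ) {κ : ℝ} (hκ : 0 ≤ κ)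
    (h : Real.exp (2 * π * qq G (toR s)) - 1 ≤ κ ^ 2) : P.Inv s (2 * ε + κ) := by
  intro F hF
  have a := abs_le.1 (shift_l1 hG s hκ h (F := F) fun x => by
    rw [abs_of_nonneg (hF x).1]; exact (hF x).2)
  have u1 := hP.up (F := F) (fun x => (hF x).1) fun x => (hF x).2
  have u2 := hP.lo (F := F) (fun x => (hF x).1) fun x => (hF x).2
  have u3 := hP.up (F := fun x => F (x + s)) (fun x => (hF _).1) fun x => (hF _).2
  have u4 := hP.lo (F := fun x => F (x + s)) (fun x => (hF _).1) fun x => (hF _).2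
  rw [tsum_gs0] at u1 u2 u3 u4
  have p := th_pos hG 0
  rw [abs_le]
  constructor
  · refine le_of_mul_le_mul_left ?_ p
    nlinarith
  · refine le_of_mul_le_mul_left ?_ p
    nlinarith

/-- truncation to an ellipsoid -/
theorem exists_tr {G : Matrix n n ℝ} (hG : G.PosDef) {ε : ℝ} (h0 : 0 < ε) :
    ∃ P : Pw (n → ℤ), Tr P (fun x => gs G (toR x)) ε ∧ 0 ∈ P.D ∧
      ∀ a ∈ P.D, qq G (toR a) ≤ Fintype.card n + 2 / ε := by
  classical
  have p := th_pos hG 0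
  have s0 := (wt_gs0 hG).2.hasSum
  rw [tsum_gs0] at s0
  obtain ⟨D0, hD⟩ : ∃ D0 : Finset (n → ℤ), (1 - ε / 2) * th G 0 < ∑ a ∈ D0, gs G (toR a) :=
    (s0.eventually (lt_mem_nhds (by nlinarith))).exists
  set r : ℝ := Fintype.card n + 2 / ε with hr
  have r0 : 0 < 2 / ε := by positivity
  have c0 : (0 : ℝ) ≤ Fintype.card n := Nat.cast_nonneg _
  have tl := tail_norm hG 0 r
  simp only [sub_zero] at tl
  have t2 : Real.exp (-(π * r / 2)) * √2 ^ Fintype.card n ≤ ε / 2 := by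
    have a1 : √2 ≤ Real.exp 1 := by
      refine Real.sqrt_le_iff.2 ⟨by positivity, ?_⟩
      nlinarith [Real.add_one_le_exp 1]
    have a2 : √2 ^ Fintype.card n ≤ Real.exp (Fintype.card n) := by
      rw [← Real.exp_one_pow]
      exact pow_le_pow_left₀ (by positivity) a1 _
    have a3 : Real.exp (-(π * r / 2)) * Real.exp (Fintype.card n) ≤ Real.exp (-(2 / ε)) := by
      rw [← Real.exp_add, Real.exp_le_exp]
      nlinarith [Real.pi_gt_three]
    have a4 : Real.exp (-(2 / ε)) ≤ ε / 2 := by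
      rw [Real.exp_neg, inv_le_comm₀ (by positivity) (by positivity), inv_div]
      linarith [Real.add_one_le_exp (2 / ε)]
    exact ((mul_le_mul_of_nonneg_left a2 (by positivity)).trans a3).trans a4
  have sm := summable_ind (x := 0) (summable_gs hG 0) fun z => r ≤ qq G (toR z - 0)
  simp only [sub_zero] at sm
  have t3 := (sm.sum_le_tsum D0 fun z _ => by split_ifs; exact (gs_pos _ _).le; rfl).trans tl
  rw [← sum_filter, ← mul_assoc] at t3
  have t4 := sum_filter_add_sum_filter_not D0 (fun z => r ≤ qq G (toR z)) fun z => gs G (toR z)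
  set D := insert 0 (D0.filter fun z => ¬r ≤ qq G (toR z)) with hDD
  have t5 : ∑ a ∈ D0.filter fun z => ¬r ≤ qq G (toR z), gs G (toR a) ≤ ∑ a ∈ D, gs G (toR a) :=
    sum_le_sum_of_subset_of_nonneg (subset_insert _ _) fun _ _ _ => (gs_pos _ _).le
  have t6 : 0 < ∑ a ∈ D, gs G (toR a) := sum_pos (fun _ _ => gs_pos _ _) (insert_nonempty _ _)
  have t7 := mul_le_mul_of_nonneg_right t2 p.le
  refine ⟨⟨D, fun x => gs G (toR x) / ∑ a ∈ D, gs G (toR a),
    fun x => div_nonneg (gs_pos _ _).le t6.le, ?_⟩, ⟨wt_gs0 hG, t6, fun a => ?_, ?_⟩,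
    mem_insert_self _ _, fun a ha => ?_⟩
  · rw [← sum_div, div_self t6.ne']
  · exact div_mul_cancel₀ _ t6.ne'
  · rw [tsum_gs0]
    show _ ≤ ∑ a ∈ D, gs G (toR a)
    linarith
  · rcases mem_insert.1 ha with rfl | ha
    · rw [toR_zero, qq_zero]
      linarith
    · exact (not_le.1 (mem_filter.1 ha).2).le

theorem Tr.inv_sub {G G' : Matrix n n ℝ} (hG : G.PosDef) (hG' : G'.PosDef) {P : Pw (n → ℤ)}
    {η Λ r : ℝ} (hP : Tr P (fun x => gs G (toR x)) (η / 16)) (h0 : 0 < η) (h1 : η ≤ 1)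
    (hΛ : ∀ y, Λ * qq G y ≤ qq G' y) (hr : 51 * r ≤ η ^ 2 * Λ) (r0 : 0 < r) {a a' : n → ℤ}
    (ha : qq G' (toR a) ≤ r) (ha' : qq G' (toR a') ≤ r) : P.Inv (a - a') (2 * η) := by
  refine (hP.inv hG _ h0.le ?_).mono (by linarith)
  have e : toR (a - a') = toR a - toR a' := by
    funext i
    simp [toR]
  have q1 : qq G' (toR a - toR a') ≤ 4 * r := by
    have := qq_nonneg hG'.posSemidef (toR a + toR a')
    rw [qq_add hG'.1] at this
    rw [qq_sub hG'.1]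
    linarith
  have q0 := qq_nonneg hG.posSemidef (toR a - toR a')
  have L0 : 0 < Λ := by
    by_contra hn
    nlinarith [sq_nonneg η]
  have q2 : 51 * qq G (toR a - toR a') ≤ 4 * η ^ 2 := by
    refine le_of_mul_le_mul_left ?_ L0
    nlinarith [hΛ (toR a - toR a')]
  rw [e]
  have q3 : 2 * π * qq G (toR a - toR a') ≤ η ^ 2 / 2 := by nlinarith [Real.pi_lt_d2]
  have q4 : 0 ≤ 2 * π * qq G (toR a - toR a') := by positivity
  have := Real.abs_exp_sub_one_le (x := 2 * π * qq G (toR a - toR a'))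
    (by rw [abs_of_nonneg q4]; nlinarith)
  rw [abs_of_nonneg q4] at this
  linarith [le_abs_self (Real.exp (2 * π * qq G (toR a - toR a')) - 1)]

variable {Mon : Type} {Sl : Mon → Type} [∀ μ, Fintype (Sl μ)] [∀ μ, DecidableEq (Sl μ)]

/-- **the gauge theorem for Gaussian laws** -/
theorem gaugeG (e : Emb Sl (n → ℤ)) {G1 G2 G3 : Matrix n n ℝ} (h1 : G1.PosDef) (h2 : G2.PosDef)
    (h3 : G3.PosDef) (ψ1 ψ2 ψ3 ψ4 : (n → ℤ) → Mon → ℝ) (U : (n → ℤ) → Prop)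
    (K M δ η Λ : ℝ) (d : ℕ) (hd : ∀ μ, Fintype.card (Sl μ) ≤ d) (hM : 0 ≤ M)
    (hK : 4 * 60 ^ d * M ≤ K) (hδ : 0 < δ) (hδ1 : δ ≤ 1) (hη0 : 0 < η)
    (hη : 2 ^ 161 * η ≤ (δ / 2) ^ 130) (l1 : ∀ y, Λ * qq G1 y ≤ qq G2 y)
    (l2 : ∀ y, Λ * qq G2 y ≤ qq G3 y) (hΛ : 51 * (Fintype.card n + 32 / η) ≤ η ^ 2 * Λ)
    (hR : ∑' z : Fin 8 → n → ℤ, (∏ c, gs (![G1, G1, G1, G2, G2, G2, G3, G3] c) (toR (z c))) *
      ind (¬e.Rig K z) ≤ η * ∏ c, th (![G1, G1, G1, G2, G2, G2, G3, G3] c) 0)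
    (hP : δ * ∏ c, th (![G1, G1, G2, G2] c) 0 ≤
      ∑' x : Fin 4 → n → ℤ, (∏ c, gs (![G1, G1, G2, G2] c) (toR (x c))) *
        ind (U (x 0 + x 2) ∧ e.Q4 ψ1 ψ2 ψ3 ψ4 M (x 0) (x 1) (x 2) (x 3))) :
    δ ^ 2 / 32 * th G1 0 ≤ ∑' o, gs G1 (toR o) *
      ind (∃ (Θ : Mon → ℝ) (k : (n → ℤ) → Mon → ℤ) (f g ζ : (n → ℤ) → Mon → ℝ),
        (∀ μ, Fintype.card (Sl μ) ≠ 1 → Θ μ = 0) ∧ (∀ y μ, Nonempty (Sl μ) → f y μ = 0) ∧
        (δ ^ 2 / 16) ^ 128 / 2 ^ 44 * (th G1 0 * th G3 0) ≤ ∑' t, gs G1 (toR t) *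
          ∑' y, gs G3 (toR y) * ind (U (o + y) ∧ e.Out ψ1 (4 ^ d * M) o Θ k f g ζ t y)) := by
  have a1 : (δ / 2) ^ 130 ≤ δ / 2 := pow_le_of_le_one (by linarith) (by linarith) (by norm_num)
  have a2 : η ≤ δ / 2 := by linarith
  have η1 : η ≤ 1 := by linarith
  obtain ⟨P1, t1, -, -⟩ := exists_tr h1 (ε := η / 16) (by positivity)
  obtain ⟨P2, t2, z2, b2⟩ := exists_tr h2 (ε := η / 16) (by positivity)
  obtain ⟨P3, t3, z3, b3⟩ := exists_tr h3 (ε := η / 16) (by positivity)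
  have e0 : 2 / (η / 16) = 32 / η := by field_simp; norm_num
  rw [e0] at b2 b3
  have r0 : 0 < (Fintype.card n : ℝ) + 32 / η := by positivity
  have L1 : 1 ≤ Λ := by
    have : 32 ≤ 32 / η := by rw [le_div_iff₀ hη0]; linarith
    have c0 : (0 : ℝ) ≤ Fintype.card n := Nat.cast_nonneg _
    by_contra hn
    have : η ^ 2 ≤ 1 := pow_le_one₀ hη0.le η1
    nlinarith [sq_nonneg η]
  have l3 : ∀ y, Λ * qq G1 y ≤ qq G3 y := fun y => by
    nlinarith [l1 y, l2 y, qq_nonneg h2.posSemidef y]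
  have p8 := Tr.pi (P := ![P1, P1, P1, P2, P2, P2, P3, P3])
    (w := fun c x => gs (![G1, G1, G1, G2, G2, G2, G3, G3] c) (toR x)) (ε := η / 16)
    (fun c => by fin_cases c <;> assumption) (by linarith) (by positivity)
  have p4 := Tr.pi (P := ![P1, P1, P2, P2])
    (w := fun c x => gs (![G1, G1, G2, G2] c) (toR x)) (ε := η / 16)
    (fun c => by fin_cases c <;> assumption) (by linarith) (by positivity)
  have q8 := p8.lo2 (by simp only [Fintype.card_fin]; push_cast; linarith)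
    (F := fun z => ind (¬e.Rig K z)) (fun _ => ind_nonneg _) fun _ => ind_le_one _
  have q4 := p4.up (F := fun x => ind (U (x 0 + x 2) ∧ e.Q4 ψ1 ψ2 ψ3 ψ4 M (x 0) (x 1) (x 2) (x 3)))
    (fun _ => ind_nonneg _) fun _ => ind_le_one _
  have m8 := p8.tpos
  have m4 := p4.tpos
  rw [(wt_pi fun c => wt_gs0 (by fin_cases c <;> assumption)).2] at q8 q4 m8 m4
  simp only [tsum_gs0, Fintype.card_fin] at q8 q4 m8 m4
  have g := gauge4 e P1 P2 P3 ψ1 ψ2 ψ3 ψ4 U K M (δ / 2) (2 * η) d hd hM hK (by positivity)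
    (by positivity) (by linarith) z2 z3
    (fun a ha a' ha' => t1.inv_sub h1 h2 hη0 η1 l1 hΛ r0 (b2 a ha) (b2 a' ha'))
    (fun a ha a' ha' => t1.inv_sub h1 h3 hη0 η1 l3 hΛ r0 (b3 a ha) (b3 a' ha'))
    (fun a ha a' ha' => t2.inv_sub h2 h3 hη0 η1 l2 hΛ r0 (b3 a ha) (b3 a' ha'))
    (le_of_mul_le_mul_left (by linarith) m8) (by
      have := le_of_mul_le_mul_left ((mul_comm _ _).trans_le (hP.trans q4)) m4
      simp only [Pw.pi_cons, Pw.pi_nil] at this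
      push_cast at this
      refine le_trans (by linarith) (sub_le_iff_le_add.2 this))
  have p1 := th_pos h1 0
  have p3 := th_pos h3 0
  have η2 : η / 16 ≤ 1 / 2 := by linarith
  refine le_of_mul_le_mul_left (le_trans ?_ (t1.lo2 η2
    (fun _ => ind_nonneg _) fun _ => ind_le_one _)) (by norm_num : (0 : ℝ) < 2)
  rw [tsum_gs0, show 2 * (δ ^ 2 / 32 * th G1 0) = th G1 0 * ((δ / 2) ^ 2 / 4) by ring]
  refine mul_le_mul_of_nonneg_left (g.trans (P1.mono fun o _ => ind_mono ?_)) p1.le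
  rintro ⟨Θ, k, f, g, ζ, hΘ, hf, hs⟩
  refine ⟨Θ, k, f, g, ζ, hΘ, hf, ?_⟩
  have u1 := t1.lo2 η2 (F := fun t => P3.E fun y =>
    ind (U (o + y) ∧ e.Out ψ1 (4 ^ d * M) o Θ k f g ζ t y))
    (fun _ => P3.nonneg fun _ => ind_nonneg _) fun _ => P3.le_one fun _ => ind_le_one _
  have u2 : (∑' t, gs G1 (toR t) * P3.E fun y =>
      ind (U (o + y) ∧ e.Out ψ1 (4 ^ d * M) o Θ k f g ζ t y)) * th G3 0 ≤
      2 * ∑' t, gs G1 (toR t) * ∑' y, gs G3 (toR y) *
        ind (U (o + y) ∧ e.Out ψ1 (4 ^ d * M) o Θ k f g ζ t y) := by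
    rw [← tsum_mul_right, ← tsum_mul_left]
    refine Summable.tsum_le_tsum (fun t => ?_) (Summable.mul_right _ ((wt_gs0 h1).summ (C := 1)
      fun t => ?_)) (Summable.mul_left _ ((wt_gs0 h1).summ fun t => (wt_gs0 h3).abs_le (C := 1)
        fun y => ?_))
    · have := t3.lo2 η2 (F := fun y =>
        ind (U (o + y) ∧ e.Out ψ1 (4 ^ d * M) o Θ k f g ζ t y)) (fun _ => ind_nonneg _)
        fun _ => ind_le_one _
      rw [tsum_gs0] at this
      nlinarith [mul_le_mul_of_nonneg_left this (gs_pos G1 (toR t)).le]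
    · rw [abs_of_nonneg (P3.nonneg fun _ => ind_nonneg _)]
      exact P3.le_one fun _ => ind_le_one _
    · rw [abs_of_nonneg (ind_nonneg _)]
      exact ind_le_one _
  rw [tsum_gs0] at u1
  rw [show (δ / 2) ^ 2 / 4 = δ ^ 2 / 16 by ring] at hs
  have u3 := mul_le_mul_of_nonneg_right ((mul_le_mul_of_nonneg_left hs p1.le).trans u1) p3.le
  generalize (δ ^ 2 / 16) ^ 128 = x at *
  linarith

end

end Vale.Agent.P057GA
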