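import Vale.Agent.P057GA.Gauge

/-! Two small consequences of rigidity: labels on an additive quadruple, two witnesses. -/

set_option linter.all false

open Finset

namespace Vale.Agent.P057GA

noncomputable section

variable {Mon : Type} {Sl : Mon → Type} [∀ μ, Fintype (Sl μ)] [∀ μ, DecidableEq (Sl μ)]
  {Λ : Type} [AddCommGroup Λ]

theorem bd_pt {n : Fin 3 → ℤ} (hn : ∀ a, n a = 0 ∨ n a = 1) {c : Mon → ℝ} {M : ℝ}
    (h : ∀ μ, |c μ| ≤ M) : Bd M (pt n c : JF Sl (Fin 3) ℝ) := by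
  intro μ φ
  rw [pt, abs_mul, abs_prod]
  refine (mul_le_of_le_one_left (abs_nonneg _) (prod_le_one (fun _ _ => abs_nonneg _)
    fun s _ => ?_)).trans (h μ)
  rcases hn (φ s) with h | h <;> simp [h]

namespace Emb

variable (e : Emb Sl Λ)

/-- labels on a rigid additive quadruple -/
theorem bstep {ψ1 ψ2 ψ3 ψ4 : Λ → Mon → ℝ} {K M M' : ℝ} {x y t : Λ} {k1 k2 k3 k4 : Mon → ℤ}
    (hR : e.Rig K ![x, y, t]) (h0 : e.Rel ψ1 ψ2 ψ3 ψ4 M' x y t 0)
    (h1 : ∀ μ, |ψ1 x μ - e.io1 x k1 μ| ≤ M) (h2 : ∀ μ, |ψ2 y μ - e.io1 y k2 μ| ≤ M)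
    (h3 : ∀ μ, |ψ3 (x + t) μ - e.io1 (x + t) k3 μ| ≤ M)
    (h4 : ∀ μ, |ψ4 (y + t) μ - e.io1 (y + t) k4 μ| ≤ M) (hK : 4 * M + M' ≤ K) (μ : Mon)
    (hμ : Nonempty (Sl μ)) : k2 μ = if Fintype.card (Sl μ) = 1 then k1 μ else 0 := by
  have e1 : ∑ j, n1 j • ![x, y, t] j = x := by rw [n1, sum3]; module
  have e2 : ∑ j, n2 j • ![x, y, t] j = y := by rw [n2, sum3]; module
  have e3 : ∑ j, n3 j • ![x, y, t] j = x + t := by rw [n3, sum3]; module
  have e4 : ∑ j, n4 j • ![x, y, t] j = y + t := by rw [n4, sum3]; module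
  have hz : (pt n1 k1 + pt n4 k4 - pt n2 k2 - pt n3 k3 : JF Sl (Fin 3) ℤ) = 0 := by
    refine hR _ ?_
    have b1 := bd_pt (Sl := Sl) (n := n1) (by decide) h1
    have b2 := bd_pt (Sl := Sl) (n := n2) (by decide) h2
    have b3 := bd_pt (Sl := Sl) (n := n3) (by decide) h3
    have b4 := bd_pt (Sl := Sl) (n := n4) (by decide) h4
    have b := Bd.sub h0 (((b1.add b4).sub b2).sub b3)
    rw [map_sub, map_sub, map_add, io_pt, io_pt, io_pt, io_pt, e1, e2, e3, e4]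
    refine Bd.mono (M := M' + (M + M + M + M)) (fun μ φ => ?_) (by linarith)
    convert b μ φ using 2
    simp only [Pi.add_apply, Pi.sub_apply, pt, map_zero, Pi.zero_apply]
    ring
  obtain ⟨s0⟩ := hμ
  have hc : Fintype.card (Sl μ) ≠ 0 := Fintype.card_pos_iff.2 ⟨s0⟩ |>.ne'
  have key := congrFun (congrFun hz μ)
  have q0 := key fun _ => 0
  have q1 := key fun _ => 1
  have q2 := key fun _ => 2
  simp only [Pi.add_apply, Pi.sub_apply, pt, Pi.zero_apply, n1, n2, n3, n4, Matrix.cons_val_zero,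
    Matrix.cons_val_one, Matrix.cons_val_two, Matrix.head_cons, Matrix.tail_cons, Int.cast_one,
    Int.cast_zero, prod_const, card_univ, one_pow, zero_pow hc, one_mul, zero_mul, add_zero,
    sub_zero, zero_add, zero_sub] at q0 q1 q2
  split_ifs with hh
  · linarith
  · obtain ⟨s1, hs1⟩ : ∃ s1, s1 ≠ s0 := by
      by_contra h'
      push Not at h'
      exact hh (Fintype.card_eq_one_iff.2 ⟨s0, h'⟩)
    have q3 := key fun s => if s = s0 then 1 else 2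
    simp only [Pi.add_apply, Pi.sub_apply, pt, Pi.zero_apply, Int.cast_id] at q3
    rw [prod_eq_zero (mem_univ s0) (by simp [n1]),
      prod_eq_zero (f := fun s => ((n2 (if s = s0 then 1 else 2) : ℤ) : ℤ)) (mem_univ s1)
        (by simp [n2, hs1]),
      prod_eq_zero (f := fun s => ((n3 (if s = s0 then 1 else 2) : ℤ) : ℤ)) (mem_univ s0)
        (by simp [n3]),
      prod_eq_one (f := fun s => ((n4 (if s = s0 then 1 else 2) : ℤ) : ℤ))
        (fun s _ => by split_ifs <;> simp [n4])] at q3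
    linarith

/-- two witnesses remove the auxiliary points -/
theorem twowit {F : Mon → ℝ} {K M : ℝ} {d : ℕ} {x x' y t t' : Λ} {I I' : JF Sl (Fin 3) ℤ}
    (hR : e.Rig K ![x, x', y, t, t']) (h : Bd M (pt n2 F - e.io 3 ![x, y, t] I))
    (h' : Bd M (pt n2 F - e.io 3 ![x', y, t'] I')) (hd : ∀ μ, Fintype.card (Sl μ) ≤ d)
    (hM : 0 ≤ M) (hK : 4 * 3 ^ d * M ≤ K) : ∃ k : Mon → ℤ, ∀ μ, |F μ - e.io1 y k μ| ≤ M := by
  have z : Bd M ((0 : JF Sl (Fin 3) ℝ) - e.io 3 ![x, y, t] 0) := by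
    intro μ φ
    simpa using hM
  have hz := e.cyc_zero _ hR
    ![![1, 0, 0, 0, 0], ![0, 0, 1, 0, 0], ![0, 0, 0, 1, 0]]
    ![![0, 1, 0, 0, 0], ![0, 0, 1, 0, 0], ![0, 0, 0, 0, 1]]
    ![![1, 0, 0, 0, 0], ![0, 0, 1, 0, 0], ![0, 0, 0, 1, 0]]
    ![![1, 0, 0, 0, 0], ![0, 0, 1, 0, 0], ![0, 0, 0, 1, 0]] I I' 0 0 _ _ _ _ _ _ _ _
    (by apply tup3 <;> refine Eq.trans ?_ (sum5 ..) <;> module)
    (by apply tup3 <;> refine Eq.trans ?_ (sum5 ..) <;> module)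
    (by apply tup3 <;> refine Eq.trans ?_ (sum5 ..) <;> module)
    (by apply tup3 <;> refine Eq.trans ?_ (sum5 ..) <;> module)
    h h' z z (by decide) (by decide) (by decide) (by decide)
    (by
      rw [sub_pt, sub_pt, sub_zero',
        (by decide : (fun j => ∑ j', n2 j' * ![![1, 0, 0, 0, 0], ![0, 0, 1, 0, 0],
          ![0, 0, 0, 1, 0]] j' j) = (![0, 0, 1, 0, 0] : Fin 5 → ℤ)),
        (by decide : (fun j => ∑ j', n2 j' * ![![0, 1, 0, 0, 0], ![0, 0, 1, 0, 0],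
          ![0, 0, 0, 0, 1]] j' j) = (![0, 0, 1, 0, 0] : Fin 5 → ℤ))]
      abel) hd hM hK
  have h5 := congrArg (sub ![![1, 0, 0], ![0, 0, 0], ![0, 1, 0], ![0, 0, 1], ![0, 0, 0]]) hz
  rw [sub_zero', sub_zero, add_zero, sub_sub', sub_sub_eq, sub_sub_eq, sub_zero',
    (by decide : (fun (a b : Fin 3) => ∑ j, (![![1, 0, 0, 0, 0], ![0, 0, 1, 0, 0],
      ![0, 0, 0, 1, 0]] : Fin 3 → Fin 5 → ℤ) a j * (![![1, 0, 0], ![0, 0, 0], ![0, 1, 0],
      ![0, 0, 1], ![0, 0, 0]] : Fin 5 → Fin 3 → ℤ) j b) = fun a b => if a = b then 1 else 0),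
    (by decide : (fun (a b : Fin 3) => ∑ j, (![![0, 1, 0, 0, 0], ![0, 0, 1, 0, 0],
      ![0, 0, 0, 0, 1]] : Fin 3 → Fin 5 → ℤ) a j * (![![1, 0, 0], ![0, 0, 0], ![0, 1, 0],
      ![0, 0, 1], ![0, 0, 0]] : Fin 5 → Fin 3 → ℤ) j b) =
      fun a b => ∑ j : Fin 1, (fun a (_ : Fin 1) => n2 a) a j * (fun (_ : Fin 1) => n2) j b),
    sub_id, ← sub_sub_eq, sub_one, sub_eq_zero] at h5
  obtain ⟨k, hk⟩ : ∃ k : Mon → ℤ, I = pt n2 k := ⟨_, h5⟩
  rw [hk, io_pt, (by rw [n2, sum3]; module : ∑ j, n2 j • ![x, y, t] j = y)] at h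
  refine ⟨k, fun μ => ?_⟩
  have := h μ fun _ => 1
  simpa [pt, n2] using this

end Emb

end

end Vale.Agent.P057GA
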